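import Vale.Agent.P092.RC.Defs

/-!
P092 (helper387), [N-PSL] (1): Moore sets of overgroups.
-/

set_option linter.all false

open Filter Topology

namespace Vale.Agent.P092.H387.Nm

open Vale.Agent.P092.RC (Moore)

/-- Sets which contain a Moore set of the image of `ι` and which generate the group modulo the image
of `ι` are Moore sets. -/
theorem moore_over {S E : Type} [Group S] [TopologicalSpace S] [Group E] [TopologicalSpace E]
    (ι : S →* E) (hι : Continuous ι) {A : Set E} (hM : Moore (ι ⁻¹' A))
    (hA : ∀ e : E, ∃ x ∈ Subgroup.closure A, ∃ s, e = x * ι s) : Moore A := by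
  intro X _ _ _ u hu hc ξ hξ g
  have h1 : ∀ s, u (ι s) ξ = ξ := fun s =>
    hM X (u.comp ι) (fun g ξ => hu _ ξ) (fun ξ => (hc ξ).comp hι) ξ (fun s hs => hξ _ hs) s
  have h2 : ∀ x ∈ Subgroup.closure A, u x ξ = ξ := by
    intro x hx
    induction hx using Subgroup.closure_induction with
    | mem x hx => exact hξ x hx
    | one =>
      rw [map_one]
      rfl
    | mul x y _ _ hx hy =>
      rw [map_mul]
      show u x (u y ξ) = ξ
      rw [hy, hx]
    | inv x _ hx =>
      have h3 : u x⁻¹ (u x ξ) = ξ := by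
        have h4 : u x⁻¹ * u x = 1 := by rw [← map_mul, inv_mul_cancel, map_one]
        exact congrArg (fun T : X →L[ℂ] X => T ξ) h4
      rwa [hx] at h3
  obtain ⟨x, hx, s, rfl⟩ := hA g
  rw [map_mul]
  show u x (u (ι s) ξ) = ξ
  rw [h1, h2 x hx]

end Vale.Agent.P092.H387.Nm
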