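import Vale.Agent.P092.H515.Tgt

/-!
P092 (helper387), [QC-QUOT] (1): target groups pass to quotients by finite central subgroups.
-/

set_option linter.all false

namespace Vale.Agent.P092.H387.Qt

open Vale.Agent.P092.H515

section sys

variable {G J : Type} [Group G] [Fintype J] {gp : J → G → ℝ} {w : G → ℝ}

/-- The height function is quasi-invariant under left translations. -/
theorem wq (h : GSys gp w) (s : G) : ∃ C : ℝ, 0 < C ∧ ∀ b, w (s * b) ≤ C * w b := by
  obtain ⟨P, hP, f, f0, A, hf⟩ := h.gauge ∅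
  obtain ⟨R1, h0, hR1⟩ := exists_le_all fun j => max (gp j 1) (gp j s)
  obtain ⟨C, hC⟩ := hf.left s R1
  obtain ⟨L, hL⟩ := hC 1 one_pos
  obtain ⟨R, hR⟩ := hL (max L |C|)
  obtain ⟨p, hp, σ, hσ, hk⟩ := hR 1 (by simp) (fun j _ => (le_max_left _ _).trans (hR1 j))
  obtain ⟨c, hc, D, hD⟩ := hf.bd R1 (max L |C| + |C|)
  have hC0 : 0 ≤ |C| := abs_nonneg C
  have hm1 : |C| ≤ max L |C| := le_max_right _ _
  refine ⟨c⁻¹ * (Real.exp |C| * (2 * |D|)) + 1, by positivity, fun b => ?_⟩
  have hw := h.pos b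
  have h1 := hk (fun _ => max L |C|) (fun j => ⟨le_max_left _ _, le_rfl⟩) b
  have h2 := (hD s (fun j _ => (le_max_right _ _).trans (hR1 j))
    ((fun _ => max L |C|) + σ) (fun j => by
      have := abs_le.1 ((hσ j).trans (le_abs_self C))
      constructor
      · simp only [Pi.add_apply]; linarith
      · simp only [Pi.add_apply]; linarith) (s * b)).1
  have h3 := (hD 1 (fun j _ => (le_max_left _ _).trans (hR1 j))
    (fun _ => max L |C|) (fun j => ⟨by linarith, by linarith⟩) b)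
  rw [mul_one] at h1
  set X := f ((fun _ => max L |C|) + σ) s (s * b) with hX
  set Y := f (fun _ => max L |C|) 1 b with hY
  have hY0 : 0 < Y := lt_of_lt_of_le (mul_pos hc hw) h3.1
  have h4 : Real.exp p * X ≤ 2 * Y := by
    have := (abs_le.1 h1).2
    linarith
  have hX0 : 0 < X := lt_of_lt_of_le (mul_pos hc (h.pos _)) h2
  have h5 : X ≤ Real.exp |C| * (2 * Y) := by
    have e1 : X = Real.exp (-p) * (Real.exp p * X) := by
      rw [← mul_assoc, ← Real.exp_add]; simp
    rw [e1]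
    have e2 : Real.exp (-p) ≤ Real.exp |C| := Real.exp_le_exp.2 (by
      have := abs_le.1 (hp.trans (le_abs_self C)); linarith)
    calc Real.exp (-p) * (Real.exp p * X) ≤ Real.exp (-p) * (2 * Y) :=
          mul_le_mul_of_nonneg_left h4 (Real.exp_pos _).le
      _ ≤ _ := mul_le_mul_of_nonneg_right e2 (by positivity)
  have h6 : Y ≤ |D| * w b := h3.2.trans (mul_le_mul_of_nonneg_right (le_abs_self D) hw.le)
  have h7 : c * w (s * b) ≤ Real.exp |C| * (2 * (|D| * w b)) := by
    refine h2.trans (h5.trans ?_)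
    gcongr
  have h8 : w (s * b) = c⁻¹ * (c * w (s * b)) := by field_simp
  rw [h8]
  calc c⁻¹ * (c * w (s * b)) ≤ c⁻¹ * (Real.exp |C| * (2 * (|D| * w b))) :=
        mul_le_mul_of_nonneg_left h7 (by positivity)
    _ = c⁻¹ * (Real.exp |C| * (2 * |D|)) * w b := by ring
    _ ≤ _ := by nlinarith

end sys

section quo

variable {G H : Type} [Group G] [Group H] (π : G →* H) (Z : Subgroup G) [Fintype Z]

/-- Elements with the same image differ by an element of the kernel. -/
theorem diff (hk : π.ker = Z) (hZ : Z ≤ Subgroup.center G) {x y : G} (h : π x = π y) :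
    ∃ z : Z, x = y * z := by
  refine ⟨⟨y⁻¹ * x, ?_⟩, ?_⟩
  · rw [← hk, MonoidHom.mem_ker, map_mul, map_inv, h, inv_mul_cancel]
  · simp

theorem cen (hZ : Z ≤ Subgroup.center G) (z : Z) (x : G) : (z : G) * x = x * z :=
  (Subgroup.mem_center_iff.1 (hZ z.2) x).symm

variable {π Z}

/-- **Systems of gauges pass to quotients by finite central subgroups.** -/
theorem gsys_quo {J : Type} [Fintype J] {gp : J → G → ℝ} {w : G → ℝ} (h : GSys gp w)
    (hk : π.ker = Z) (hZ : Z ≤ Subgroup.center G) (s : H → G) (hs : ∀ x, π (s x) = x) :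
    GSys (fun j x => gp j (s x)) (fun x => ∑ z : Z, w (s x * z)) := by
  classical
  choose W hW0 hW using fun z : Z => wq h (z : G)
  obtain ⟨Wm, hWm0, hWm⟩ := exists_le_all W
  have hw : ∀ (x : G) (z : Z), w (x * z) ≤ Wm * w x := fun x z => by
    rw [← cen Z hZ z x]
    exact (hW z x).trans (mul_le_mul_of_nonneg_right (hWm z) (h.pos x).le)
  have hsum : ∀ x, 0 < ∑ z : Z, w (s x * z) := fun x =>
    Finset.sum_pos (fun z _ => h.pos _) ⟨1, Finset.mem_univ _⟩
  refine ⟨hsum, fun a b => ?_, fun R => ?_, ?_, fun θ => ?_⟩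
  · choose C hC using fun z : Z => h.quasi (s a) (s b * z)
    obtain ⟨D, hD0, hD⟩ := exists_le_all C
    refine ⟨D, fun j g => ?_⟩
    obtain ⟨z, hz⟩ := diff π Z hk hZ (x := s (a * g * b)) (y := s a * s g * s b)
      (by simp only [map_mul, hs])
    show |gp j (s (a * g * b)) - gp j (s g)| ≤ D
    rw [hz, mul_assoc _ (s b) (z : G)]
    exact (hC z j (s g)).trans (hD z)
  · choose C hC using fun z : Z => h.quasi 1 (z : G)
    obtain ⟨D, hD0, hD⟩ := exists_le_all C
    obtain ⟨R', hR'⟩ := h.bdd (R + D)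
    refine ⟨∑ _z : Z, R', fun g hg => Finset.sum_le_sum fun z _ => hR' _ fun j => ?_⟩
    have := abs_le.1 ((hC z j (s g)).trans (hD z))
    rw [one_mul] at this
    have h1 := hg j
    linarith
  · obtain ⟨C0, C, hC, M, hM⟩ := h.pack
    refine ⟨∑ _z : Z, Wm * C0, C, hC, M, fun k => ?_⟩
    obtain ⟨X, hX, code, h1, h2⟩ := hM k
    refine ⟨X, hX, fun x => code (s x), h1, fun b b' hb hb' hc => ?_⟩
    have hle : ∀ x, w (s x) ≤ ∑ z : Z, w (s x * z) := fun x => by
      have := Finset.single_le_sum (f := fun z : Z => w (s x * z)) (fun z _ => (h.pos _).le)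
        (Finset.mem_univ (1 : Z))
      simpa using this
    have h3 := h2 (s b) (s b') ((hle b).trans hb) ((hle b').trans hb') hc
    obtain ⟨ζ, hζ⟩ := diff π Z hk hZ (x := s (b⁻¹ * b')) (y := (s b)⁻¹ * s b')
      (by simp only [map_mul, map_inv, hs])
    refine Finset.sum_le_sum fun z _ => ?_
    rw [hζ, mul_assoc _ (ζ : G) (z : G)]
    have h4 := hw ((s b)⁻¹ * s b') (ζ * z)
    refine h4.trans (mul_le_mul_of_nonneg_left h3 hWm0)
  · obtain ⟨P, hP, f, f0, A, hf⟩ := h.gauge θ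
    refine ⟨P, hP, fun t x b => ∑ z : Z, f t (s x) (s b * z),
      fun t x b => ∑ z : Z, f0 t (s x) (s b * z), A, ?_⟩
    refine ⟨fun t g => ?_, fun t g => ?_, fun R T => ?_, fun T => ?_, fun t d g b => ?_,
      fun a R1 => ?_, fun u T η hη => ?_, fun R => ?_⟩
    · obtain ⟨c, hc, h1⟩ := hf.lo t (s g)
      exact ⟨c, hc, fun b => by rw [Finset.mul_sum]; exact Finset.sum_le_sum fun z _ => h1 _⟩
    · obtain ⟨c, hc, h1⟩ := hf.lo0 t (s g)
      exact ⟨c, hc, fun b => by rw [Finset.mul_sum]; exact Finset.sum_le_sum fun z _ => h1 _⟩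
    · obtain ⟨c, hc, C, h1⟩ := hf.bd R T
      refine ⟨c, hc, C, fun g hg t ht b => ?_⟩
      rw [Finset.mul_sum, Finset.mul_sum]
      exact ⟨Finset.sum_le_sum fun z _ => (h1 _ hg t ht _).1,
        Finset.sum_le_sum fun z _ => (h1 _ hg t ht _).2⟩
    · obtain ⟨c, hc, C, h1⟩ := hf.bd0 T
      refine ⟨c, hc, C, fun g t ht b => ?_⟩
      rw [Finset.mul_sum, Finset.mul_sum]
      exact ⟨Finset.sum_le_sum fun z _ => (h1 _ t ht _).1,
        Finset.sum_le_sum fun z _ => (h1 _ t ht _).2⟩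
    · rw [Finset.mul_sum]
      exact Finset.sum_le_sum fun z _ => hf.lip t d _ _
    · choose C hC using fun z : Z => hf.left (s a * z) R1
      obtain ⟨D, hD0, hD⟩ := exists_le_all C
      refine ⟨D, fun ρ hρ => ?_⟩
      choose L hL using fun z : Z => hC z ρ hρ
      obtain ⟨L', -, hL'⟩ := exists_le_all L
      refine ⟨L', fun T => ?_⟩
      choose R hR using fun z : Z => hL z T
      obtain ⟨R', -, hR'⟩ := exists_le_all R
      refine ⟨R', fun g h1 h2 => ?_⟩
      obtain ⟨ζ, hζ⟩ := diff π Z hk hZ (x := s (a * g)) (y := s a * s g)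
        (by simp only [map_mul, hs])
      obtain ⟨p, hp, σ, hσ, h3⟩ := hR ζ (s g) (fun j hj => (hR' ζ).trans (h1 j hj)) h2
      refine ⟨p, hp.trans (hD ζ), σ, fun j => (hσ j).trans (hD ζ), fun t ht b => ?_⟩
      obtain ⟨ξ, hξ⟩ := diff π Z hk hZ (x := s (a * b)) (y := s a * ζ * s b)
        (by
          have hζ1 : π (ζ : G) = 1 := by
            rw [← MonoidHom.mem_ker, hk]; exact ζ.2
          simp only [map_mul, hs, hζ1, mul_one])
      have e1 : s (a * g) = s a * ζ * s g := by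
        rw [hζ, mul_assoc, mul_assoc, cen Z hZ ζ (s g)]
      have e2 : ∑ z : Z, f (t + σ) (s (a * g)) (s (a * b) * z) =
          ∑ z : Z, f (t + σ) (s a * ζ * s g) (s a * ζ * (s b * z)) := by
        rw [e1, hξ]
        refine Fintype.sum_equiv (Equiv.mulLeft ξ) _ _ fun z => ?_
        simp only [Equiv.coe_mulLeft, Subgroup.coe_mul, mul_assoc]
      show |Real.exp p * ∑ z : Z, f (t + σ) (s (a * g)) (s (a * b) * z) -
        ∑ z : Z, f t (s g) (s b * z)| ≤ ρ * ∑ z : Z, f t (s g) (s b * z)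
      rw [e2, Finset.mul_sum, ← Finset.sum_sub_distrib, Finset.mul_sum]
      refine (Finset.abs_sum_le_sum_abs _ _).trans (Finset.sum_le_sum fun z _ => ?_)
      exact h3 t (fun j => ⟨(hL' ζ).trans (ht j).1, (ht j).2⟩) (s b * z)
    · choose R hR using fun z : Z => hf.right (s u * z) T η hη
      obtain ⟨R', -, hR'⟩ := exists_le_all R
      refine ⟨R', fun g h1 t ht b => ?_⟩
      obtain ⟨ζ, hζ⟩ := diff π Z hk hZ (x := s (g * u)) (y := s g * s u)
        (by simp only [map_mul, hs])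
      show |∑ z : Z, f0 t (s (g * u)) (s b * z) - ∑ z : Z, f0 t (s g) (s b * z)| ≤
        η * ∑ z : Z, f0 t (s g) (s b * z)
      rw [hζ, mul_assoc, ← Finset.sum_sub_distrib, Finset.mul_sum]
      refine (Finset.abs_sum_le_sum_abs _ _).trans (Finset.sum_le_sum fun z _ => ?_)
      exact hR ζ (s g) (fun j hj => (hR' ζ).trans (h1 j hj)) t ht _
    · obtain ⟨C, hC1, hC⟩ := hf.ov R
      refine ⟨C, hC1, fun T => ?_⟩
      obtain ⟨D, hD⟩ := hC T
      refine ⟨D, fun g h1 h2 t ht b => ?_⟩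
      show ∑ z : Z, f t (s g) (s b * z) ≤ C * ∑ z : Z, f0 t (s g) (s b * z) ∧
        ∑ z : Z, f0 t (s g) (s b * z) ≤ C * ∑ z : Z, f t (s g) (s b * z)
      rw [Finset.mul_sum, Finset.mul_sum]
      exact ⟨Finset.sum_le_sum fun z _ => (hD _ h1 h2 t ht _).1,
        Finset.sum_le_sum fun z _ => (hD _ h1 h2 t ht _).2⟩

end quo

/-- **Target groups pass to quotients by finite central subgroups.** -/
theorem tgt_quo {G H : Type} [Group G] [TopologicalSpace G] [Group H] [TopologicalSpace H] {r : ℕ}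
    (h : Tgt G r) (π : G →* H) (hπ : Continuous π) (hsur : Function.Surjective π)
    (hfin : Finite π.ker) (hc : π.ker ≤ Subgroup.center G) : Tgt H r := by
  classical
  obtain ⟨J, hJ, gp, w, cl, hs⟩ := h
  have : Fintype π.ker := Fintype.ofFinite _
  obtain ⟨s, hs'⟩ := hsur.hasRightInverse
  refine ⟨J, hJ, fun j x => gp j (s x), fun x => ∑ z : π.ker, w (s x * z), cl,
    gsys_quo hs.sys rfl hc s hs', fun R => ?_, fun R => ?_⟩
  · obtain ⟨R', hR⟩ := hs.comp R
    exact ⟨R', fun i j hij g hg => hR i j hij _ hg⟩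
  · obtain ⟨K, hK, h1⟩ := hs.proper R
    refine ⟨π '' K, hK.image hπ, fun g hg => ⟨s g, h1 _ ?_, hs' g⟩⟩
    have := Finset.single_le_sum (f := fun z : π.ker => w (s g * z))
      (fun z _ => (hs.sys.pos _).le) (Finset.mem_univ (1 : π.ker))
    have h2 : w (s g) ≤ ∑ z : π.ker, w (s g * z) := by simpa using this
    exact h2.trans hg

end Vale.Agent.P092.H387.Qt
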