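import Vale.Agent.P092.H264.S2Sl
import Vale.Agent.P092.PA.Fac

/-!
P092 (helper387), [QC-QUOT] (2): chains of row pairs pass to quotients by subgroups which act on the
rows by scalars.
-/

set_option linter.all false

open Set Topology Filter

namespace Vale.Agent.P092.H387.Qt

open Vale.Agent.P092.H701

section row

variable {H : Type} [Group H] [TopologicalSpace H] {H' : Type} [Group H'] [TopologicalSpace H']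
variable {k : Type*} [NontriviallyNormedField k] {V : Type*} [NormedAddCommGroup V]
  [NormedSpace k V]

/-- the repelling set -/
def Bm (R : RowPair H k V) (η : ℝ) (t : k) : Set H :=
  {x | ‖R.ρ₁ x + t • R.ρ₂ x‖ ≤ η / 8 * max ‖R.ρ₁ x‖ ‖R.ρ₂ x‖}

/-- the attracting set, first half -/
def Bp₁ (R : RowPair H k V) : Set H := {x | R.ρ₁ x ≠ 0}

/-- the attracting set, second half -/
def Bp₂ (R : RowPair H k V) (η : ℝ) (t : k) : Set H :=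
  {x | ‖R.ρ₂ x - t • R.ρ₁ x‖ ≤ η / 4 * ‖R.ρ₁ x‖}

/-- The kernel of `π` acts on the two rows by scalars. -/
def ScK (R : RowPair H k V) (π : H →* H') : Prop :=
  ∀ z, π z = 1 → ∃ c : k, c ≠ 0 ∧ (∀ x, R.ρ₁ (x * z) = c • R.ρ₁ x) ∧
    ∀ x, R.ρ₂ (x * z) = c • R.ρ₂ x

variable {R : RowPair H k V} {π : H →* H'}

theorem sat_of {S : Set H} (h : ∀ z, π z = 1 → ∀ x ∈ S, x * z ∈ S) : π ⁻¹' (π '' S) = S := by
  ext x
  constructor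
  · rintro ⟨y, hy, hyx⟩
    have := h (y⁻¹ * x) (by rw [map_mul, map_inv, hyx, inv_mul_cancel]) y hy
    rwa [mul_inv_cancel_left] at this
  · intro hx
    exact ⟨x, hx, rfl⟩

theorem inter_of {S T : Set H} (h : ∀ z, π z = 1 → ∀ x ∈ T, x * z ∈ T) :
    π '' (S ∩ T) = π '' S ∩ π '' T := by
  refine Subset.antisymm (image_inter_subset _ _ _) ?_
  rintro _ ⟨⟨x, hx, rfl⟩, hy⟩
  refine ⟨x, ⟨hx, ?_⟩, rfl⟩
  have : x ∈ π ⁻¹' (π '' T) := hy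
  rwa [sat_of h] at this

theorem sat_Bm (h : ScK R π) (η : ℝ) (t : k) : ∀ z, π z = 1 → ∀ x ∈ Bm R η t, x * z ∈ Bm R η t := by
  intro z hz x hx
  obtain ⟨c, hc, h1, h2⟩ := h z hz
  have hc' : 0 < ‖c‖ := norm_pos_iff.2 hc
  change ‖R.ρ₁ (x * z) + t • R.ρ₂ (x * z)‖ ≤ η / 8 * max ‖R.ρ₁ (x * z)‖ ‖R.ρ₂ (x * z)‖
  rw [h1, h2, smul_comm t c, ← smul_add, norm_smul, norm_smul, norm_smul,
    ← mul_max_of_nonneg _ _ hc'.le]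
  calc ‖c‖ * ‖R.ρ₁ x + t • R.ρ₂ x‖ ≤ ‖c‖ * (η / 8 * max ‖R.ρ₁ x‖ ‖R.ρ₂ x‖) :=
        mul_le_mul_of_nonneg_left hx hc'.le
    _ = _ := by ring

theorem sat_Bp₁ (h : ScK R π) : ∀ z, π z = 1 → ∀ x ∈ Bp₁ R, x * z ∈ Bp₁ R := by
  intro z hz x hx
  obtain ⟨c, hc, h1, h2⟩ := h z hz
  change R.ρ₁ (x * z) ≠ 0
  rw [h1]
  exact smul_ne_zero hc hx

theorem sat_Bp₂ (h : ScK R π) (η : ℝ) (t : k) :
    ∀ z, π z = 1 → ∀ x ∈ Bp₂ R η t, x * z ∈ Bp₂ R η t := by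
  intro z hz x hx
  obtain ⟨c, hc, h1, h2⟩ := h z hz
  have hc' : 0 < ‖c‖ := norm_pos_iff.2 hc
  change ‖R.ρ₂ (x * z) - t • R.ρ₁ (x * z)‖ ≤ η / 4 * ‖R.ρ₁ (x * z)‖
  rw [h1, h2, smul_comm t c, ← smul_sub, norm_smul, norm_smul]
  calc ‖c‖ * ‖R.ρ₂ x - t • R.ρ₁ x‖ ≤ ‖c‖ * (η / 4 * ‖R.ρ₁ x‖) :=
        mul_le_mul_of_nonneg_left hx hc'.le
    _ = _ := by ring

theorem disj_Bm {η : ℝ} (hη : 0 < η) {t t' : k} (ht : ‖t‖ ≤ 1) (hsep : η ≤ ‖t - t'‖)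
    (hη1 : η ≤ 1) : Disjoint (Bm R η t) (Bm R η t') := by
  rw [Set.disjoint_left]
  intro x hx hx'
  simp only [Bm, Set.mem_setOf_eq] at hx hx'
  set m := max ‖R.ρ₁ x‖ ‖R.ρ₂ x‖ with hm
  have hm0 : 0 < m := R.ne x
  have h1 : (t - t') • R.ρ₂ x = (R.ρ₁ x + t • R.ρ₂ x) - (R.ρ₁ x + t' • R.ρ₂ x) := by
    rw [sub_smul]; abel
  have h2 : η * ‖R.ρ₂ x‖ ≤ η / 4 * m := by
    calc η * ‖R.ρ₂ x‖ ≤ ‖t - t'‖ * ‖R.ρ₂ x‖ :=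
          mul_le_mul_of_nonneg_right hsep (norm_nonneg _)
      _ = ‖(t - t') • R.ρ₂ x‖ := (norm_smul _ _).symm
      _ = ‖(R.ρ₁ x + t • R.ρ₂ x) - (R.ρ₁ x + t' • R.ρ₂ x)‖ := by rw [h1]
      _ ≤ ‖R.ρ₁ x + t • R.ρ₂ x‖ + ‖R.ρ₁ x + t' • R.ρ₂ x‖ := norm_sub_le _ _
      _ ≤ η / 8 * m + η / 8 * m := add_le_add hx hx'
      _ = η / 4 * m := by ring
  have h3 : ‖R.ρ₂ x‖ ≤ m / 4 := by
    have : η * ‖R.ρ₂ x‖ ≤ η * (m / 4) := by linarith [h2]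
    exact le_of_mul_le_mul_left this hη
  have h4 : ‖R.ρ₁ x‖ ≤ m / 8 + m / 4 := by
    have e1 : R.ρ₁ x = (R.ρ₁ x + t • R.ρ₂ x) - t • R.ρ₂ x := by abel
    calc ‖R.ρ₁ x‖ = ‖(R.ρ₁ x + t • R.ρ₂ x) - t • R.ρ₂ x‖ := by rw [← e1]
      _ ≤ ‖R.ρ₁ x + t • R.ρ₂ x‖ + ‖t • R.ρ₂ x‖ := norm_sub_le _ _
      _ ≤ η / 8 * m + 1 * (m / 4) := by
          apply add_le_add hx
          rw [norm_smul]
          exact mul_le_mul ht h3 (norm_nonneg _) zero_le_one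
      _ ≤ m / 8 + m / 4 := by nlinarith
  have h5 : m ≤ m / 8 + m / 4 := max_le h4 (by linarith [h3])
  linarith

theorem disj_Bp {η : ℝ} (hη : 0 < η) {t t' : k} (hsep : η ≤ ‖t - t'‖) :
    Disjoint (Bp₁ R ∩ Bp₂ R η t) (Bp₁ R ∩ Bp₂ R η t') := by
  rw [Set.disjoint_left]
  rintro x ⟨hx0, hx⟩ ⟨-, hx'⟩
  have hx0' : R.ρ₁ x ≠ 0 := hx0
  have hpos : 0 < ‖R.ρ₁ x‖ := norm_pos_iff.mpr hx0'
  have h1 : (t - t') • R.ρ₁ x = (R.ρ₂ x - t' • R.ρ₁ x) - (R.ρ₂ x - t • R.ρ₁ x) := by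
    rw [sub_smul]; abel
  have h2 : η * ‖R.ρ₁ x‖ ≤ η / 2 * ‖R.ρ₁ x‖ := by
    calc η * ‖R.ρ₁ x‖ ≤ ‖t - t'‖ * ‖R.ρ₁ x‖ :=
          mul_le_mul_of_nonneg_right hsep (norm_nonneg _)
      _ = ‖(t - t') • R.ρ₁ x‖ := (norm_smul _ _).symm
      _ = ‖(R.ρ₂ x - t' • R.ρ₁ x) - (R.ρ₂ x - t • R.ρ₁ x)‖ := by rw [h1]
      _ ≤ ‖R.ρ₂ x - t' • R.ρ₁ x‖ + ‖R.ρ₂ x - t • R.ρ₁ x‖ := norm_sub_le _ _
      _ ≤ η / 4 * ‖R.ρ₁ x‖ + η / 4 * ‖R.ρ₁ x‖ := add_le_add hx' hx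
      _ = η / 2 * ‖R.ρ₁ x‖ := by ring
  have : η * ‖R.ρ₁ x‖ > 0 := mul_pos hη hpos
  linarith

theorem map_pp {b : H} {α β : k} (h₁ : ∀ x, R.ρ₁ (b * x) = α • R.ρ₁ x)
    (h₂ : ∀ x, R.ρ₂ (b * x) = β • R.ρ₂ x) (h0 : α ≠ 0) {η : ℝ} (hη : 0 < η)
    (hC' : ‖β‖ ≤ η / 4 * (η / 8) * ‖α‖) {t : k} {x : H} (hx : x ∉ Bm R η t) :
    R.lo t * b * R.up t * x ∈ Bp₁ R ∩ Bp₂ R η t := by
  simp only [Bm, Set.mem_setOf_eq, not_le] at hx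
  set m := max ‖R.ρ₁ x‖ ‖R.ρ₂ x‖ with hm
  have hm0 : 0 < m := R.ne x
  have e1 : R.ρ₁ (R.lo t * b * R.up t * x) = α • (R.ρ₁ x + t • R.ρ₂ x) := by
    rw [mul_assoc, mul_assoc, R.lo₁, h₁, R.up₁]
  have e2 : R.ρ₂ (R.lo t * b * R.up t * x) = β • R.ρ₂ x + t • (α • (R.ρ₁ x + t • R.ρ₂ x)) := by
    rw [mul_assoc, mul_assoc, R.lo₂, h₂, h₁, R.up₁, R.up₂]
  have hz : 0 < ‖R.ρ₁ x + t • R.ρ₂ x‖ := lt_of_le_of_lt (by positivity) hx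
  have hα : 0 < ‖α‖ := norm_pos_iff.mpr h0
  refine ⟨?_, ?_⟩
  · show R.ρ₁ _ ≠ 0
    rw [e1]
    exact smul_ne_zero h0 (norm_pos_iff.mp hz)
  · show ‖R.ρ₂ _ - t • R.ρ₁ _‖ ≤ η / 4 * ‖R.ρ₁ _‖
    rw [e1, e2, add_sub_cancel_right, norm_smul, norm_smul]
    calc ‖β‖ * ‖R.ρ₂ x‖ ≤ (η / 4 * (η / 8) * ‖α‖) * m :=
          mul_le_mul hC' (le_max_right _ _) (norm_nonneg _) (by positivity)
      _ = η / 4 * (‖α‖ * (η / 8 * m)) := by ring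
      _ ≤ η / 4 * (‖α‖ * ‖R.ρ₁ x + t • R.ρ₂ x‖) := by
          apply mul_le_mul_of_nonneg_left _ (by positivity)
          exact mul_le_mul_of_nonneg_left hx.le hα.le

/-- **The ping-pong family of a row pair in a quotient.** -/
theorem pp_quo [MeasurableSpace H'] [BorelSpace H'] (hsc : ScK R π) (hq : IsQuotientMap π)
    (b : ℕ → H) (α β : ℕ → k)
    (h₁ : ∀ N x, R.ρ₁ (b N * x) = α N • R.ρ₁ x) (h₂ : ∀ N x, R.ρ₂ (b N * x) = β N • R.ρ₂ x)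
    (h0 : ∀ N, α N ≠ 0) (hlim : ∀ C : ℝ, ∃ N₀, ∀ N, N₀ ≤ N → C * ‖β N‖ ≤ ‖α N‖) (p : ℕ) :
    ∃ N₀, ∀ N, N₀ ≤ N → ∃ (κ κ' : Fin p → H') (Bm Bp : Fin p → Set H'),
      (∀ l, κ l ∈ π '' R.K) ∧ (∀ l, κ' l ∈ π '' R.K) ∧
      (∀ l, MeasurableSet (Bm l)) ∧ (∀ l, MeasurableSet (Bp l)) ∧
      (∀ l l', l ≠ l' → Disjoint (Bm l) (Bm l')) ∧
      (∀ l l', l ≠ l' → Disjoint (Bp l) (Bp l')) ∧
      ∀ l x, x ∉ Bm l → κ l * π (b N) * κ' l * x ∈ Bp l := by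
  obtain ⟨t, η, hη, hη1, ht, hsep⟩ := exists_pts k p
  obtain ⟨N₀, hN₀⟩ := hlim (32 / η ^ 2)
  refine ⟨N₀, fun N hN => ?_⟩
  have hC := hN₀ N hN
  have hC' : ‖β N‖ ≤ η / 4 * (η / 8) * ‖α N‖ := by
    have h3 : (0 : ℝ) < η ^ 2 := by positivity
    have : η ^ 2 / 32 * (32 / η ^ 2 * ‖β N‖) ≤ η ^ 2 / 32 * ‖α N‖ :=
      mul_le_mul_of_nonneg_left hC (by positivity)
    have h4 : η ^ 2 / 32 * (32 / η ^ 2 * ‖β N‖) = ‖β N‖ := by field_simp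
    rw [h4] at this
    calc ‖β N‖ ≤ η ^ 2 / 32 * ‖α N‖ := this
      _ = η / 4 * (η / 8) * ‖α N‖ := by ring
  have c1 := R.cont₁
  have c2 := R.cont₂
  have clBm : ∀ l, IsClosed (π '' Bm R η (t l)) := fun l => by
    rw [← hq.isClosed_preimage, sat_of (sat_Bm hsc η (t l))]
    exact isClosed_le (by fun_prop) (by fun_prop)
  have clBp : ∀ l, IsClosed (π '' Bp₂ R η (t l)) := fun l => by
    rw [← hq.isClosed_preimage, sat_of (sat_Bp₂ hsc η (t l))]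
    exact isClosed_le (by fun_prop) (by fun_prop)
  have opBp : IsOpen (π '' Bp₁ R) := by
    rw [← hq.isOpen_preimage, sat_of (sat_Bp₁ hsc)]
    exact isOpen_ne.preimage c1
  have dis : ∀ {S T : Set H}, (∀ z, π z = 1 → ∀ x ∈ T, x * z ∈ T) → Disjoint S T →
      Disjoint (π '' S) (π '' T) := fun {S T} hT hST => by
    rw [Set.disjoint_iff_inter_eq_empty, ← inter_of hT, hST.inter_eq, image_empty]
  refine ⟨fun l => π (R.lo (t l)), fun l => π (R.up (t l)), fun l => π '' Bm R η (t l),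
    fun l => π '' (Bp₁ R ∩ Bp₂ R η (t l)), fun l => ?_, fun l => ?_, fun l => (clBm l).measurableSet,
    fun l => ?_, fun l l' hl => dis (sat_Bm hsc η _) (disj_Bm hη (ht l) (hsep l l' hl) hη1),
    fun l l' hl => dis (fun z hz x hx => ⟨sat_Bp₁ hsc z hz x hx.1, sat_Bp₂ hsc η _ z hz x hx.2⟩)
      (disj_Bp hη (hsep l l' hl)), fun l y hy => ?_⟩
  · exact ⟨_, Or.inr ⟨t l, by simpa using ht l, rfl⟩, rfl⟩
  · exact ⟨_, Or.inl ⟨t l, by simpa using ht l, rfl⟩, rfl⟩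
  · have e : π '' (Bp₁ R ∩ Bp₂ R η (t l)) = π '' Bp₁ R ∩ π '' Bp₂ R η (t l) :=
      inter_of (sat_Bp₂ hsc η (t l))
    have h := opBp.measurableSet.inter (clBp l).measurableSet
    rw [← e] at h
    exact h
  · obtain ⟨x, rfl⟩ := hq.surjective y
    refine ⟨R.lo (t l) * b N * R.up (t l) * x, ?_, by simp only [map_mul]⟩
    exact map_pp (h₁ N) (h₂ N) (h0 N) hη hC' fun hx => hy ⟨x, hx, rfl⟩

variable {r : ℕ}

/-- **Chains of row pairs in quotients.** -/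
theorem chn_quo [ProperSpace k] (R : Fin r → RowPair H k V) (b : Fin r → ℕ → H)
    (α β : Fin r → ℕ → k)
    (h₁ : ∀ j N x, (R j).ρ₁ (b j N * x) = α j N • (R j).ρ₁ x)
    (h₂ : ∀ j N x, (R j).ρ₂ (b j N * x) = β j N • (R j).ρ₂ x)
    (h0 : ∀ j N, α j N ≠ 0) (hlim : ∀ j, ∀ C : ℝ, ∃ N₀, ∀ N, N₀ ≤ N → C * ‖β j N‖ ≤ ‖α j N‖)
    (hb : ∀ i j, i < j → ∀ N M, b i N * b j M = b j M * b i N)
    (hK : ∀ i j, i < j → ∀ N, ∀ x ∈ (R j).K, b i N * x = x * b i N)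
    (hsc : ∀ j, ScK (R j) π) (hq : IsQuotientMap π)
    (ht : ∀ hr : 0 < r, Tendsto (fun N => π (b ⟨0, hr⟩ N)) atTop (cocompact H')) :
    H264.Chn H' r := by
  let _ : MeasurableSpace H' := borel H'
  have _ : BorelSpace H' := ⟨rfl⟩
  refine ⟨{ b := fun j N => π (b j N), K := fun j => π '' (R j).K,
            compact := fun j => (RowPair.isCompact_K _).image hq.continuous,
            comm_b := fun i j hij N M => by rw [← map_mul, hb i j hij, map_mul],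
            comm_K := ?_, pp := ?_ }, fun hn => ht hn⟩
  · rintro i j hij N _ ⟨x, hx, rfl⟩
    rw [← map_mul, hK i j hij N x hx, map_mul]
  · intro j p
    exact pp_quo (hsc j) hq (b j) (α j) (β j) (h₁ j) (h₂ j) (h0 j) (hlim j) p

end row

end Vale.Agent.P092.H387.Qt
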