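import Vale.Agent.P092.H259.Grp
import Vale.Agent.P092.PA.Fac

/-!
P092 (helper387), [QC-QUOT] (3): the quotient by the centre of a quotient by a finite central subgroup.
-/

set_option linter.all false

open Set Topology Filter
open scoped InnerProductSpace

namespace Vale.Agent.P092.H387.Qt

open Vale.Agent.P092.PA (FacS HM Rec)
open Vale.Agent.P092.H259 (PQ pq)

section congr

variable {G G' : Type} [Group G] [TopologicalSpace G] [Group G'] [TopologicalSpace G']

/-- The facts about a factor are invariant under isomorphisms. -/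
theorem facS_congr (h : FacS G) (e : G ≃ₜ* G') : FacS G' := by
  haveI := h.top
  haveI := h.lc
  haveI := h.sc
  haveI := h.t2
  have hs : ∀ x : G', e (e.symm x) = x := e.apply_symm_apply
  have hs' : ∀ x : G, e.symm (e x) = x := e.symm_apply_apply
  have hc : Continuous e := e.continuous_toFun
  have hc' : Continuous e.symm := e.continuous_invFun
  refine
    { top := ?_, lc := ?_, sc := ?_, t2 := ?_, nc := ?_, simple := ?_, cent := ?_, hom := ?_,
      recu := ?_, hm := ?_ }
  · exact
      { continuous_mul := by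
          have h1 : Continuous fun p : G' × G' => e (e.symm p.1 * e.symm p.2) := by fun_prop
          refine h1.congr fun p => ?_
          rw [map_mul, hs, hs]
        continuous_inv := by
          have h1 : Continuous fun p : G' => e (e.symm p)⁻¹ := by fun_prop
          refine h1.congr fun p => ?_
          rw [map_inv, hs] }
  · exact e.toHomeomorph.symm.isClosedEmbedding.locallyCompactSpace
  · exact e.toHomeomorph.symm.isEmbedding.secondCountableTopology
  · exact e.toHomeomorph.symm.isEmbedding.t2Space
  · intro hG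
    exact h.nc e.toHomeomorph.symm.compactSpace
  · intro N hN
    rcases h.simple (N.comap e.toMulEquiv.toMonoidHom) (hN.comap _) with h1 | h1
    · left
      rw [Subgroup.eq_bot_iff_forall]
      intro x hx
      have h2 : e.symm x ∈ N.comap e.toMulEquiv.toMonoidHom := by
        show e (e.symm x) ∈ N
        rwa [hs]
      rw [h1, Subgroup.mem_bot] at h2
      rw [← hs x, h2, map_one]
    · right
      rw [Subgroup.eq_top_iff']
      intro x
      have h2 : e.symm x ∈ N.comap e.toMulEquiv.toMonoidHom := by rw [h1]; trivial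
      have h3 : e (e.symm x) ∈ N := h2
      rwa [hs] at h3
  · intro g hg ho
    refine h.cent (e.symm g) (fun h1 => hg (by rw [← hs g, h1, map_one])) ?_
    have e1 : ((Subgroup.centralizer {e.symm g} : Subgroup G) : Set G) =
        e ⁻¹' ((Subgroup.centralizer {g} : Subgroup G') : Set G') := by
      ext x
      simp only [SetLike.mem_coe, mem_preimage, Subgroup.mem_centralizer_iff, mem_singleton_iff,
        forall_eq]
      constructor
      · intro hx
        have := congrArg e hx
        rwa [map_mul, map_mul, hs] at this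
      · intro hx
        have := congrArg e.symm hx
        rwa [map_mul, map_mul, hs'] at this
    rw [e1]
    exact ho.preimage hc
  · intro A _ f
    refine MonoidHom.ext fun x => ?_
    have := DFunLike.congr_fun (h.hom A (f.comp e.toMulEquiv.toMonoidHom)) (e.symm x)
    change f (e (e.symm x)) = 1 at this
    rwa [hs] at this
  · intro z hz
    obtain ⟨W, hW, a, ha⟩ := h.recu (e.symm z) (fun h1 => hz (by rw [← hs z, h1, map_one]))
    refine ⟨e.symm ⁻¹' W, hc'.continuousAt.preimage_mem_nhds hW, fun i => e (a i), fun i j hij => ?_⟩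
    have h1 := ha hij
    simp only [Set.disjoint_left] at h1 ⊢
    rintro _ ⟨x, hx, rfl⟩ ⟨y, hy, hxy⟩
    refine h1 ⟨e.symm x, hx, rfl⟩ ⟨e.symm y, hy, ?_⟩
    have h2 := congrArg e.symm hxy
    simpa only [map_mul, map_inv, hs'] using h2
  · intro X _ _ _ π h1 h2 h3 ξ η
    have h4 := h.hm X (π.comp e.toMulEquiv.toMonoidHom) (fun g ξ => h1 _ ξ)
      (fun ξ => (h2 ξ).comp hc)
      (fun ξ hξ => h3 ξ fun g => by
        have := hξ (e.symm g)
        change π (e (e.symm g)) ξ = ξ at this
        rwa [hs] at this) ξ η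
    have h5 : Tendsto e.symm (cocompact G') (cocompact G) :=
      e.toHomeomorph.symm.isClosedEmbedding.tendsto_cocompact
    refine (h4.comp h5).congr fun g => ?_
    show ⟪ξ, π (e (e.symm g)) η⟫_ℂ = ⟪ξ, π g η⟫_ℂ
    rw [hs]

end congr

section quo

variable {E : Type} [Group E] (Z : Subgroup E) [Z.Normal]

/-- If the quotient by the centre has no abelian quotients, then centres of central quotients are
images of the centre. -/
theorem comm_lift {A : Type} [hg : Group A] (hA : ∀ a b : A, a * b = b * a) (f : E →* A)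
    (hf : Subgroup.center E ≤ f.ker)
    (hom : ∀ (A : Type) [CommGroup A] (f : PQ E →* A), f = 1) (x : E) : f x = 1 := by
  have h0 := @hom A { hg with mul_comm := hA } (QuotientGroup.lift (Subgroup.center E) f hf)
  have h1 : QuotientGroup.lift (Subgroup.center E) f hf (QuotientGroup.mk x) = 1 := by
    rw [h0, MonoidHom.one_apply]
  rwa [QuotientGroup.lift_mk] at h1

theorem center_quo (hZ : Z ≤ Subgroup.center E)
    (hom : ∀ (A : Type) [CommGroup A] (f : PQ E →* A), f = 1) (g : E) :
    (g : E ⧸ Z) ∈ Subgroup.center (E ⧸ Z) ↔ g ∈ Subgroup.center E := by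
  constructor
  · intro hg
    have hc : ∀ x : E, g * x * g⁻¹ * x⁻¹ ∈ Z := fun x => by
      have h1 := Subgroup.mem_center_iff.1 hg (x : E ⧸ Z)
      rw [← QuotientGroup.eq_one_iff]
      have h2 : ((g * x * g⁻¹ * x⁻¹ : E) : E ⧸ Z) =
        (g : E ⧸ Z) * x * (g : E ⧸ Z)⁻¹ * (x : E ⧸ Z)⁻¹ := rfl
      rw [h2, ← h1]
      group
    have hcen : ∀ x y : E, (g * x * g⁻¹ * x⁻¹) * y = y * (g * x * g⁻¹ * x⁻¹) := fun x y =>
      (Subgroup.mem_center_iff.1 (hZ (hc x)) y).symm
    have hmul : ∀ x y : E, g * (x * y) * g⁻¹ * (x * y)⁻¹ =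
        (g * x * g⁻¹ * x⁻¹) * (g * y * g⁻¹ * y⁻¹) := fun x y => by
      calc g * (x * y) * g⁻¹ * (x * y)⁻¹
          = g * x * g⁻¹ * ((g * y * g⁻¹ * y⁻¹) * x⁻¹) := by group
        _ = g * x * g⁻¹ * (x⁻¹ * (g * y * g⁻¹ * y⁻¹)) := by rw [hcen y x⁻¹]
        _ = _ := by group
    obtain ⟨f, hf⟩ : ∃ f : E →* Subgroup.center E, ∀ x, (f x : E) = g * x * g⁻¹ * x⁻¹ :=
      ⟨MonoidHom.mk' (fun x => ⟨g * x * g⁻¹ * x⁻¹, hZ (hc x)⟩) fun x y =>
        Subtype.ext (hmul x y), fun x => rfl⟩
    have hker : Subgroup.center E ≤ f.ker := fun z hz => by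
      rw [MonoidHom.mem_ker]
      refine Subtype.ext ?_
      rw [hf, Subgroup.mem_center_iff.1 hz g]
      show z * g * g⁻¹ * z⁻¹ = 1
      group
    rw [Subgroup.mem_center_iff]
    intro x
    have h2 : f x = 1 := comm_lift (fun a b => Subtype.ext
      (Subgroup.mem_center_iff.1 b.2 a)) f hker hom x
    have h3 : g * x * g⁻¹ * x⁻¹ = 1 := by
      rw [← hf, h2]
      rfl
    have h4 : g * x = x * g := by
      have := mul_inv_eq_one.1 h3
      rw [mul_inv_eq_iff_eq_mul] at this
      exact this
    exact h4.symm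
  · intro hg
    rw [Subgroup.mem_center_iff]
    intro y
    induction y using QuotientGroup.induction_on with
    | H y =>
      show ((y * g : E) : E ⧸ Z) = ((g * y : E) : E ⧸ Z)
      rw [Subgroup.mem_center_iff.1 hg y]

variable [TopologicalSpace E] [IsTopologicalGroup E]

/-- The quotients of `E` and of `E ⧸ Z` by their centres are isomorphic. -/
theorem exists_pq (hZ : Z ≤ Subgroup.center E)
    (hom : ∀ (A : Type) [CommGroup A] (f : PQ E →* A), f = 1) :
    Nonempty (PQ E ≃ₜ* PQ (E ⧸ Z)) := by
  let φ : E →* PQ (E ⧸ Z) := (pq (E ⧸ Z)).comp (QuotientGroup.mk' Z)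
  have hφ : ∀ g, φ g = 1 ↔ g ∈ Subgroup.center E := fun g => by
    have h1 : φ g = ((g : E ⧸ Z) : PQ (E ⧸ Z)) := rfl
    rw [h1, QuotientGroup.eq_one_iff, center_quo Z hZ hom]
  have hker : Subgroup.center E ≤ φ.ker := fun z hz => MonoidHom.mem_ker.2 ((hφ z).2 hz)
  let e : PQ E →* PQ (E ⧸ Z) := QuotientGroup.lift (Subgroup.center E) φ hker
  have he : ∀ x : E, e (x : PQ E) = φ x := fun x => rfl
  have hinj : Function.Injective e := by
    rw [injective_iff_map_eq_one]
    intro x hx
    induction x using QuotientGroup.induction_on with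
    | H x => exact (QuotientGroup.eq_one_iff x).2 ((hφ x).1 hx)
  have hφo : IsOpenMap φ :=
    (QuotientGroup.isOpenMap_coe (N := Subgroup.center (E ⧸ Z))).comp
      (QuotientGroup.isOpenMap_coe (N := Z))
  have hφc : Continuous φ :=
    (QuotientGroup.continuous_mk (N := Subgroup.center (E ⧸ Z))).comp
      (QuotientGroup.continuous_mk (N := Z))
  have hsur : Function.Surjective e := by
    intro y
    induction y using QuotientGroup.induction_on with
    | H y =>
      induction y using QuotientGroup.induction_on with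
      | H y => exact ⟨(y : PQ E), rfl⟩
  have hec : Continuous e := by
    refine (QuotientGroup.isQuotientMap_mk (N := Subgroup.center E)).continuous_iff.2 ?_
    exact hφc
  have heo : IsOpenMap e := by
    intro U hU
    have h1 : e '' U = φ '' ((QuotientGroup.mk : E → PQ E) ⁻¹' U) := by
      ext y
      constructor
      · rintro ⟨x, hx, rfl⟩
        induction x using QuotientGroup.induction_on with
        | H x => exact ⟨x, hx, rfl⟩
      · rintro ⟨x, hx, rfl⟩
        exact ⟨(x : PQ E), hx, rfl⟩
    rw [h1]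
    exact hφo _ (hU.preimage QuotientGroup.continuous_mk)
  let f : PQ E ≃* PQ (E ⧸ Z) := MulEquiv.ofBijective e ⟨hinj, hsur⟩
  exact ⟨{ f with
    continuous_toFun := hec
    continuous_invFun := by
      have h := (Equiv.ofBijective e ⟨hinj, hsur⟩).toHomeomorphOfContinuousOpen hec heo
      have : Continuous (Equiv.ofBijective e ⟨hinj, hsur⟩).symm :=
        ((Equiv.ofBijective e ⟨hinj, hsur⟩).toHomeomorphOfContinuousOpen hec heo).symm.continuous
      exact this }⟩

/-- Finite centre of the quotient. -/
theorem finite_center_quo (hZ : Z ≤ Subgroup.center E)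
    (hom : ∀ (A : Type) [CommGroup A] (f : PQ E →* A), f = 1) [Finite (Subgroup.center E)] :
    Finite (Subgroup.center (E ⧸ Z)) := by
  let f : Subgroup.center E → Subgroup.center (E ⧸ Z) := fun x =>
    ⟨((x : E) : E ⧸ Z), (center_quo Z hZ hom x.1).2 x.2⟩
  have hf : Function.Surjective f := by
    rintro ⟨y, hy⟩
    induction y using QuotientGroup.induction_on with
    | H y => exact ⟨⟨y, (center_quo Z hZ hom y).1 hy⟩, rfl⟩
  exact Finite.of_surjective f hf

end quo

end Vale.Agent.P092.H387.Qt
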