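import Vale.Agent.P092.QC.Final
import Vale.Agent.P092.H387.Qt1
import Vale.Agent.P092.H387.Qt2
import Vale.Agent.P092.H387.Qt3

/-!
P092 (helper387), [QC-QUOT] (4): the class of factors is closed under quotients by central subgroups.
-/

set_option linter.all false

open Set Topology Filter

namespace Vale.Agent.P092.H387.Qt

open Vale.Agent.P092.QC (Td QF)
open Vale.Agent.P092.PA (FacS)
open Vale.Agent.P092.H259 (PQ pq)
open Vale.Agent.P092.H264 (Chn)

variable {E : Type} [Group E] [TopologicalSpace E]

/-- Totally disconnected factors pass to quotients by finite normal subgroups. -/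
theorem td_quo [IsTopologicalGroup E] (h : Td E) (Z : Subgroup E) [Z.Normal]
    (hZ : IsCompact (Z : Set E)) : Td (E ⧸ Z) := by
  have hq := QuotientGroup.isOpenMap_coe (N := Z)
  have hcm := QuotientGroup.continuous_mk (N := Z)
  have hsur : Function.Surjective (QuotientGroup.mk' Z) := QuotientGroup.mk'_surjective Z
  refine ⟨fun V hV => ?_, fun W hW hWt => ?_, ?_⟩
  · obtain ⟨L, h1, h2, h3⟩ := h.basis ((QuotientGroup.mk : E → E ⧸ Z) ⁻¹' V)
      (hcm.continuousAt.preimage_mem_nhds (by simpa using hV))
    refine ⟨L.map (QuotientGroup.mk' Z), hq _ h1, h2.image hcm, ?_⟩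
    rintro _ ⟨x, hx, rfl⟩
    exact h3 hx
  · have h1 := h.proper (W.comap (QuotientGroup.mk' Z)) (hW.preimage hcm) fun h2 => by
      refine hWt ?_
      rw [Subgroup.eq_top_iff']
      intro y
      obtain ⟨x, rfl⟩ := hsur y
      have : x ∈ W.comap (QuotientGroup.mk' Z) := by rw [h2]; trivial
      exact this
    have h2 := h1.image hcm
    have e : (QuotientGroup.mk : E → E ⧸ Z) '' (W.comap (QuotientGroup.mk' Z) : Set E) =
        (W : Set (E ⧸ Z)) := image_preimage_eq _ hsur
    rwa [e] at h2
  · obtain ⟨K, hK, hKc, hv⟩ := h.vol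
    refine ⟨K.map (QuotientGroup.mk' Z), hq _ hK, hKc.image hcm, fun U W hU hW hWc hUW hUK => ?_⟩
    have hU' : IsOpen ((U.comap (QuotientGroup.mk' Z) : Subgroup E) : Set E) := hU.preimage hcm
    have hW' : IsOpen ((W.comap (QuotientGroup.mk' Z) : Subgroup E) : Set E) := hW.preimage hcm
    have hWc' : IsCompact ((W.comap (QuotientGroup.mk' Z) : Subgroup E) : Set E) :=
      PA.isCompact_preimage_mk Z hZ hWc
    have hKc' : IsCompact
        (((K.map (QuotientGroup.mk' Z)).comap (QuotientGroup.mk' Z) : Subgroup E) : Set E) :=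
      PA.isCompact_preimage_mk Z hZ (hKc.image hcm)
    have hle : ∀ A : Subgroup (E ⧸ Z), (A.comap (QuotientGroup.mk' Z)).map (QuotientGroup.mk' Z) =
        A := fun A => Subgroup.map_comap_eq_self_of_surjective hsur A
    have e : ∀ A B : Subgroup (E ⧸ Z), A.relIndex B =
        (A.comap (QuotientGroup.mk' Z)).relIndex (B.comap (QuotientGroup.mk' Z)) := fun A B => by
      rw [Subgroup.relIndex_comap, hle]
    rw [e U W, e U]
    set U' := U.comap (QuotientGroup.mk' Z) with hU'd
    set W' := W.comap (QuotientGroup.mk' Z) with hW'd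
    set K' := (K.map (QuotientGroup.mk' Z)).comap (QuotientGroup.mk' Z) with hK'd
    have hUW' : U' ≤ W' := Subgroup.comap_mono hUW
    have hUK' : U' ≤ K' := Subgroup.comap_mono hUK
    have hKK' : K ≤ K' := Subgroup.le_comap_map _ _
    have ho : IsOpen ((U' ⊓ K : Subgroup E) : Set E) := hU'.inter hK
    have h1 := hv (U' ⊓ K) W' ho hW' hWc' (inf_le_left.trans hUW') inf_le_right
    have h2 := Subgroup.relIndex_mul_relIndex (U' ⊓ K) U' W' inf_le_left hUW'
    have h3 := Subgroup.relIndex_mul_relIndex (U' ⊓ K) U' K' inf_le_left hUK'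
    have h4 := Subgroup.relIndex_mul_relIndex (U' ⊓ K) K K' inf_le_right hKK'
    have h5 : K.relIndex K' ≠ 0 := H971.relIndex_ne_zero hK hKc'
    have h6 : (U' ⊓ K).relIndex W' ≠ 0 := H971.relIndex_ne_zero ho hWc'
    have h7 : (U' ⊓ K).relIndex U' ≠ 0 := fun h0 => h6 (by rw [← h2, h0, zero_mul])
    have h8 : (U' ⊓ K).relIndex U' * U'.relIndex W' ≤ (U' ⊓ K).relIndex U' * U'.relIndex K' := by
      rw [h2, h3, ← h4]
      exact h1.trans (Nat.le_mul_of_pos_right _ (Nat.pos_of_ne_zero h5))
    exact le_of_mul_le_mul_left h8 (Nat.pos_of_ne_zero h7)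

/-- **[QC-QUOT]**: the class of factors is closed under quotients by central subgroups, as soon as
the quotient has a chain. -/
theorem qf_quo {r : ℕ} (h : QF E r) (Z : Subgroup E) [Z.Normal] (hZ : Z ≤ Subgroup.center E)
    (hc : Chn (E ⧸ Z) r) : QF (E ⧸ Z) r := by
  haveI := h.top
  haveI := h.lc
  haveI := h.sc
  haveI := h.t2
  haveI := h.fin
  haveI hfZ : Finite Z := Finite.of_injective (Subgroup.inclusion hZ) (Subgroup.inclusion_injective hZ)
  have hZc : IsCompact (Z : Set E) := (Set.toFinite (Z : Set E)).isCompact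
  haveI : IsClosed (Z : Set E) := hZc.isClosed
  have hker : (QuotientGroup.mk' Z).ker = Z := QuotientGroup.ker_mk' Z
  obtain ⟨e⟩ := exists_pq Z hZ h.fac.hom
  exact
    { top := inferInstance
      lc := inferInstance
      sc := inferInstance
      t2 := inferInstance
      fin := finite_center_quo Z hZ h.fac.hom
      fac := facS_congr h.fac e
      hmg := h.hmg.of_surj (QuotientGroup.mk' Z) QuotientGroup.continuous_mk
        (QuotientGroup.mk'_surjective Z)
      chn := hc
      tgt := tgt_quo h.tgt (QuotientGroup.mk' Z) QuotientGroup.continuous_mk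
        (QuotientGroup.mk'_surjective Z) (by rw [hker]; exact hfZ) (by rw [hker]; exact hZ)
      pos := h.pos
      erg := h.erg.imp (fun hp => by
          haveI := hp
          exact (QuotientGroup.mk'_surjective Z).denseRange.preconnectedSpace
            QuotientGroup.continuous_mk) fun ht => td_quo ht Z hZc }

end Vale.Agent.P092.H387.Qt
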