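import Vale.Agent.P092.H387.Qt2
import Vale.Agent.P092.H303.Form

/-!
P092 (helper387), [QC-QUOT] (5): chains of the central quotients of `SL_n(k)` and of the groups of
forms.
-/

set_option linter.all false

open Set Topology Filter Matrix

namespace Vale.Agent.P092.H387.Qt

open Vale.Agent.P092.H701
open Vale.Agent.P092.H264 (Chn)
open Vale.Agent.P092.H303 (FormGroup Idx hyp torF torF_mem torF_comm torF_pow_row torF_root2 formRow
  dg_eq dg_ra dg_rb dg_ratio dgF lam ra rb ra' rb' ra_ne_rb ra'_ne_rb' sg)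

/-- Sequences which tend to infinity do so in the quotient by a compact subgroup. -/
theorem tendsto_quo {E : Type} [Group E] [TopologicalSpace E] [IsTopologicalGroup E]
    (Z : Subgroup E) [Z.Normal] (hZ : IsCompact (Z : Set E)) {b : ℕ → E}
    (hb : Tendsto b atTop (cocompact E)) :
    Tendsto (fun N => QuotientGroup.mk' Z (b N)) atTop (cocompact (E ⧸ Z)) := by
  rw [hasBasis_cocompact.tendsto_right_iff]
  intro K hK
  have h1 := PA.isCompact_preimage_mk Z hZ hK
  filter_upwards [hb h1.compl_mem_cocompact] with N hN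
  exact hN

/-- The central quotients of `SL_{n+1}(k)` have chains of length `n`. -/
theorem chn_sl_quo (k : Type) [NontriviallyNormedField k] [ProperSpace k] (n : ℕ)
    (Z : Subgroup (SpecialLinearGroup (Fin (n + 1)) k)) [Z.Normal]
    (hZ : Z ≤ Subgroup.center (SpecialLinearGroup (Fin (n + 1)) k)) :
    Chn (SpecialLinearGroup (Fin (n + 1)) k ⧸ Z) n := by
  have hfin : ((Subgroup.center (SpecialLinearGroup (Fin (n + 1)) k) :
      Subgroup (SpecialLinearGroup (Fin (n + 1)) k)) :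
        Set (SpecialLinearGroup (Fin (n + 1)) k)).Finite := PA.finite_center_SL
  have hZc : IsCompact (Z : Set (SpecialLinearGroup (Fin (n + 1)) k)) :=
    (hfin.subset hZ).isCompact
  obtain ⟨w, hwd⟩ : ∃ w : k, w = (NormedField.exists_one_lt_norm k).choose := ⟨_, rfl⟩
  have hw1 : 1 < ‖w‖ := hwd ▸ (NormedField.exists_one_lt_norm k).choose_spec
  have hw : w ≠ 0 := norm_pos_iff.mp (lt_trans one_pos hw1)
  refine chn_quo (π := QuotientGroup.mk' Z)
    (R := fun j : Fin n => slRow (k := k) (Fin.castSucc_lt_succ (i := j)).ne)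
    (b := fun j N => tor n hw j.castSucc ^ N)
    (α := fun j N => (dg n w j.castSucc j.castSucc) ^ N)
    (β := fun j N => (dg n w j.castSucc j.succ) ^ N)
    (fun j N x => tor_pow_row n hw _ _ N x) (fun j N x => tor_pow_row n hw _ _ N x) ?_ ?_
    (fun i j _ N M => (tor_comm n hw i.castSucc j.castSucc).pow_pow N M) ?_ ?_
    (QuotientGroup.isQuotientMap_mk (N := Z)) ?_
  · intro j N
    show (dg n w j.castSucc j.castSucc) ^ N ≠ 0
    rw [dg_self]
    exact pow_ne_zero _ (pow_ne_zero _ hw)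
  · intro j C
    obtain ⟨N₀, hN₀⟩ := pow_unbounded_of_one_lt C hw1
    refine ⟨N₀, fun N hN => ?_⟩
    show C * ‖(dg n w j.castSucc j.succ) ^ N‖ ≤ ‖(dg n w j.castSucc j.castSucc) ^ N‖
    rw [dg_self, dg_gt n w (Fin.castSucc_lt_succ (i := j)), norm_pow, norm_pow, norm_pow,
      norm_inv, Fin.val_castSucc]
    have h1 : C ≤ ‖w‖ ^ N := hN₀.le.trans (pow_le_pow_right₀ hw1.le hN)
    have h2 : ‖w‖⁻¹ ^ N ≤ 1 := pow_le_one₀ (by positivity) (inv_le_one_of_one_le₀ hw1.le)
    have h3 : (‖w‖ ^ N) ≤ (‖w‖ ^ (n - (j : ℕ))) ^ N := by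
      apply pow_le_pow_left₀ (by positivity)
      exact le_self_pow₀ hw1.le (by have := j.2; omega)
    have h4 : (0 : ℝ) ≤ ‖w‖⁻¹ ^ N := by positivity
    have h5 : (0 : ℝ) ≤ ‖w‖ ^ N := by positivity
    calc C * ‖w‖⁻¹ ^ N ≤ ‖w‖ ^ N * ‖w‖⁻¹ ^ N := mul_le_mul_of_nonneg_right h1 h4
      _ ≤ ‖w‖ ^ N * 1 := mul_le_mul_of_nonneg_left h2 h5
      _ ≤ _ := by rw [mul_one]; exact h3
  · intro i j hij N x hx
    have h1 : i.castSucc < j.castSucc := hij
    have h2 : i.castSucc < j.succ := h1.trans (Fin.castSucc_lt_succ (i := j))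
    have e : dg n w i.castSucc j.castSucc = dg n w i.castSucc j.succ := by
      rw [dg_gt n w h1, dg_gt n w h2]
    have h3 : (j.castSucc : Fin (n + 1)) ≠ j.succ := (Fin.castSucc_lt_succ (i := j)).ne
    rcases hx with ⟨t, -, rfl⟩ | ⟨t, -, rfl⟩
    · exact (tor_elem n hw i.castSucc h3 e t).pow_left N
    · exact (tor_elem n hw i.castSucc h3.symm e.symm t).pow_left N
  · intro j z hz
    have hzc : z ∈ Subgroup.center (SpecialLinearGroup (Fin (n + 1)) k) :=
      hZ ((QuotientGroup.eq_one_iff z).1 hz)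
    obtain ⟨c, hc1, hc2⟩ := Matrix.SpecialLinearGroup.mem_center_iff.1 hzc
    have hc0 : c ≠ 0 := by
      rintro rfl
      rw [zero_pow (by simp)] at hc1
      exact zero_ne_one hc1
    have key : ∀ (a : Fin (n + 1)) (x : SpecialLinearGroup (Fin (n + 1)) k),
        (x * z).1 a = c • x.1 a := fun a x => by
      funext b
      show (x.1 * z.1) a b = c * x.1 a b
      have h : z.1 = Matrix.scalar (Fin (n + 1)) c := hc2.symm
      rw [h, Matrix.scalar_apply, mul_diagonal, mul_comm]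
    exact ⟨c, hc0, fun x => key _ x, fun x => key _ x⟩
  · intro hr
    subst hwd
    let _ : MeasurableSpace (SpecialLinearGroup (Fin (n + 1)) k) := borel _
    have _ : BorelSpace (SpecialLinearGroup (Fin (n + 1)) k) := ⟨rfl⟩
    exact tendsto_quo Z hZc (H655.tendsto_slChain k n ⟨0, hr⟩)

section form

variable {ι : Type} [Fintype ι] [DecidableEq ι] {k : Type} [NontriviallyNormedField k]
  {σ : k →+* k} {ε : k} {J₀ : Matrix ι ι k}

/-- The central quotients of the group of a form of Witt index at least two have chains. -/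
theorem chn_form_quo [ProperSpace k] (q : ℕ) (hσ : ∀ x, σ (σ x) = x) (hn : ∀ x, ‖σ x‖ = ‖x‖)
    (hε : ε * ε = 1) (hσε : σ ε = ε) (Z : Subgroup (FormGroup σ (hyp (q + 2) ε J₀))) [Z.Normal]
    (hfin : (Z : Set (FormGroup σ (hyp (q + 2) ε J₀))).Finite)
    (hZ : ∀ z ∈ Z, ∃ a : k, ∀ x : Idx (q + 2) ι → k, x ᵥ* z.1.1 = a • x) :
    Chn (FormGroup σ (hyp (q + 2) ε J₀) ⧸ Z) (q + 2) := by
  have hσc : Continuous σ := by
    have h := (AddMonoidHomClass.isometry_of_norm σ hn)
    exact h.continuous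
  obtain ⟨x, hx⟩ := NormedField.exists_one_lt_norm k
  obtain ⟨w, hwd⟩ : ∃ w : k, w = x * σ x := ⟨_, rfl⟩
  have hw1 : 1 < ‖w‖ := by
    rw [hwd, norm_mul, hn]
    nlinarith
  have hσw : σ w = w := by rw [hwd, map_mul, hσ, mul_comm]
  have hw : w ≠ 0 := norm_pos_iff.mp (lt_trans one_pos hw1)
  have hratio := fun j : Fin (q + 2) => dg_ratio (ι := ι) q w j
  choose e e1 e2 he using hratio
  refine chn_quo (π := QuotientGroup.mk' Z)
    (R := fun j : Fin (q + 2) => formRow q J₀ hσc hσ hε hσε j)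
    (b := fun j N => (⟨torF (q + 2) ι hw (lam q j), torF_mem (q + 2) ε J₀ hw hσw _⟩ :
      FormGroup σ (hyp (q + 2) ε J₀)) ^ N)
    (α := fun j N => w ^ N) (β := fun j N => (w ^ (-e j)) ^ N) (fun j N x => ?_)
    (fun j N x => ?_) (fun j N => pow_ne_zero _ hw) ?_ ?_ ?_ ?_
    (QuotientGroup.isQuotientMap_mk (N := Z)) ?_
  · have := torF_pow_row (q + 2) hw (lam q j) (ra q ι j) N x.1
    rw [e1] at this
    exact this
  · have := torF_pow_row (q + 2) hw (lam q j) (rb q ι j) N x.1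
    rw [e2] at this
    exact this
  · intro j C
    obtain ⟨N₀, hN₀⟩ := pow_unbounded_of_one_lt C hw1
    refine ⟨N₀, fun N hN => ?_⟩
    show C * ‖(w ^ (-e j)) ^ N‖ ≤ ‖w ^ N‖
    rw [norm_pow, norm_pow, norm_zpow]
    have h1 : C ≤ ‖w‖ ^ N := hN₀.le.trans (pow_le_pow_right₀ hw1.le hN)
    have h2 : (‖w‖ ^ (-e j)) ^ N ≤ 1 :=
      pow_le_one₀ (by positivity) (zpow_le_one_of_nonpos₀ hw1.le (by have := he j; omega))
    have h4 : (0 : ℝ) ≤ (‖w‖ ^ (-e j)) ^ N := by positivity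
    have h5 : (0 : ℝ) ≤ ‖w‖ ^ N := by positivity
    calc C * (‖w‖ ^ (-e j)) ^ N ≤ ‖w‖ ^ N * (‖w‖ ^ (-e j)) ^ N := mul_le_mul_of_nonneg_right h1 h4
      _ ≤ ‖w‖ ^ N * 1 := mul_le_mul_of_nonneg_left h2 h5
      _ = _ := mul_one _
  · intro i j _ N M
    apply Subtype.ext
    exact (torF_comm (q + 2) hw (lam q i) (lam q j)).pow_pow N M
  · intro i j hij N x hx
    have e := dg_eq (ι := ι) q w hij
    have e' : dgF (q + 2) ι w (lam q i) (ra' q ι j) = dgF (q + 2) ι w (lam q i) (rb' q ι j) := by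
      rw [dg_ra q hw, dg_rb q hw, e]
    rcases hx with ⟨t, -, rfl⟩ | ⟨t, -, rfl⟩
    · have h : Commute (⟨torF (q + 2) ι hw (lam q i), torF_mem (q + 2) ε J₀ hw hσw _⟩ :
          FormGroup σ (hyp (q + 2) ε J₀)) ((formRow q J₀ hσc hσ hε hσε j).up t) := by
        apply Subtype.ext
        exact torF_root2 (q + 2) hw (lam q i) (ra_ne_rb q j) (ra'_ne_rb' q j).symm e e'.symm
          t (sg q ε j * σ t)
      exact h.pow_left N
    · have h : Commute (⟨torF (q + 2) ι hw (lam q i), torF_mem (q + 2) ε J₀ hw hσw _⟩ :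
          FormGroup σ (hyp (q + 2) ε J₀)) ((formRow q J₀ hσc hσ hε hσε j).lo t) := by
        apply Subtype.ext
        exact torF_root2 (q + 2) hw (lam q i) (ra_ne_rb q j).symm (ra'_ne_rb' q j) e.symm e'
          t (sg q ε j * σ t)
      exact h.pow_left N
  · intro j z hz
    obtain ⟨a, ha⟩ := hZ z ((QuotientGroup.eq_one_iff z).1 hz)
    have ha0 : a ≠ 0 := by
      rintro rfl
      have h1 := ha (Pi.single (ra q ι j) 1)
      rw [zero_smul] at h1
      have h2 : (z.1.1) (ra q ι j) = 0 := by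
        rw [← h1]
        exact (Matrix.single_one_vecMul _ _).symm
      have h3 := H303.frow_pos z.1 (ra q ι j)
      rw [h2, norm_zero] at h3
      exact lt_irrefl _ h3
    have key : ∀ (i : Idx (q + 2) ι) (x : FormGroup σ (hyp (q + 2) ε J₀)),
        (x * z).1.1 i = a • x.1.1 i := fun i x => by
      rw [← ha (x.1.1 i)]
      rfl
    exact ⟨a, ha0, fun x => key _ x, fun x => key _ x⟩
  · intro hr
    refine tendsto_quo Z hfin.isCompact ?_
    have hcont : Continuous fun g : FormGroup σ (hyp (q + 2) ε J₀) =>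
        ‖g.1.1 (ra q ι ⟨0, hr⟩) (ra q ι ⟨0, hr⟩)‖ := by
      have h : Continuous fun x : FormGroup σ (hyp (q + 2) ε J₀) => x.1.1 :=
        continuous_subtype_val.comp continuous_subtype_val
      exact (((continuous_apply _).comp ((continuous_apply _).comp h))).norm
    rw [hasBasis_cocompact.tendsto_right_iff]
    intro K hK
    obtain ⟨C, hC⟩ := (hK.image hcont).bddAbove
    obtain ⟨N₀, hN₀⟩ := pow_unbounded_of_one_lt C hw1
    filter_upwards [eventually_ge_atTop N₀] with N hN hmem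
    have h1 := torF_pow_row (q + 2) hw (lam q ⟨0, hr⟩) (ra q ι ⟨0, hr⟩) N
      (1 : SpecialLinearGroup (Idx (q + 2) ι) k)
    rw [mul_one, e1] at h1
    have h2 := congrFun h1 (ra q ι ⟨0, hr⟩)
    have h3 := hC ⟨_, hmem, rfl⟩
    change ‖(torF (q + 2) ι hw (lam q ⟨0, hr⟩) ^ N).1 _ _‖ ≤ C at h3
    rw [h2] at h3
    change ‖w ^ N * (1 : Matrix (Idx (q + 2) ι) (Idx (q + 2) ι) k) _ _‖ ≤ C at h3
    rw [Matrix.one_apply_eq, mul_one, norm_pow] at h3
    have h4 : ‖w‖ ^ N₀ ≤ ‖w‖ ^ N := pow_le_pow_right₀ hw1.le hN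
    linarith

end form

end Vale.Agent.P092.H387.Qt
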