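import Vale.Agent.P092.H387.Ex3

/-!
P092 (helper387): `SL_n(ℤ[1/p])` determines `p`.
-/

open Set Matrix

namespace Vale.Agent.P092.H387

section eig

variable {m : ℕ}

/-- Conjugate to a proper power: the eigenvalues are roots of unity. -/
theorem exists_pow_unip (A : Matrix (Fin m) (Fin m) ℂ) (T : (Matrix (Fin m) (Fin m) ℂ)ˣ)
    (hA : IsUnit A) (N : ℕ) (hN : 2 ≤ N)
    (h : (T : Matrix (Fin m) (Fin m) ℂ) * A * (↑(T⁻¹) : Matrix (Fin m) (Fin m) ℂ) = A ^ N) :
    ∃ M : ℕ, 0 < M ∧ (A ^ M - 1) ^ m = 0 := by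
  have hfin : (spectrum ℂ A).Finite := Matrix.finite_spectrum A
  have hpow : ∀ l ∈ spectrum ℂ A, l ^ N ∈ spectrum ℂ A := by
    intro l hl
    have h1 := spectrum.pow_mem_pow A N hl
    rwa [← h, spectrum.units_conjugate] at h1
  have hpow' : ∀ (k : ℕ), ∀ l ∈ spectrum ℂ A, l ^ (N ^ k) ∈ spectrum ℂ A := by
    intro k
    induction k with
    | zero => intro l hl; simpa using hl
    | succ k ih =>
      intro l hl
      rw [pow_succ, pow_mul]
      exact hpow _ (ih l hl)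
  have h0 : (0 : ℂ) ∉ spectrum ℂ A := spectrum.zero_notMem ℂ hA
  have hroot : ∀ l ∈ spectrum ℂ A, ∃ f : ℕ, 0 < f ∧ l ^ f = 1 := by
    intro l hl
    have hl0 : l ≠ 0 := fun hh => h0 (hh ▸ hl)
    have hmaps : MapsTo (fun k : ℕ => l ^ (N ^ k)) univ (spectrum ℂ A) :=
      fun k _ => hpow' k l hl
    obtain ⟨a, -, b, -, hab, heq⟩ := Set.infinite_univ.exists_ne_map_eq_of_mapsTo hmaps hfin
    have heq' : l ^ (N ^ a) = l ^ (N ^ b) := heq
    rcases lt_or_gt_of_ne hab with hlt | hlt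
    · refine ⟨N ^ b - N ^ a, Nat.sub_pos_of_lt (Nat.pow_lt_pow_right hN hlt), ?_⟩
      have h1 : l ^ (N ^ a) * l ^ (N ^ b - N ^ a) = l ^ (N ^ a) * 1 := by
        rw [← pow_add, Nat.add_sub_cancel' (Nat.pow_le_pow_right (by omega) hlt.le), mul_one,
          ← heq']
      exact mul_left_cancel₀ (pow_ne_zero _ hl0) h1
    · refine ⟨N ^ a - N ^ b, Nat.sub_pos_of_lt (Nat.pow_lt_pow_right hN hlt), ?_⟩
      have h1 : l ^ (N ^ b) * l ^ (N ^ a - N ^ b) = l ^ (N ^ b) * 1 := by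
        rw [← pow_add, Nat.add_sub_cancel' (Nat.pow_le_pow_right (by omega) hlt.le), mul_one,
          heq']
      exact mul_left_cancel₀ (pow_ne_zero _ hl0) h1
  choose! f hf0 hf1 using hroot
  refine ⟨∏ l ∈ hfin.toFinset, f l, Finset.prod_pos fun l hl => hf0 l (hfin.mem_toFinset.1 hl), ?_⟩
  set M := ∏ l ∈ hfin.toFinset, f l with hM
  have hM0 : 0 < M := Finset.prod_pos fun l hl => hf0 l (hfin.mem_toFinset.1 hl)
  have hlM : ∀ l ∈ spectrum ℂ A, l ^ M = 1 := by
    intro l hl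
    obtain ⟨c, hc⟩ := Finset.dvd_prod_of_mem f (hfin.mem_toFinset.2 hl)
    rw [← hM] at hc
    rw [hc, pow_mul, hf1 l hl, one_pow]
  have hsp : ∀ l ∈ spectrum ℂ (A ^ M), l = 1 := by
    intro l hl
    rw [spectrum.map_pow_of_pos A hM0] at hl
    obtain ⟨l', hl', rfl⟩ := hl
    exact hlM l' hl'
  -- the characteristic polynomial
  have hmon := (A ^ M).charpoly_monic
  have hsplit : (A ^ M).charpoly.Splits := IsAlgClosed.splits _
  have hroots : (A ^ M).charpoly.roots = Multiset.replicate m 1 := by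
    rw [Multiset.eq_replicate]
    constructor
    · rw [← hsplit.natDegree_eq_card_roots, Matrix.charpoly_natDegree_eq_dim, Fintype.card_fin]
    · intro l hl
      apply hsp
      rw [Matrix.mem_spectrum_iff_isRoot_charpoly]
      exact Polynomial.isRoot_of_mem_roots hl
  have hP := hsplit.eq_prod_roots_of_monic hmon
  rw [hroots, Multiset.map_replicate, Multiset.prod_replicate] at hP
  have hCH := Matrix.aeval_self_charpoly (A ^ M)
  rw [hP, map_pow, map_sub, Polynomial.aeval_X, Polynomial.aeval_C, map_one] at hCH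
  exact hCH

end eig

section poly

open Polynomial

/-- `(1 + x)^N - 1 = N x + x² r` -/
theorem exists_r (N : ℕ) : ∃ r : ℤ[X], (1 + X) ^ N - 1 = (N : ℤ[X]) * X + X ^ 2 * r := by
  induction N with
  | zero => exact ⟨0, by simp⟩
  | succ N ih =>
    obtain ⟨r, hr⟩ := ih
    refine ⟨(N : ℤ[X]) + r + X * r, ?_⟩
    rw [pow_succ]
    push_cast
    linear_combination (1 + X) * hr

/-- `((1 + x)^N - 1)^j = N^j x^j + x^(j+1) s` -/
theorem exists_s (N j : ℕ) : ∃ s : ℤ[X], ((1 + X) ^ N - 1) ^ j =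
    ((N ^ j : ℕ) : ℤ[X]) * X ^ j + X ^ (j + 1) * s := by
  obtain ⟨r, hr⟩ := exists_r N
  induction j with
  | zero => exact ⟨0, by simp⟩
  | succ j ih =>
    obtain ⟨s, hs⟩ := ih
    refine ⟨((N ^ j : ℕ) : ℤ[X]) * r + (N : ℤ[X]) * s + X * r * s, ?_⟩
    rw [pow_succ, hs, hr]
    push_cast
    ring

theorem pow_sub_one_pow {R : Type*} [Ring R] (x : R) (N j : ℕ) (hx : x ^ (j + 1) = 0) :
    ((1 + x) ^ N - 1) ^ j = ((N ^ j : ℕ) : R) * x ^ j := by
  obtain ⟨s, hs⟩ := exists_s N j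
  have h1 := congrArg (aeval x) hs
  simpa [hx] using h1

end poly

section div

variable {m : ℕ} (q : ℕ) [hq : Fact q.Prime] (p : ℕ) [hp : Fact p.Prime]

theorem norm_q_eq (hpq : p ≠ q) : ‖((q : ℕ) : ℚ_[p])‖ = 1 :=
  Padic.norm_natCast_eq_one_iff.2 ((Nat.coprime_primes hp.out hq.out).2 hpq)

/-- `ℤ[1/q] → ℚ_p` -/
noncomputable def toQ : Zi q →+* ℚ_[p] :=
  IsLocalization.Away.lift (q : ℤ) (g := Int.castRingHom ℚ_[p]) (by
    rw [isUnit_iff_ne_zero]
    simpa using hq.out.ne_zero)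

theorem toQ_rep {a : Zi q} {k : ℕ} {z : ℤ} (h : a * (q : Zi q) ^ k = (z : Zi q)) :
    toQ q p a * (q : ℚ_[p]) ^ k = z := by
  have := congrArg (toQ q p) h
  simpa using this

theorem toQ_injective : Function.Injective (toQ q p) := by
  rw [injective_iff_map_eq_zero]
  intro a ha
  obtain ⟨k, z, h⟩ := exists_rep q a
  have h1 := toQ_rep q p h
  rw [ha, zero_mul] at h1
  have h2 : z = 0 := by exact_mod_cast h1.symm
  rw [h2, Int.cast_zero] at h
  exact ((isUnit_p q).pow k).mul_left_eq_zero.1 h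

theorem norm_toQ_le (hpq : p ≠ q) (a : Zi q) : ‖toQ q p a‖ ≤ 1 := by
  obtain ⟨k, z, h⟩ := exists_rep q a
  have h1 := congrArg norm (toQ_rep q p h)
  rw [norm_mul, norm_pow, norm_q_eq q p hpq, one_pow, mul_one] at h1
  rw [h1]
  exact Padic.norm_int_le_one z

/-- No eigenvector with eigenvalue divisible by `p ≠ q` over `ℤ[1/q]`. -/
theorem eq_zero_of_conj (hpq : p ≠ q) (T Ti : Matrix (Fin m) (Fin m) (Zi q))
    (hTi : Ti * T = 1) (hTi' : T * Ti = 1)
    (Y : Matrix (Fin m) (Fin m) (Zi q)) (c : ℕ) (hc : p ∣ c)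
    (h : T * Y * Ti = (c : Matrix (Fin m) (Fin m) (Zi q)) * Y) : Y = 0 := by
  have h2 : ∀ Z : Matrix (Fin m) (Fin m) (Zi q), Ti * (T * Z * Ti) * T = Z := fun Z => by
    calc Ti * (T * Z * Ti) * T = (Ti * T) * Z * (Ti * T) := by simp only [Matrix.mul_assoc]
      _ = Z := by rw [hTi, Matrix.one_mul, Matrix.mul_one]
  have h3 : ∀ Z : Matrix (Fin m) (Fin m) (Zi q), T * (Ti * Z * T) * Ti = Z := fun Z => by
    calc T * (Ti * Z * T) * Ti = (T * Ti) * Z * (T * Ti) := by simp only [Matrix.mul_assoc]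
      _ = Z := by rw [hTi', Matrix.one_mul, Matrix.mul_one]
  -- divisibility of `Y` by all powers
  have key : ∀ k : ℕ, ∃ Z : Matrix (Fin m) (Fin m) (Zi q),
      Y = ((c ^ k : ℕ) : Matrix (Fin m) (Fin m) (Zi q)) * Z ∧
      T * Z * Ti = (c : Matrix (Fin m) (Fin m) (Zi q)) * Z := by
    intro k
    induction k with
    | zero => exact ⟨Y, by simp, h⟩
    | succ k ih =>
      obtain ⟨Z, hZ, hT⟩ := ih
      have h1 : Z = (c : Matrix (Fin m) (Fin m) (Zi q)) * (Ti * Z * T) := by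
        have h4 := h2 Z
        rw [hT, ← mul_assoc, ← Nat.cast_comm c Ti] at h4
        simp only [mul_assoc] at h4 ⊢
        exact h4.symm
      refine ⟨Ti * Z * T, ?_, ?_⟩
      · rw [pow_succ, Nat.cast_mul, mul_assoc, ← h1]
        exact hZ
      · rw [h3]
        exact h1
  ext i j
  apply toQ_injective q p
  rw [Matrix.zero_apply, map_zero, ← norm_eq_zero]
  have hent : ∀ (k : ℕ) (Z : Matrix (Fin m) (Fin m) (Zi q)),
      toQ q p ((((k : ℕ) : Matrix (Fin m) (Fin m) (Zi q)) * Z) i j) =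
        (k : ℚ_[p]) * toQ q p (Z i j) := by
    intro k Z
    have h6 : ∀ W : Matrix (Fin m) (Fin m) ℚ_[p],
        (((k : ℕ) : Matrix (Fin m) (Fin m) ℚ_[p]) * W) i j = (k : ℚ_[p]) * W i j := by
      intro W
      rw [← nsmul_eq_mul, Matrix.smul_apply, nsmul_eq_mul]
    have h5 : ((toQ q p).mapMatrix (((k : ℕ) : Matrix (Fin m) (Fin m) (Zi q)) * Z)) =
        ((k : ℕ) : Matrix (Fin m) (Fin m) ℚ_[p]) * (toQ q p).mapMatrix Z := by
      rw [map_mul, map_natCast]
    have h7 := congrFun (congrFun h5 i) j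
    rw [h6] at h7
    exact h7
  have hc1 : ‖(c : ℚ_[p])‖ < 1 := Padic.norm_natCast_lt_one_iff.2 hc
  refine le_antisymm ?_ (norm_nonneg _)
  refine ge_of_tendsto' (tendsto_pow_atTop_nhds_zero_of_lt_one (norm_nonneg _) hc1) fun k => ?_
  obtain ⟨Z, hZ, -⟩ := key k
  rw [hZ, hent, norm_mul, Nat.cast_pow, norm_pow]
  exact mul_le_of_le_one_right (by positivity) (norm_toQ_le q p hpq _)

end div

section main

variable (p : ℕ) [hp : Fact p.Prime] (q : ℕ) [hq : Fact q.Prime]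

/-- the diagonal element `(a, a⁻¹)` at the places `i, j` -/
def hh {ι : Type*} [Fintype ι] [DecidableEq ι] {R : Type*} [CommRing R] {i j : ι} (hij : i ≠ j)
    (a : Rˣ) : SpecialLinearGroup ι R :=
  ⟨Matrix.diagonal (Function.update (Function.update 1 i (a : R)) j (↑a⁻¹ : R)), by
    rw [Matrix.det_diagonal, Finset.prod_update_of_mem (Finset.mem_univ j),
      Finset.prod_update_of_mem (by simp [hij])]
    simp⟩

theorem hh_conj {ι : Type*} [Fintype ι] [DecidableEq ι] {R : Type*} [CommRing R] {i j : ι}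
    (hij : i ≠ j) (a : Rˣ) (b : R) :
    hh hij a * SpecialLinearGroup.transvection hij b =
      SpecialLinearGroup.transvection hij (a * a * b) * hh hij a := by
  apply Subtype.ext
  change Matrix.diagonal _ * Matrix.transvection i j b =
    Matrix.transvection i j (a * a * b) * Matrix.diagonal _
  rw [Matrix.ext_iff_mulVec]
  intro v
  simp only [← Matrix.mulVec_mulVec, tr_mulVec]
  funext l
  rw [Matrix.mulVec_diagonal]
  by_cases hi : l = i
  · subst hi
    simp [Matrix.mulVec_diagonal, Function.update_of_ne hij]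
    have h1 : (a : R) * (↑a⁻¹ : R) = 1 := Units.mul_inv a
    linear_combination (-(a : R) * b * v j) * h1
  · simp [Matrix.mulVec_diagonal, Function.update_of_ne hi]

theorem transvection_pow {ι : Type*} [Fintype ι] [DecidableEq ι] {R : Type*} [CommRing R]
    {i j : ι} (hij : i ≠ j) (k : ℕ) :
    SpecialLinearGroup.transvection hij (1 : R) ^ k =
      SpecialLinearGroup.transvection hij (k : R) := by
  induction k with
  | zero => rw [pow_zero, Nat.cast_zero, SpecialLinearGroup.transvection_coeff_zero]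
  | succ k ih =>
    rw [pow_succ, ih, Nat.cast_succ]
    exact Subtype.ext (Matrix.transvection_mul_transvection_same i j hij _ _)

theorem transvection_inj {ι : Type*} [Fintype ι] [DecidableEq ι] {R : Type*} [CommRing R]
    {i j : ι} (hij : i ≠ j) {b : R}
    (h : SpecialLinearGroup.transvection hij b = 1) : b = 0 := by
  have h1 := congrFun (congrFun (congrArg Subtype.val h) i) j
  have h2 : (SpecialLinearGroup.transvection hij b).1 i j = b := by
    rw [SpecialLinearGroup.transvection_coe, Matrix.add_apply, Matrix.one_apply_ne hij,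
      Matrix.single_apply_same, zero_add]
  rw [h2] at h1
  rw [h1]
  exact Matrix.one_apply_ne hij

/-- **`SL_n(ℤ[1/p])`, `n ≥ 2`, embeds in `SL_m(ℤ[1/q])` only if `p = q`.** -/
theorem prime_eq {n m : ℕ} (hn : 2 ≤ n)
    (φ : SpecialLinearGroup (Fin n) (Zi p) →* SpecialLinearGroup (Fin m) (Zi q))
    (hφ : Function.Injective φ) : p = q := by
  by_contra hpq
  set i : Fin n := ⟨0, by omega⟩
  set j : Fin n := ⟨1, by omega⟩
  have hij : i ≠ j := by simp [i, j]
  obtain ⟨a, ha⟩ := isUnit_p p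
  obtain ⟨T, hT⟩ : ∃ T, T = φ (hh hij a) := ⟨_, rfl⟩
  obtain ⟨U, hU⟩ : ∃ U, U = φ (SpecialLinearGroup.transvection hij 1) := ⟨_, rfl⟩
  have hrel : T * U * T⁻¹ = U ^ (p * p) := by
    have h1 := hh_conj hij a (1 : Zi p)
    have h2 : (a : Zi p) * a * 1 = ((p * p : ℕ) : Zi p) := by
      rw [ha]; push_cast; ring
    rw [h2, ← transvection_pow] at h1
    have h3 := congrArg φ h1
    rw [map_mul, map_mul, map_pow, ← hT, ← hU] at h3
    rw [h3, mul_inv_cancel_right]
  have hUinf : ∀ k : ℕ, 0 < k → U ^ k ≠ 1 := by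
    intro k hk h1
    rw [hU, ← map_pow, ← map_one φ] at h1
    have h2 := hφ h1
    rw [transvection_pow] at h2
    have h3 := transvection_inj hij h2
    have h4 := congrArg (toR p) h3
    rw [map_natCast, map_zero] at h4
    have h5 : k = 0 := by exact_mod_cast h4
    omega
  -- the complexification
  let f : Zi q →+* ℂ := (Complex.ofRealHom).comp (toR q)
  have hf : Function.Injective f := Complex.ofRealHom.injective.comp (toR_injective q)
  have hfm : Function.Injective (f.mapMatrix (m := Fin m)) := by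
    intro A B hAB
    ext r s
    exact hf (congrFun (congrFun hAB r) s)
  have hTi : (T⁻¹).1 * T.1 = 1 := congrArg Subtype.val (inv_mul_cancel T)
  have hTi' : T.1 * (T⁻¹).1 = 1 := congrArg Subtype.val (mul_inv_cancel T)
  let Tu : (Matrix (Fin m) (Fin m) ℂ)ˣ := ⟨f.mapMatrix T.1, f.mapMatrix (T⁻¹).1, by
    rw [← map_mul, hTi', map_one], by rw [← map_mul, hTi, map_one]⟩
  have hUu : IsUnit (f.mapMatrix U.1) := by
    have h1 : U.1 * (U⁻¹).1 = 1 := congrArg Subtype.val (mul_inv_cancel U)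
    have h2 : (U⁻¹).1 * U.1 = 1 := congrArg Subtype.val (inv_mul_cancel U)
    exact ⟨⟨f.mapMatrix U.1, f.mapMatrix (U⁻¹).1, by rw [← map_mul, h1, map_one],
      by rw [← map_mul, h2, map_one]⟩, rfl⟩
  have hpp : 2 ≤ p * p := by nlinarith [hp.out.two_le]
  have hcoe_pow : ∀ k : ℕ, (U ^ k).1 = U.1 ^ k := fun k =>
    Matrix.SpecialLinearGroup.coe_pow U k
  obtain ⟨M, hM, hnil⟩ := exists_pow_unip (f.mapMatrix U.1) Tu hUu (p * p) hpp (by
    show f.mapMatrix T.1 * f.mapMatrix U.1 * f.mapMatrix (T⁻¹).1 = _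
    rw [← map_mul, ← map_mul, ← map_pow]
    congr 1
    rw [← hcoe_pow, ← hrel]
    rfl)
  obtain ⟨X, hX⟩ : ∃ X : Matrix (Fin m) (Fin m) (Zi q), X = U.1 ^ M - 1 := ⟨_, rfl⟩
  have hXnil : X ^ m = 0 := by
    apply hfm
    rw [map_pow, map_zero, hX, map_sub, map_pow, map_one]
    exact hnil
  have hX0 : X ≠ 0 := by
    intro h0
    apply hUinf M hM
    apply Subtype.ext
    rw [hcoe_pow]
    exact sub_eq_zero.1 (hX ▸ h0)
  -- the last nonzero power
  have hex : ∃ k : ℕ, X ^ (k + 1) = 0 := by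
    refine ⟨m, ?_⟩
    rw [pow_succ, hXnil, zero_mul]
  classical
  obtain ⟨k, hk⟩ : ∃ k, k = Nat.find hex := ⟨_, rfl⟩
  have hk1 : X ^ (k + 1) = 0 := by rw [hk]; exact Nat.find_spec hex
  have hk0 : k ≠ 0 := by
    rintro h0
    rw [h0, zero_add, pow_one] at hk1
    exact hX0 hk1
  have hkn : X ^ k ≠ 0 := by
    intro h0
    obtain ⟨l, hl⟩ : ∃ l, k = l + 1 := ⟨k - 1, by omega⟩
    have h1 := Nat.find_min hex (m := l) (by omega)
    exact h1 (by rw [← hl]; exact h0)
  -- the conjugation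
  have hW : T.1 * U.1 ^ M * (T⁻¹).1 = (U.1 ^ M) ^ (p * p) := by
    have h1 : T * U ^ M * T⁻¹ = (U ^ M) ^ (p * p) := by
      rw [← conj_pow, hrel, ← pow_mul, ← pow_mul, mul_comm]
    have h2 := congrArg Subtype.val h1
    have h3 : (T * U ^ M * T⁻¹).1 = T.1 * (U ^ M).1 * (T⁻¹).1 := rfl
    have h4 : ((U ^ M) ^ (p * p)).1 = (U ^ M).1 ^ (p * p) :=
      Matrix.SpecialLinearGroup.coe_pow (U ^ M) (p * p)
    rw [h3, h4, hcoe_pow] at h2
    exact h2
  have hconj : ∀ A B : Matrix (Fin m) (Fin m) (Zi q),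
      T.1 * (A * B) * (T⁻¹).1 = (T.1 * A * (T⁻¹).1) * (T.1 * B * (T⁻¹).1) := by
    intro A B
    calc T.1 * (A * B) * (T⁻¹).1 = T.1 * A * 1 * B * (T⁻¹).1 := by
          simp only [Matrix.mul_one, Matrix.mul_assoc]
      _ = _ := by rw [← hTi]; simp only [Matrix.mul_assoc]
  have hXc : T.1 * X * (T⁻¹).1 = (1 + X) ^ (p * p) - 1 := by
    have h1 : 1 + X = U.1 ^ M := by rw [hX]; abel
    rw [h1, ← hW, hX, mul_sub, sub_mul, mul_one, hTi']
  have hpow : ∀ l : ℕ, T.1 * X ^ l * (T⁻¹).1 = ((1 + X) ^ (p * p) - 1) ^ l := by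
    intro l
    induction l with
    | zero => rw [pow_zero, pow_zero, mul_one, hTi']
    | succ l ih => rw [pow_succ, hconj, ih, hXc, pow_succ]
  have hfin := hpow k
  rw [pow_sub_one_pow X (p * p) k hk1] at hfin
  apply hkn
  refine eq_zero_of_conj q p hpq T.1 (T⁻¹).1 hTi hTi' (X ^ k) ((p * p) ^ k) ?_ hfin
  exact dvd_pow (dvd_mul_right p p) hk0

end main

end Vale.Agent.P092.H387
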