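import Vale.Agent.P092.H387.Ex6
import Vale.Agent.P092.H387.Ex8

/-!
P092 (helper387): `SL_n(ℤ[1/p])`, `n` odd, determines `n`.
-/

open Set Matrix Module

namespace Vale.Agent.P092.H387

section invol

variable {V : Type*} [AddCommGroup V] [Module ℂ V]

theorem invol_eig {g : Module.End ℂ V} (hg : g * g = 1) {c : ℂ} {x : V} (hx : x ≠ 0) {k : ℕ}
    (hk : ((g - c • (1 : Module.End ℂ V)) ^ k) x = 0) : c * c = 1 ∧ g x = c • x := by
  have hgg : ∀ y, g (g y) = y := fun y => by
    have := congrArg (fun h : Module.End ℂ V => h y) hg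
    exact this
  have hc : c * c = 1 := by
    classical
    have hex : ∃ l : ℕ, ((g - c • (1 : Module.End ℂ V)) ^ l) x = 0 := ⟨k, hk⟩
    obtain ⟨l, hl⟩ : ∃ l, l = Nat.find hex := ⟨_, rfl⟩
    have h1 : ((g - c • (1 : Module.End ℂ V)) ^ l) x = 0 := by rw [hl]; exact Nat.find_spec hex
    have hl0 : l ≠ 0 := by
      rintro h0
      rw [h0, pow_zero] at h1
      exact hx h1
    obtain ⟨r, hr⟩ : ∃ r, l = r + 1 := ⟨l - 1, by omega⟩
    have h2 : ((g - c • (1 : Module.End ℂ V)) ^ r) x ≠ 0 := Nat.find_min hex (m := r) (by omega)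
    obtain ⟨y, hy⟩ : ∃ y, y = ((g - c • (1 : Module.End ℂ V)) ^ r) x := ⟨_, rfl⟩
    have h3 : g y - c • y = 0 := by
      rw [hr, pow_succ'] at h1
      rw [hy]
      exact h1
    have h4 : g y = c • y := sub_eq_zero.1 h3
    have h5 : y = (c * c) • y := by
      conv_lhs => rw [← hgg y, h4, map_smul, h4, smul_smul]
    have h6 : (1 - c * c) • y = 0 := by
      rw [sub_smul, one_smul, ← h5, sub_self]
    rcases smul_eq_zero.1 h6 with h7 | h7
    · linear_combination -h7
    · exact absurd (hy ▸ h7) h2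
  refine ⟨hc, ?_⟩
  have hk0 : k ≠ 0 := by
    rintro rfl
    rw [pow_zero] at hk
    exact hx hk
  obtain ⟨r, rfl⟩ : ∃ r, k = r + 1 := ⟨k - 1, by omega⟩
  have key : ∀ r : ℕ, ∀ y, ((g - c • (1 : Module.End ℂ V)) ^ (r + 1)) y =
      ((-2 * c) ^ r) • (g y - c • y) := by
    intro r
    induction r with
    | zero => intro y; simp
    | succ r ih =>
      intro y
      rw [pow_succ, Module.End.mul_apply, ih]
      have h1 : (g - c • (1 : Module.End ℂ V)) y = g y - c • y := rfl
      rw [h1, map_sub, map_smul, hgg, pow_succ, mul_smul]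
      congr 1
      rw [smul_sub, smul_sub, smul_smul, smul_smul, hc, one_smul, mul_assoc, hc]
      module
  rw [key] at hk
  have hc0 : c ≠ 0 := by
    rintro rfl
    simp at hc
  have h2 : (-2 * c) ^ r ≠ 0 := pow_ne_zero _ (mul_ne_zero (by norm_num) hc0)
  exact sub_eq_zero.1 ((smul_eq_zero.1 hk).resolve_left h2)

/-- A finite set of commuting involutions of `V` has at most `2 ^ dim V` elements. -/
theorem card_le_two_pow [FiniteDimensional ℂ V] {A : Type*} [Fintype A] (f : A → Module.End ℂ V)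
    (hf : Function.Injective f) (h2 : ∀ a, f a * f a = 1) (hcomm : ∀ a b, Commute (f a) (f b)) :
    Fintype.card A ≤ 2 ^ finrank ℂ V := by
  classical
  have htop := Module.End.iSup_iInf_maxGenEigenspace_eq_top_of_iSup_maxGenEigenspace_eq_top_of_commute
    f (fun a b _ => hcomm a b) (fun a => Module.End.iSup_maxGenEigenspace_eq_top (f a))
  have hind := Module.End.independent_iInf_maxGenEigenspace_of_forall_mapsTo f
    (fun a b => Module.End.mapsTo_maxGenEigenspace_of_comm (hcomm b a))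
  set E : (A → ℂ) → Submodule ℂ V := fun χ => ⨅ a, (f a).maxGenEigenspace (χ a) with hE
  let _ : Fintype {χ // E χ ≠ ⊥} := iSupIndep.fintypeNeBotOfFiniteDimensional hind
  have hcard : Fintype.card {χ // E χ ≠ ⊥} ≤ finrank ℂ V := hind.subtype_ne_bot_le_finrank
  have hmem : ∀ χ : A → ℂ, ∀ x ∈ E χ, x ≠ 0 → ∀ a, χ a * χ a = 1 ∧ f a x = χ a • x := by
    intro χ x hx hx0 a
    obtain ⟨k, hk⟩ := (Module.End.mem_iInf_maxGenEigenspace_iff f χ x).1 hx a
    exact invol_eig (h2 a) hx0 hk
  have hinj : Function.Injective (fun (a : A) (χ : {χ // E χ ≠ ⊥}) => decide (χ.1 a = 1)) := by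
    intro a b hab
    apply hf
    have hle : (⨆ χ : A → ℂ, E χ) ≤ LinearMap.eqLocus (f a) (f b) := by
      refine iSup_le fun χ x hx => ?_
      by_cases hx0 : x = 0
      · rw [hx0]; exact Submodule.zero_mem _
      · have hχ : E χ ≠ ⊥ := fun hbot => hx0 ((Submodule.mem_bot ℂ).1 (hbot ▸ hx))
        obtain ⟨h3, h4⟩ := hmem χ x hx hx0 a
        obtain ⟨h5, h6⟩ := hmem χ x hx hx0 b
        have h7 := congrFun hab ⟨χ, hχ⟩
        simp only [decide_eq_decide] at h7
        have h8 : χ a = χ b := by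
          rcases mul_self_eq_one_iff.1 h3 with h9 | h9 <;>
            rcases mul_self_eq_one_iff.1 h5 with h10 | h10
          · rw [h9, h10]
          · exact absurd (h7.1 h9) (by rw [h10]; norm_num)
          · exact absurd (h7.2 h10) (by rw [h9]; norm_num)
          · rw [h9, h10]
        show f a x = f b x
        rw [h4, h6, h8]
    rw [hE] at hle
    rw [htop, top_le_iff] at hle
    exact LinearMap.eqLocus_eq_top.1 hle
  calc Fintype.card A ≤ Fintype.card ({χ // E χ ≠ ⊥} → Bool) :=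
        Fintype.card_le_of_injective _ hinj
    _ = 2 ^ Fintype.card {χ // E χ ≠ ⊥} := by rw [Fintype.card_fun, Fintype.card_bool]
    _ ≤ 2 ^ finrank ℂ V := Nat.pow_le_pow_right (by norm_num) hcard

end invol

section dim

variable (p q : ℕ) [hp : Fact p.Prime] [hq : Fact q.Prime]

/-- the product of the signs -/
def sg {n : ℕ} (ε : Fin n → ℤˣ) : ℤˣ := ∏ i, ε i

theorem sg_mul {n : ℕ} (ε δ : Fin n → ℤˣ) : sg (ε * δ) = sg ε * sg δ := by
  simp [sg, Finset.prod_mul_distrib]

/-- the diagonal matrix `s(ε) diag(ε)` -/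
def dg {R : Type*} [CommRing R] {n : ℕ} (hn : Odd n) (ε : Fin n → ℤˣ) :
    SpecialLinearGroup (Fin n) R :=
  ⟨Matrix.diagonal (fun i => (((sg ε * ε i : ℤˣ) : ℤ) : R)), by
    rw [det_diagonal]
    have h1 : (∏ i, (sg ε * ε i)) = 1 := by
      rw [Finset.prod_mul_distrib, Finset.prod_const, Finset.card_univ, Fintype.card_fin]
      have h2 : ∏ i, ε i = sg ε := rfl
      rw [h2]
      obtain ⟨k, rfl⟩ := hn
      rw [← pow_succ, show 2 * k + 1 + 1 = 2 * (k + 1) by ring, pow_mul, Int.units_sq, one_pow]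
    have h3 := congrArg (fun u : ℤˣ => ((u : ℤ) : R)) h1
    simpa using h3⟩

theorem dg_mul {R : Type*} [CommRing R] {n : ℕ} (hn : Odd n) (ε δ : Fin n → ℤˣ) :
    (dg hn (ε * δ) : SpecialLinearGroup (Fin n) R) = dg hn ε * dg hn δ := by
  apply Subtype.ext
  show Matrix.diagonal _ = Matrix.diagonal _ * Matrix.diagonal _
  rw [Matrix.diagonal_mul_diagonal]
  congr 1
  funext i
  rw [sg_mul, Pi.mul_apply, show sg ε * sg δ * (ε i * δ i) = (sg ε * ε i) * (sg δ * δ i) by
    rw [mul_mul_mul_comm]]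
  push_cast
  ring

theorem int_units_cast_inj {R : Type*} [Ring R] [CharZero R] {u v : ℤˣ}
    (h : ((u : ℤ) : R) = ((v : ℤ) : R)) : u = v := by
  have := Int.cast_injective (α := R) h
  exact Units.ext this

/-- **`SL_n(ℤ[1/p])`, `n` odd, embeds in `SL_m(ℤ[1/q])`, `m` odd, only if `n ≤ m`.** -/
theorem dim_le {n m : ℕ} (hn : Odd n) (hm : Odd m)
    (φ : SpecialLinearGroup (Fin n) (Zi p) →* SpecialLinearGroup (Fin m) (Zi q))
    (hφ : Function.Injective φ) : n ≤ m := by
  classical
  set f : Zi q →+* ℂ := Complex.ofRealHom.comp (toR q) with hf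
  have hfinj : Function.Injective f := Complex.ofReal_injective.comp (toR_injective q)
  set G : (Fin n → ℤˣ) → Matrix (Fin m) (Fin m) ℂ := fun ε =>
    (SpecialLinearGroup.map f (φ (dg hn ε))).1 with hG
  have hGdet : ∀ ε, (G ε).det = 1 := fun ε => (SpecialLinearGroup.map f (φ (dg hn ε))).2
  have hGmul : ∀ ε δ, G (ε * δ) = G ε * G δ := by
    intro ε δ
    simp only [hG]
    rw [dg_mul, map_mul, map_mul]
    rfl
  set F : (Fin n → ℤˣ) → Matrix (Fin m) (Fin m) ℂ := fun ε => (((sg ε : ℤˣ) : ℤ) : ℂ) • G ε with hF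
  have hFmul : ∀ ε δ, F (ε * δ) = F ε * F δ := by
    intro ε δ
    simp only [hF]
    rw [hGmul, sg_mul, smul_mul_smul_comm]
    push_cast
    rfl
  have hF1 : F 1 = 1 := by
    have h1 : (dg hn (1 : Fin n → ℤˣ) : SpecialLinearGroup (Fin n) (Zi p)) = 1 := by
      have h2 := dg_mul (R := Zi p) hn (1 : Fin n → ℤˣ) 1
      rw [one_mul] at h2
      exact (mul_eq_left.1 h2.symm)
    have h3 : G 1 = 1 := by
      simp only [hG]
      rw [h1, map_one, map_one]
      rfl
    have h4 : sg (1 : Fin n → ℤˣ) = 1 := by simp [sg]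
    simp only [hF]
    rw [h3, h4]
    simp
  have hdet : ∀ ε, (F ε).det = (((sg ε : ℤˣ) : ℤ) : ℂ) := by
    intro ε
    simp only [hF]
    rw [det_smul, hGdet, mul_one, Fintype.card_fin]
    obtain ⟨k, rfl⟩ := hm
    have h1 : (sg ε) ^ (2 * k + 1) = sg ε := by
      rw [pow_succ, pow_mul, Int.units_sq, one_pow, one_mul]
    have h2 := congrArg (fun u : ℤˣ => ((u : ℤ) : ℂ)) h1
    push_cast at h2
    exact h2
  have hinj : Function.Injective F := by
    intro ε δ h
    have h1 : sg ε = sg δ := by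
      have h2 := congrArg Matrix.det h
      rw [hdet, hdet] at h2
      exact int_units_cast_inj h2
    have h3 : G ε = G δ := by
      simp only [hF] at h
      rw [h1] at h
      have h4 : (((sg δ : ℤˣ) : ℤ) : ℂ) ≠ 0 := by
        rw [Int.cast_ne_zero]
        exact (sg δ).ne_zero
      exact smul_right_injective _ h4 h
    have h5 : (dg hn ε : SpecialLinearGroup (Fin n) (Zi p)) = dg hn δ := by
      apply hφ
      apply map_injective m hfinj
      exact Subtype.ext h3
    funext i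
    have h6 := congrArg (fun M : SpecialLinearGroup (Fin n) (Zi p) => toR p (M i i)) h5
    have h7 : ∀ ε : Fin n → ℤˣ, (dg hn ε : SpecialLinearGroup (Fin n) (Zi p)) i i =
        (((sg ε * ε i : ℤˣ) : ℤ) : Zi p) := fun ε => diagonal_apply_eq _ _
    simp only [h7, map_intCast] at h6
    have h8 := int_units_cast_inj h6
    rw [h1] at h8
    exact mul_left_cancel h8
  have hcard := card_le_two_pow (V := Fin m → ℂ) (fun ε => Matrix.toLin' (F ε))
    (fun ε δ h => hinj (Matrix.toLin'.injective h))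
    (fun ε => by
      have h1 : ε * ε = 1 := by
        funext i
        simp [← sq, Int.units_sq]
      rw [Module.End.mul_eq_comp, ← Matrix.toLin'_mul, ← hFmul, h1, hF1, Matrix.toLin'_one]
      rfl)
    (fun ε δ => by
      show _ * _ = _ * _
      rw [Module.End.mul_eq_comp, Module.End.mul_eq_comp, ← Matrix.toLin'_mul, ← Matrix.toLin'_mul,
        ← hFmul, ← hFmul, mul_comm])
  rw [Fintype.card_fun, Fintype.card_units_int, Fintype.card_fin, finrank_fin_fun] at hcard
  exact (Nat.pow_le_pow_iff_right (by norm_num)).1 hcard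

/-- **`SL_n(ℤ[1/p])`, `n` odd, `n ≥ 2`, determines `n` and `p`.** -/
theorem eq_of_equiv {n m : ℕ} (hn : Odd n) (hm : Odd m) (hn2 : 2 ≤ n)
    (e : SpecialLinearGroup (Fin n) (Zi p) ≃* SpecialLinearGroup (Fin m) (Zi q)) :
    n = m ∧ p = q :=
  ⟨le_antisymm (dim_le p q hn hm e.toMonoidHom e.injective)
    (dim_le q p hm hn e.symm.toMonoidHom e.symm.injective),
    prime_eq p q hn2 e.toMonoidHom e.injective⟩

/-- The same for the lattices `Gam n p`, `Gam m q`. -/
theorem eq_of_gam_equiv {n m : ℕ} (hn : Odd n) (hm : Odd m) (hn2 : 2 ≤ n)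
    (e : Gam n p ≃* Gam m q) : n = m ∧ p = q :=
  eq_of_equiv p q hn hm hn2 ((gamEquiv p n).trans (e.trans (gamEquiv q m).symm))

end dim

end Vale.Agent.P092.H387
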