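import Vale.Agent.P092.H387.Ex7
import Vale.Agent.P092.H387.Ex9

/-!
P092 (helper387): ICC and rigidity of `SL_n(A)` for subrings `A` of `ℝ`.
-/

open Set Matrix Module

namespace Vale.Agent.P092.H387.N

/-- **ICC.** -/
theorem iccA {A : Type*} [CommRing A] (f : A →+* ℝ) (hf : Function.Injective f) {n : ℕ}
    (hn : Odd n) (g : SpecialLinearGroup (Fin n) A) (hg : g ≠ 1) :
    Set.Infinite {y : SpecialLinearGroup (Fin n) A | ∃ h, y = h * g * h⁻¹} := by
  have hdom : IsDomain A := Function.Injective.isDomain f hf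
  have hcast : Function.Injective (fun t : ℕ => (t : A)) := by
    intro a b hab
    have h1 := congrArg f hab
    simpa using h1
  intro hfin
  apply hg
  have key : ∀ i j : Fin n, ∀ hij : i ≠ j, (∀ k, k ≠ i → g.1 k i = 0) ∧ g.1 i i = g.1 j j := by
    intro i j hij
    have hmaps : MapsTo (fun t : ℕ => SpecialLinearGroup.transvection hij (t : A) * g *
        (SpecialLinearGroup.transvection hij (t : A))⁻¹) univ
        {y : SpecialLinearGroup (Fin n) A | ∃ h, y = h * g * h⁻¹} :=
      fun t _ => ⟨_, rfl⟩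
    obtain ⟨s, -, t, -, hst, heq⟩ := Set.infinite_univ.exists_ne_map_eq_of_mapsTo hmaps hfin
    -- `x(s) g x(s)⁻¹ = x(t) g x(t)⁻¹`
    have hc : ((s : A) - (t : A)) ≠ 0 := by
      intro h0
      exact hst (hcast (sub_eq_zero.1 h0))
    have h1 : SpecialLinearGroup.transvection hij ((s : A) - (t : A)) * g =
        g * SpecialLinearGroup.transvection hij ((s : A) - (t : A)) := by
      have e1 : SpecialLinearGroup.transvection hij ((s : A) - (t : A)) =
          (SpecialLinearGroup.transvection hij (t : A))⁻¹ *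
            SpecialLinearGroup.transvection hij (s : A) := by
        rw [eq_inv_mul_iff_mul_eq, transvection_add', add_sub_cancel]
      have heq' : SpecialLinearGroup.transvection hij (s : A) * g *
        (SpecialLinearGroup.transvection hij (s : A))⁻¹ =
        SpecialLinearGroup.transvection hij (t : A) * g *
        (SpecialLinearGroup.transvection hij (t : A))⁻¹ := heq
      have e2 : SpecialLinearGroup.transvection hij (s : A) * g =
          SpecialLinearGroup.transvection hij (t : A) * g *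
          (SpecialLinearGroup.transvection hij (t : A))⁻¹ *
          SpecialLinearGroup.transvection hij (s : A) := by
        rw [← heq']; group
      rw [e1, mul_assoc, e2]; group
    exact entries_of_commute hc (congrArg Subtype.val h1)
  obtain ⟨k, hk⟩ := hn
  have hpos : 0 < n := by omega
  set i0 : Fin n := ⟨0, hpos⟩
  have hscal : g.1 = Matrix.diagonal fun _ => g.1 i0 i0 := by
    ext i j
    by_cases hij : i = j
    · subst hij
      rw [Matrix.diagonal_apply_eq]
      by_cases h0 : i = i0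
      · rw [h0]
      · exact (key i i0 h0).2
    · rw [Matrix.diagonal_apply_ne _ hij]
      exact (key j i (Ne.symm hij)).1 i hij
  have hdet : (g.1 i0 i0) ^ n = 1 := by
    have h1 : g.1.det = 1 := g.2
    rw [hscal, Matrix.det_diagonal, Finset.prod_const, Finset.card_univ, Fintype.card_fin] at h1
    exact h1
  have h1 : g.1 i0 i0 = 1 := by
    apply hf
    rw [map_one]
    have h2 := congrArg f hdet
    rw [map_pow, map_one] at h2
    have hodd : Odd n := ⟨k, hk⟩
    exact (hodd.pow_injective (by simpa using h2))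
  apply Subtype.ext
  rw [hscal, h1]
  exact Matrix.diagonal_one

/-- No eigenvector with eigenvalue divisible by `p`. -/
theorem eq_zero_of_conjA {p : ℕ} [hp : Fact p.Prime] {B : Type*} [CommRing B] {m : ℕ}
    (v : B →+* ℚ_[p]) (hv : Function.Injective v) (hv1 : ∀ b, ‖v b‖ ≤ 1) (T Ti : Matrix (Fin m) (Fin m) B)
    (hTi : Ti * T = 1) (hTi' : T * Ti = 1)
    (Y : Matrix (Fin m) (Fin m) B) (c : ℕ) (hc : p ∣ c)
    (h : T * Y * Ti = (c : Matrix (Fin m) (Fin m) B) * Y) : Y = 0 := by
  have h2 : ∀ Z : Matrix (Fin m) (Fin m) B, Ti * (T * Z * Ti) * T = Z := fun Z => by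
    calc Ti * (T * Z * Ti) * T = (Ti * T) * Z * (Ti * T) := by simp only [Matrix.mul_assoc]
      _ = Z := by rw [hTi, Matrix.one_mul, Matrix.mul_one]
  have h3 : ∀ Z : Matrix (Fin m) (Fin m) B, T * (Ti * Z * T) * Ti = Z := fun Z => by
    calc T * (Ti * Z * T) * Ti = (T * Ti) * Z * (T * Ti) := by simp only [Matrix.mul_assoc]
      _ = Z := by rw [hTi', Matrix.one_mul, Matrix.mul_one]
  -- divisibility of `Y` by all powers
  have key : ∀ k : ℕ, ∃ Z : Matrix (Fin m) (Fin m) B,
      Y = ((c ^ k : ℕ) : Matrix (Fin m) (Fin m) B) * Z ∧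
      T * Z * Ti = (c : Matrix (Fin m) (Fin m) B) * Z := by
    intro k
    induction k with
    | zero => exact ⟨Y, by simp, h⟩
    | succ k ih =>
      obtain ⟨Z, hZ, hT⟩ := ih
      have h1 : Z = (c : Matrix (Fin m) (Fin m) B) * (Ti * Z * T) := by
        have h4 := h2 Z
        rw [hT, ← mul_assoc, ← Nat.cast_comm c Ti] at h4
        simp only [mul_assoc] at h4 ⊢
        exact h4.symm
      refine ⟨Ti * Z * T, ?_, ?_⟩
      · rw [pow_succ, Nat.cast_mul, mul_assoc, ← h1]
        exact hZ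
      · rw [h3]
        exact h1
  ext i j
  apply hv
  rw [Matrix.zero_apply, map_zero, ← norm_eq_zero]
  have hent : ∀ (k : ℕ) (Z : Matrix (Fin m) (Fin m) B),
      v ((((k : ℕ) : Matrix (Fin m) (Fin m) B) * Z) i j) =
        (k : ℚ_[p]) * v (Z i j) := by
    intro k Z
    have h6 : ∀ W : Matrix (Fin m) (Fin m) ℚ_[p],
        (((k : ℕ) : Matrix (Fin m) (Fin m) ℚ_[p]) * W) i j = (k : ℚ_[p]) * W i j := by
      intro W
      rw [← nsmul_eq_mul, Matrix.smul_apply, nsmul_eq_mul]
    have h5 : (v.mapMatrix (((k : ℕ) : Matrix (Fin m) (Fin m) B) * Z)) =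
        ((k : ℕ) : Matrix (Fin m) (Fin m) ℚ_[p]) * v.mapMatrix Z := by
      rw [map_mul, map_natCast]
    have h7 := congrFun (congrFun h5 i) j
    rw [h6] at h7
    exact h7
  have hc1 : ‖(c : ℚ_[p])‖ < 1 := Padic.norm_natCast_lt_one_iff.2 hc
  refine le_antisymm ?_ (norm_nonneg _)
  refine ge_of_tendsto' (tendsto_pow_atTop_nhds_zero_of_lt_one (norm_nonneg _) hc1) fun k => ?_
  obtain ⟨Z, hZ, -⟩ := key k
  rw [hZ, hent, norm_mul, Nat.cast_pow, norm_pow]
  exact mul_le_of_le_one_right (by positivity) (hv1 _)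

/-- If `p` is a unit of `A` but the elements of `B` are `p`-integral then `SL_n(A)` does not embed
in `SL_m(B)`. -/
theorem not_injective {p : ℕ} [hp : Fact p.Prime] {A B : Type*} [CommRing A] [CommRing B]
    (hA : ∀ k : ℕ, (k : A) = 0 → k = 0) (hu : IsUnit ((p : ℕ) : A)) (f : B →+* ℂ)
    (hf : Function.Injective f) (v : B →+* ℚ_[p]) (hv : Function.Injective v)
    (hv1 : ∀ b, ‖v b‖ ≤ 1) {n m : ℕ} (hn : 2 ≤ n)
    (φ : SpecialLinearGroup (Fin n) A →* SpecialLinearGroup (Fin m) B)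
    (hφ : Function.Injective φ) : False := by
  set i : Fin n := ⟨0, by omega⟩
  set j : Fin n := ⟨1, by omega⟩
  have hij : i ≠ j := by simp [i, j]
  obtain ⟨a, ha⟩ := hu
  obtain ⟨T, hT⟩ : ∃ T, T = φ (hh hij a) := ⟨_, rfl⟩
  obtain ⟨U, hU⟩ : ∃ U, U = φ (SpecialLinearGroup.transvection hij 1) := ⟨_, rfl⟩
  have hrel : T * U * T⁻¹ = U ^ (p * p) := by
    have h1 := hh_conj hij a (1 : A)
    have h2 : (a : A) * a * 1 = ((p * p : ℕ) : A) := by
      rw [ha]; push_cast; ring
    rw [h2, ← transvection_pow] at h1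
    have h3 := congrArg φ h1
    rw [map_mul, map_mul, map_pow, ← hT, ← hU] at h3
    rw [h3, mul_inv_cancel_right]
  have hUinf : ∀ k : ℕ, 0 < k → U ^ k ≠ 1 := by
    intro k hk h1
    rw [hU, ← map_pow, ← map_one φ] at h1
    have h2 := hφ h1
    rw [transvection_pow] at h2
    have h3 := transvection_inj hij h2
    have h5 : k = 0 := hA k h3
    omega
  -- the complexification
  have hfm : Function.Injective (f.mapMatrix (m := Fin m)) := by
    intro C D hAB
    ext r s
    exact hf (congrFun (congrFun hAB r) s)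
  have hTi : (T⁻¹).1 * T.1 = 1 := congrArg Subtype.val (inv_mul_cancel T)
  have hTi' : T.1 * (T⁻¹).1 = 1 := congrArg Subtype.val (mul_inv_cancel T)
  let Tu : (Matrix (Fin m) (Fin m) ℂ)ˣ := ⟨f.mapMatrix T.1, f.mapMatrix (T⁻¹).1, by
    rw [← map_mul, hTi', map_one], by rw [← map_mul, hTi, map_one]⟩
  have hUu : IsUnit (f.mapMatrix U.1) := by
    have h1 : U.1 * (U⁻¹).1 = 1 := congrArg Subtype.val (mul_inv_cancel U)
    have h2 : (U⁻¹).1 * U.1 = 1 := congrArg Subtype.val (inv_mul_cancel U)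
    exact ⟨⟨f.mapMatrix U.1, f.mapMatrix (U⁻¹).1, by rw [← map_mul, h1, map_one],
      by rw [← map_mul, h2, map_one]⟩, rfl⟩
  have hpp : 2 ≤ p * p := by nlinarith [hp.out.two_le]
  have hcoe_pow : ∀ k : ℕ, (U ^ k).1 = U.1 ^ k := fun k =>
    Matrix.SpecialLinearGroup.coe_pow U k
  obtain ⟨M, hM, hnil⟩ := exists_pow_unip (f.mapMatrix U.1) Tu hUu (p * p) hpp (by
    show f.mapMatrix T.1 * f.mapMatrix U.1 * f.mapMatrix (T⁻¹).1 = _
    rw [← map_mul, ← map_mul, ← map_pow]
    congr 1
    rw [← hcoe_pow, ← hrel]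
    rfl)
  obtain ⟨X, hX⟩ : ∃ X : Matrix (Fin m) (Fin m) B, X = U.1 ^ M - 1 := ⟨_, rfl⟩
  have hXnil : X ^ m = 0 := by
    apply hfm
    rw [map_pow, map_zero, hX, map_sub, map_pow, map_one]
    exact hnil
  have hX0 : X ≠ 0 := by
    intro h0
    apply hUinf M hM
    apply Subtype.ext
    rw [hcoe_pow]
    exact sub_eq_zero.1 (hX ▸ h0)
  -- the last nonzero power
  have hex : ∃ k : ℕ, X ^ (k + 1) = 0 := by
    refine ⟨m, ?_⟩
    rw [pow_succ, hXnil, zero_mul]
  classical
  obtain ⟨k, hk⟩ : ∃ k, k = Nat.find hex := ⟨_, rfl⟩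
  have hk1 : X ^ (k + 1) = 0 := by rw [hk]; exact Nat.find_spec hex
  have hk0 : k ≠ 0 := by
    rintro h0
    rw [h0, zero_add, pow_one] at hk1
    exact hX0 hk1
  have hkn : X ^ k ≠ 0 := by
    intro h0
    obtain ⟨l, hl⟩ : ∃ l, k = l + 1 := ⟨k - 1, by omega⟩
    have h1 := Nat.find_min hex (m := l) (by omega)
    exact h1 (by rw [← hl]; exact h0)
  -- the conjugation
  have hW : T.1 * U.1 ^ M * (T⁻¹).1 = (U.1 ^ M) ^ (p * p) := by
    have h1 : T * U ^ M * T⁻¹ = (U ^ M) ^ (p * p) := by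
      rw [← conj_pow, hrel, ← pow_mul, ← pow_mul, mul_comm]
    have h2 := congrArg Subtype.val h1
    have h3 : (T * U ^ M * T⁻¹).1 = T.1 * (U ^ M).1 * (T⁻¹).1 := rfl
    have h4 : ((U ^ M) ^ (p * p)).1 = (U ^ M).1 ^ (p * p) :=
      Matrix.SpecialLinearGroup.coe_pow (U ^ M) (p * p)
    rw [h3, h4, hcoe_pow] at h2
    exact h2
  have hconj : ∀ C D : Matrix (Fin m) (Fin m) B,
      T.1 * (C * D) * (T⁻¹).1 = (T.1 * C * (T⁻¹).1) * (T.1 * D * (T⁻¹).1) := by
    intro C D
    calc T.1 * (C * D) * (T⁻¹).1 = T.1 * C * 1 * D * (T⁻¹).1 := by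
          simp only [Matrix.mul_one, Matrix.mul_assoc]
      _ = _ := by rw [← hTi]; simp only [Matrix.mul_assoc]
  have hXc : T.1 * X * (T⁻¹).1 = (1 + X) ^ (p * p) - 1 := by
    have h1 : 1 + X = U.1 ^ M := by rw [hX]; abel
    rw [h1, ← hW, hX, mul_sub, sub_mul, mul_one, hTi']
  have hpow : ∀ l : ℕ, T.1 * X ^ l * (T⁻¹).1 = ((1 + X) ^ (p * p) - 1) ^ l := by
    intro l
    induction l with
    | zero => rw [pow_zero, pow_zero, mul_one, hTi']
    | succ l ih => rw [pow_succ, hconj, ih, hXc, pow_succ]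
  have hfin := hpow k
  rw [pow_sub_one_pow X (p * p) k hk1] at hfin
  apply hkn
  refine eq_zero_of_conjA v hv hv1 T.1 (T⁻¹).1 hTi hTi' (X ^ k) ((p * p) ^ k) ?_ hfin
  exact dvd_pow (dvd_mul_right p p) hk0

/-- `SL_n(A)`, `n` odd, embeds in `SL_m(B)`, `m` odd, only if `n ≤ m`. -/
theorem dim_leA {A B : Type*} [CommRing A] [CommRing B] (e : A →+* ℝ) (f : B →+* ℂ)
    (hfinj : Function.Injective f) {n m : ℕ} (hn : Odd n) (hm : Odd m)
    (φ : SpecialLinearGroup (Fin n) A →* SpecialLinearGroup (Fin m) B)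
    (hφ : Function.Injective φ) : n ≤ m := by
  classical
  set G : (Fin n → ℤˣ) → Matrix (Fin m) (Fin m) ℂ := fun ε =>
    (SpecialLinearGroup.map f (φ (dg hn ε))).1 with hG
  have hGdet : ∀ ε, (G ε).det = 1 := fun ε => (SpecialLinearGroup.map f (φ (dg hn ε))).2
  have hGmul : ∀ ε δ, G (ε * δ) = G ε * G δ := by
    intro ε δ
    simp only [hG]
    rw [dg_mul, map_mul, map_mul]
    rfl
  set F : (Fin n → ℤˣ) → Matrix (Fin m) (Fin m) ℂ := fun ε => (((sg ε : ℤˣ) : ℤ) : ℂ) • G ε with hF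
  have hFmul : ∀ ε δ, F (ε * δ) = F ε * F δ := by
    intro ε δ
    simp only [hF]
    rw [hGmul, sg_mul, smul_mul_smul_comm]
    push_cast
    rfl
  have hF1 : F 1 = 1 := by
    have h1 : (dg hn (1 : Fin n → ℤˣ) : SpecialLinearGroup (Fin n) A) = 1 := by
      have h2 := dg_mul (R := A) hn (1 : Fin n → ℤˣ) 1
      rw [one_mul] at h2
      exact (mul_eq_left.1 h2.symm)
    have h3 : G 1 = 1 := by
      simp only [hG]
      rw [h1, map_one, map_one]
      rfl
    have h4 : sg (1 : Fin n → ℤˣ) = 1 := by simp [sg]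
    simp only [hF]
    rw [h3, h4]
    simp
  have hdet : ∀ ε, (F ε).det = (((sg ε : ℤˣ) : ℤ) : ℂ) := by
    intro ε
    simp only [hF]
    rw [det_smul, hGdet, mul_one, Fintype.card_fin]
    obtain ⟨k, rfl⟩ := hm
    have h1 : (sg ε) ^ (2 * k + 1) = sg ε := by
      rw [pow_succ, pow_mul, Int.units_sq, one_pow, one_mul]
    have h2 := congrArg (fun u : ℤˣ => ((u : ℤ) : ℂ)) h1
    push_cast at h2
    exact h2
  have hinj : Function.Injective F := by
    intro ε δ h
    have h1 : sg ε = sg δ := by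
      have h2 := congrArg Matrix.det h
      rw [hdet, hdet] at h2
      exact int_units_cast_inj h2
    have h3 : G ε = G δ := by
      simp only [hF] at h
      rw [h1] at h
      have h4 : (((sg δ : ℤˣ) : ℤ) : ℂ) ≠ 0 := by
        rw [Int.cast_ne_zero]
        exact (sg δ).ne_zero
      exact smul_right_injective _ h4 h
    have h5 : (dg hn ε : SpecialLinearGroup (Fin n) A) = dg hn δ := by
      apply hφ
      apply map_injective m hfinj
      exact Subtype.ext h3
    funext i
    have h6 := congrArg (fun M : SpecialLinearGroup (Fin n) A => e (M i i)) h5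
    have h7 : ∀ ε : Fin n → ℤˣ, (dg hn ε : SpecialLinearGroup (Fin n) A) i i =
        (((sg ε * ε i : ℤˣ) : ℤ) : A) := fun ε => diagonal_apply_eq _ _
    simp only [h7, map_intCast] at h6
    have h8 := int_units_cast_inj h6
    rw [h1] at h8
    exact mul_left_cancel h8
  have hcard := card_le_two_pow (V := Fin m → ℂ) (fun ε => Matrix.toLin' (F ε))
    (fun ε δ h => hinj (Matrix.toLin'.injective h))
    (fun ε => by
      have h1 : ε * ε = 1 := by
        funext i
        simp [← sq, Int.units_sq]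
      rw [Module.End.mul_eq_comp, ← Matrix.toLin'_mul, ← hFmul, h1, hF1, Matrix.toLin'_one]
      rfl)
    (fun ε δ => by
      show _ * _ = _ * _
      rw [Module.End.mul_eq_comp, Module.End.mul_eq_comp, ← Matrix.toLin'_mul, ← Matrix.toLin'_mul,
        ← hFmul, ← hFmul, mul_comm])
  rw [Fintype.card_fun, Fintype.card_units_int, Fintype.card_fin, finrank_fin_fun] at hcard
  exact (Nat.pow_le_pow_iff_right (by norm_num)).1 hcard

end Vale.Agent.P092.H387.N
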