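import Vale.Agent.P092.H387.ExN4
import Vale.Agent.P092.H387.ExN5
import Vale.Agent.P092.H971.PlcAbs
import Vale.Agent.P092.PA.Fac

/-!
P092 (helper387), [QC-QUOT] (6): `PSL_n(ℤ[1/N])`, `n ≥ 2`, `N ≥ 2`, is an ICC lattice in the product of
the groups `PSL_n(ℝ)` and `PSL_n(ℚ_p)`, `p ∣ N`, with dense projections.
-/

set_option linter.all false

open Set Matrix Module Topology
open Vale.Agent.P092.H515.St

namespace Vale.Agent.P092.H387.N

/-- Non-central elements of `SL_n(A)` have infinite conjugacy classes. -/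
theorem infinite_conj {A : Type*} [CommRing A] (f : A →+* ℝ) (hf : Function.Injective f) {n : ℕ}
    (g : SpecialLinearGroup (Fin n) A)
    (hg : g ∉ Subgroup.center (SpecialLinearGroup (Fin n) A)) :
    Set.Infinite {y : SpecialLinearGroup (Fin n) A | ∃ h, y = h * g * h⁻¹} := by
  have hdom : IsDomain A := Function.Injective.isDomain f hf
  have hcast : Function.Injective (fun t : ℕ => (t : A)) := by
    intro a b hab
    have h1 := congrArg f hab
    simpa using h1
  intro hfin
  apply hg
  have key : ∀ i j : Fin n, ∀ hij : i ≠ j, (∀ k, k ≠ i → g.1 k i = 0) ∧ g.1 i i = g.1 j j := by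
    intro i j hij
    have hmaps : MapsTo (fun t : ℕ => SpecialLinearGroup.transvection hij (t : A) * g *
        (SpecialLinearGroup.transvection hij (t : A))⁻¹) univ
        {y : SpecialLinearGroup (Fin n) A | ∃ h, y = h * g * h⁻¹} :=
      fun t _ => ⟨_, rfl⟩
    obtain ⟨s, -, t, -, hst, heq⟩ := Set.infinite_univ.exists_ne_map_eq_of_mapsTo hmaps hfin
    have hc : ((s : A) - (t : A)) ≠ 0 := by
      intro h0
      exact hst (hcast (sub_eq_zero.1 h0))
    have h1 : SpecialLinearGroup.transvection hij ((s : A) - (t : A)) * g =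
        g * SpecialLinearGroup.transvection hij ((s : A) - (t : A)) := by
      have e1 : SpecialLinearGroup.transvection hij ((s : A) - (t : A)) =
          (SpecialLinearGroup.transvection hij (t : A))⁻¹ *
            SpecialLinearGroup.transvection hij (s : A) := by
        rw [eq_inv_mul_iff_mul_eq, transvection_add', add_sub_cancel]
      have heq' : SpecialLinearGroup.transvection hij (s : A) * g *
        (SpecialLinearGroup.transvection hij (s : A))⁻¹ =
        SpecialLinearGroup.transvection hij (t : A) * g *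
        (SpecialLinearGroup.transvection hij (t : A))⁻¹ := heq
      have e2 : SpecialLinearGroup.transvection hij (s : A) * g =
          SpecialLinearGroup.transvection hij (t : A) * g *
          (SpecialLinearGroup.transvection hij (t : A))⁻¹ *
          SpecialLinearGroup.transvection hij (s : A) := by
        rw [← heq']; group
      rw [e1, mul_assoc, e2]; group
    exact entries_of_commute hc (congrArg Subtype.val h1)
  rcases Nat.eq_zero_or_pos n with rfl | hpos
  · rw [Subsingleton.elim g 1]
    exact Subgroup.one_mem _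
  set i0 : Fin n := ⟨0, hpos⟩
  have hscal : g.1 = Matrix.diagonal fun _ => g.1 i0 i0 := by
    ext i j
    by_cases hij : i = j
    · subst hij
      rw [Matrix.diagonal_apply_eq]
      by_cases h0 : i = i0
      · rw [h0]
      · exact (key i i0 h0).2
    · rw [Matrix.diagonal_apply_ne _ hij]
      exact (key j i (Ne.symm hij)).1 i hij
  refine Matrix.SpecialLinearGroup.mem_center_iff.2 ⟨g.1 i0 i0, ?_, ?_⟩
  · have h1 : g.1.det = 1 := g.2
    rw [hscal, Matrix.det_diagonal, Finset.prod_const, Finset.card_univ] at h1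
    exact h1
  · rw [Matrix.scalar_apply]
    exact hscal.symm

/-- Quotients by finite normal subgroups with infinite classes outside are ICC. -/
theorem icc_quo {G : Type*} [Group G] (Z : Subgroup G) [Z.Normal] (hZ : (Z : Set G).Finite)
    (h : ∀ g, g ∉ Z → Set.Infinite {y : G | ∃ h, y = h * g * h⁻¹}) :
    ∀ g : G ⧸ Z, g ≠ 1 → Set.Infinite {y : G ⧸ Z | ∃ h, y = h * g * h⁻¹} := by
  intro g hg hfin
  obtain ⟨x, rfl⟩ := QuotientGroup.mk'_surjective Z g
  have hx : x ∉ Z := fun hx => hg ((QuotientGroup.eq_one_iff x).2 hx)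
  refine h x hx (Set.Finite.subset (hfin.preimage' (f := QuotientGroup.mk' Z) fun b _ => ?_) ?_)
  · obtain ⟨y, rfl⟩ := QuotientGroup.mk'_surjective Z b
    refine (hZ.image fun z => y * z).subset fun w hw => ?_
    have h1 : (y : G ⧸ Z) = (w : G ⧸ Z) := (mem_singleton_iff.1 hw).symm
    exact ⟨y⁻¹ * w, QuotientGroup.eq.1 h1, by simp⟩
  · rintro y ⟨h, rfl⟩
    exact ⟨QuotientGroup.mk' Z h, by simp only [map_mul, map_inv]⟩

/-- The centre of `SL_n` of a domain is finite. -/
theorem finite_center {A : Type*} [CommRing A] [IsDomain A] {n : ℕ} :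
    ((Subgroup.center (SpecialLinearGroup (Fin n) A) :
      Subgroup (SpecialLinearGroup (Fin n) A)) : Set (SpecialLinearGroup (Fin n) A)).Finite := by
  haveI : NeZero (max (Fintype.card (Fin n)) 1) := ⟨by simp⟩
  haveI : Finite (rootsOfUnity (max (Fintype.card (Fin n)) 1) A) :=
    inferInstance
  have h : Finite (Subgroup.center (SpecialLinearGroup (Fin n) A)) :=
    Finite.of_equiv _ Matrix.SpecialLinearGroup.center_equiv_rootsOfUnity.symm.toEquiv
  exact Set.toFinite _

/-- **`PSL_n(A)` is ICC**, `A` a subring of `ℝ`. -/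
theorem icc_psl {A : Type*} [CommRing A] (f : A →+* ℝ) (hf : Function.Injective f) {n : ℕ} :
    ∀ g : SpecialLinearGroup (Fin n) A ⧸ Subgroup.center (SpecialLinearGroup (Fin n) A), g ≠ 1 →
      Set.Infinite {y | ∃ h, y = h * g * h⁻¹} := by
  haveI : IsDomain A := Function.Injective.isDomain f hf
  exact icc_quo _ finite_center fun g hg => infinite_conj f hf g hg

section map

variable {A K : Type*} [CommRing A] [Field K] {n : ℕ} (f : A →+* K)

theorem center_le (n : ℕ) : Subgroup.center (SpecialLinearGroup (Fin n) A) ≤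
    (Subgroup.center (SpecialLinearGroup (Fin n) K)).comap (SpecialLinearGroup.map f) := by
  intro x hx
  obtain ⟨r, hr, hx⟩ := Matrix.SpecialLinearGroup.mem_center_iff.1 hx
  refine Matrix.SpecialLinearGroup.mem_center_iff.2 ⟨f r, by rw [← map_pow, hr, map_one], ?_⟩
  ext i j
  have h1 := congrFun (congrFun hx i) j
  rw [Matrix.scalar_apply, Matrix.diagonal_apply] at h1 ⊢
  show _ = f (x.1 i j)
  rw [← h1]
  split_ifs
  · rfl
  · rw [map_zero]

theorem mem_center_of_map (hf : Function.Injective f) {x : SpecialLinearGroup (Fin n) A}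
    (h : SpecialLinearGroup.map f x ∈ Subgroup.center (SpecialLinearGroup (Fin n) K)) :
    x ∈ Subgroup.center (SpecialLinearGroup (Fin n) A) := by
  obtain ⟨r, hr, hx⟩ := Matrix.SpecialLinearGroup.mem_center_iff.1 h
  rcases Nat.eq_zero_or_pos n with rfl | hpos
  · rw [Subsingleton.elim x 1]
    exact Subgroup.one_mem _
  have key : ∀ i j, f (x.1 i j) = if i = j then r else 0 := fun i j => by
    have h1 := congrFun (congrFun hx i) j
    rw [Matrix.scalar_apply, Matrix.diagonal_apply] at h1
    exact h1.symm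
  have h0 : f (x.1 ⟨0, hpos⟩ ⟨0, hpos⟩) = r := by rw [key, if_pos rfl]
  refine Matrix.SpecialLinearGroup.mem_center_iff.2 ⟨x.1 ⟨0, hpos⟩ ⟨0, hpos⟩, hf ?_, ?_⟩
  · rw [map_pow, map_one, h0, hr]
  · ext i j
    apply hf
    rw [key, Matrix.scalar_apply, Matrix.diagonal_apply]
    split_ifs
    · exact h0
    · exact map_zero f

/-- The map `PSL_n(A) → PSL_n(K)`. -/
noncomputable def pmap (n : ℕ) :
    SpecialLinearGroup (Fin n) A ⧸ Subgroup.center (SpecialLinearGroup (Fin n) A) →*
      SpecialLinearGroup (Fin n) K ⧸ Subgroup.center (SpecialLinearGroup (Fin n) K) :=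
  QuotientGroup.map _ _ (SpecialLinearGroup.map f) (center_le f n)

theorem pmap_mk (x : SpecialLinearGroup (Fin n) A) :
    pmap f n (QuotientGroup.mk' _ x) = QuotientGroup.mk' _ (SpecialLinearGroup.map f x) := rfl

end map

section N

variable (n N : ℕ) [Fact (1 < N)]

/-- `PSL_n(ℤ[1/N])` -/
abbrev PSLN : Type := SpecialLinearGroup (Fin n) (Zi N) ⧸
  Subgroup.center (SpecialLinearGroup (Fin n) (Zi N))

/-- `PSL_n(K_i)` -/
abbrev PGK (i : Option (PF N)) : Type := GK n N i ⧸ Subgroup.center (GK n N i)

/-- The maps `PSL_n(ℤ[1/N]) → PSL_n(K_i)`. -/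
noncomputable def pq (i : Option (PF N)) : PSLN n N →* PGK n N i := pmap (emb N i) n

theorem pq_mk (i : Option (PF N)) (x : SpecialLinearGroup (Fin n) (Zi N)) :
    pq n N i (QuotientGroup.mk' _ x) = QuotientGroup.mk' _ (diaN n N x i) := rfl

theorem pq_inj (g : PSLN n N) (h : ∀ i, pq n N i g = 1) : g = 1 := by
  obtain ⟨x, rfl⟩ := QuotientGroup.mk'_surjective _ g
  have h1 := h none
  rw [pq_mk] at h1
  exact (QuotientGroup.eq_one_iff x).2
    (mem_center_of_map (emb N none) (emb_injective N none) ((QuotientGroup.eq_one_iff _).1 h1))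

theorem icc_PSLN : ∀ g : PSLN n N, g ≠ 1 → Set.Infinite {y : PSLN n N | ∃ h, y = h * g * h⁻¹} :=
  icc_psl (show Zi N →+* ℝ from emb N none) (emb_injective N none)

theorem dense_diaN_apply (i : Option (PF N)) : DenseRange fun g => diaN n N g i := by
  obtain ⟨j, hj⟩ : ∃ j, i ≠ j := by
    cases i with
    | none =>
      obtain ⟨p, hp⟩ := (Nat.nonempty_primeFactors (n := N)).2 (Fact.out : 1 < N)
      exact ⟨some ⟨p, hp⟩, by simp⟩
    | some p => exact ⟨none, by simp⟩
  have h1 := denseRange_diaN n N j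
  have h2 : Function.Surjective fun x : (∀ i : {i : Option (PF N) // i ≠ j}, GK n N i.1) =>
      x ⟨i, hj⟩ := fun y => ⟨fun i' => if h : i'.1 = i then h ▸ y else 1, by simp⟩
  exact h2.denseRange.comp h1 (continuous_apply _)

theorem pq_dense (i : Option (PF N)) : DenseRange (pq n N i) := by
  have h1 : DenseRange fun g => (QuotientGroup.mk' (Subgroup.center (GK n N i)))
      (diaN n N g i) :=
    (QuotientGroup.mk'_surjective _).denseRange.comp (dense_diaN_apply n N i)
      QuotientGroup.continuous_mk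
  refine h1.mono ?_
  rintro _ ⟨g, rfl⟩
  exact ⟨QuotientGroup.mk' _ g, rfl⟩

theorem pq_lattice (m : ℕ) : IsLattice (MonoidHom.pi (pq (m + 1) N)).range := by
  have h1 : IsLattice (MonoidHom.pi fun i => (Pi.evalMonoidHom (GK (m + 1) N) i).comp
      (diaN (m + 1) N)).range := isLattice_GamN m N
  have hlc : ∀ i, LocallyCompactSpace (GK (m + 1) N i) := fun i => PA.lc_SL
  have h2 := H971.lat_quot (fun i => (Pi.evalMonoidHom (GK (m + 1) N) i).comp (diaN (m + 1) N)) h1
    fun i => (finite_center (A := KK N i) (n := m + 1)).isCompact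
  have e : (MonoidHom.pi (pq (m + 1) N)).range = (MonoidHom.pi fun i =>
      (QuotientGroup.mk' (Subgroup.center (GK (m + 1) N i))).comp
        ((Pi.evalMonoidHom (GK (m + 1) N) i).comp (diaN (m + 1) N))).range := by
    ext x
    constructor
    · rintro ⟨g, rfl⟩
      obtain ⟨y, rfl⟩ := QuotientGroup.mk'_surjective _ g
      exact ⟨y, rfl⟩
    · rintro ⟨y, rfl⟩
      exact ⟨QuotientGroup.mk' _ y, rfl⟩
  rw [e]
  exact h2

end N

end Vale.Agent.P092.H387.N
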