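import Vale.Agent.P092.H387.Pl1
import Vale.Agent.P092.H387.ExP1
import Vale.Agent.P092.H19.ShF
import Vale.Agent.P092.SR.St
import Vale.Agent.P092.H303.Form

/-!
P092 (helper387), [N-PSL] (5): ICC lattices of products of groups `SL_n(k)`, `SL_n(k) ⧸ Z` are ICC
lattices of products of groups `PSL_n(k)`; `PSL_n(A)`, `PSL_n(ℤ)`.
-/

set_option linter.all false

open Matrix Filter Topology

namespace Vale.Agent.P092.H387.Ad

open Vale.Agent.P092.H515.St Vale.Agent.P092.SR.St

section transport

variable {E E' Γ : Type} [Group E] [TopologicalSpace E] [IsTopologicalGroup E] [Group E']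
  [TopologicalSpace E'] [IsTopologicalGroup E'] [Group Γ]

theorem inj_comp_icc (hicc : ICC Γ) {i : Γ →* E} (hi : Function.Injective i) (p : E →* E')
    (hz : ∀ e, p e = 1 → ∀ x, x * e = e * x) : Function.Injective (p.comp i) := by
  rw [injective_iff_map_eq_one]
  intro g hg
  by_contra hne
  refine hicc g hne ?_
  have h1 : {y : Γ | ∃ h, y = h * g * h⁻¹} ⊆ {g} := by
    rintro y ⟨h, rfl⟩
    have h2 : h * g = g * h := hi (by rw [map_mul, map_mul]; exact hz (i g) hg (i h))
    rw [Set.mem_singleton_iff, h2, mul_inv_cancel_right]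
  exact (Set.finite_singleton g).subset h1

theorem lat_comp [T2Space E] [T2Space E'] [LocallyCompactSpace E'] {i : Γ →* E}
    (hl : IsLattice i.range) (p : E →* E') (hc : Continuous p) (hs : Function.Surjective p)
    (hp : ∀ C : Set E', IsCompact C → IsCompact (p ⁻¹' C)) : IsLattice (p.comp i).range := by
  haveI := hl.disc
  rw [MonoidHom.range_comp]
  exact H793.lattice_map p hc hs hl (H793.discrete_map p hp _)

end transport

section pi

variable {I : Type} {E E' : I → Type} [∀ j, Group (E j)] [∀ j, Group (E' j)]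

/-- the product of homomorphisms -/
def prP (p : ∀ j, E j →* E' j) : (∀ j, E j) →* ∀ j, E' j :=
  MonoidHom.pi fun j => (p j).comp (Pi.evalMonoidHom E j)

theorem prP_apply (p : ∀ j, E j →* E' j) (x : ∀ j, E j) (j : I) : prP p x j = p j (x j) := rfl

theorem prP_central {p : ∀ j, E j →* E' j} (hz : ∀ j e, p j e = 1 → ∀ x, x * e = e * x)
    (e : ∀ j, E j) (he : prP p e = 1) (x : ∀ j, E j) : x * e = e * x :=
  funext fun j => hz j (e j) (congrFun he j) (x j)

theorem prP_surj {p : ∀ j, E j →* E' j} (hs : ∀ j, Function.Surjective (p j)) :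
    Function.Surjective (prP p) := by
  intro y
  choose x hx using fun j => hs j (y j)
  exact ⟨x, funext hx⟩

variable [∀ j, TopologicalSpace (E j)] [∀ j, TopologicalSpace (E' j)]

theorem prP_cont {p : ∀ j, E j →* E' j} (hc : ∀ j, Continuous (p j)) : Continuous (prP p) :=
  continuous_pi fun j => (hc j).comp (continuous_apply j)

theorem prP_proper [∀ j, T2Space (E' j)] {p : ∀ j, E j →* E' j} (hc : ∀ j, Continuous (p j))
    (hp : ∀ j, ∀ C : Set (E' j), IsCompact C → IsCompact (p j ⁻¹' C)) (C : Set (∀ j, E' j))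
    (hC : IsCompact C) : IsCompact (prP p ⁻¹' C) := by
  refine (isCompact_univ_pi fun j => hp j _ (hC.image (continuous_apply j))).of_isClosed_subset
    (hC.isClosed.preimage (prP_cont hc)) ?_
  intro x hx j _
  exact ⟨_, hx, rfl⟩

end pi

/-- `PSL_n(k)` -/
abbrev PS (n : ℕ) (k : Type) [NontriviallyNormedField k] : Type :=
  SpecialLinearGroup (Fin n) k ⧸ Subgroup.center (SpecialLinearGroup (Fin n) k)

section ps

variable (n : ℕ) (k : Type) [NontriviallyNormedField k]

theorem finite_center_sl : ((Subgroup.center (SpecialLinearGroup (Fin n) k) :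
    Subgroup (SpecialLinearGroup (Fin n) k)) : Set (SpecialLinearGroup (Fin n) k)).Finite :=
  N.finite_center

instance t2_ps : T2Space (PS n k) := by
  haveI : IsClosed ((Subgroup.center (SpecialLinearGroup (Fin n) k) :
    Subgroup (SpecialLinearGroup (Fin n) k)) : Set (SpecialLinearGroup (Fin n) k)) :=
    (finite_center_sl n k).isClosed
  infer_instance

instance lc_ps [ProperSpace k] : LocallyCompactSpace (PS n k) := by
  haveI : LocallyCompactSpace (SpecialLinearGroup (Fin n) k) := H303.locallyCompact_SL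
  infer_instance

instance sc_ps [ProperSpace k] : SecondCountableTopology (PS n k) := by
  haveI : SecondCountableTopology (SpecialLinearGroup (Fin n) k) := H303.secondCountable_SL
  infer_instance

end ps

/-- a group with a proper central quotient `PSL_n(k)`, `n ≥ 3` -/
def NF (E : Type) [Group E] [TopologicalSpace E] : Prop :=
  IsTopologicalGroup E ∧ T2Space E ∧ ∃ (n : ℕ) (k : Type) (_ : NontriviallyNormedField k)
    (_ : ProperSpace k) (p : E →* PS n k), LocK k ∧ 3 ≤ n ∧ Continuous p ∧
      Function.Surjective p ∧ (∀ C : Set (PS n k), IsCompact C → IsCompact (p ⁻¹' C)) ∧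
      ∀ e, p e = 1 → ∀ x, x * e = e * x

theorem nf_sl (n : ℕ) (k : Type) [NontriviallyNormedField k] [ProperSpace k] (hk : LocK k)
    (hn : 3 ≤ n) : NF (SpecialLinearGroup (Fin n) k) :=
  ⟨inferInstance, inferInstance, n, k, inferInstance, inferInstance, QuotientGroup.mk' _, hk, hn,
    continuous_quotient_mk', QuotientGroup.mk'_surjective _,
    fun C hC => H793.proper_mk _ (finite_center_sl n k).isCompact C hC,
    fun e he x => (Subgroup.mem_center_iff.1 ((QuotientGroup.eq_one_iff e).1 he)) x⟩

theorem nf_psl (n : ℕ) (k : Type) [NontriviallyNormedField k] [ProperSpace k] (hk : LocK k)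
    (hn : 3 ≤ n) : NF (PS n k) :=
  ⟨inferInstance, inferInstance, n, k, inferInstance, inferInstance, MonoidHom.id _, hk, hn,
    continuous_id, Function.surjective_id, fun C hC => hC, fun e he x => by
      have he : e = 1 := he
      rw [he, mul_one, one_mul]⟩

/-- **ICC lattices in finite products of groups of the class `NF` are lattices in products of groups
`PSL_n(k)`.** -/
theorem lat_normal {I : Type} [Fintype I] {E : I → Type} [∀ j, Group (E j)]
    [∀ j, TopologicalSpace (E j)] (hE : ∀ j, NF (E j)) {Γ : Type} [Group Γ] (hicc : ICC Γ)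
    (i : Γ →* ∀ j, E j) (hi : Function.Injective i) (hl : IsLattice i.range) :
    ∃ (n : I → ℕ) (k : I → Type) (_ : ∀ j, NontriviallyNormedField (k j))
      (_ : ∀ j, ProperSpace (k j)) (i' : Γ →* ∀ j, PS (n j) (k j)),
      (∀ j, LocK (k j)) ∧ (∀ j, 3 ≤ n j) ∧ Function.Injective i' ∧ IsLattice i'.range := by
  haveI := fun j => (hE j).1
  haveI := fun j => (hE j).2.1
  choose n k hk hP p hL hn hc hs hp hz using fun j => (hE j).2.2
  exact ⟨n, k, hk, hP, (prP p).comp i, hL, hn, inj_comp_icc hicc hi _ (prP_central hz),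
    lat_comp hl _ (prP_cont hc) (prP_surj hs) (prP_proper hc hp)⟩

/-! ### `PSL_n(A)` -/

section psa

variable {A : Type} [CommRing A] {k : Type} [NontriviallyNormedField k] [ProperSpace k]
  (f : A →+* k) (n : ℕ)

theorem pmap_inj (hf : Function.Injective f) : Function.Injective (N.pmap f n) := by
  rw [injective_iff_map_eq_one]
  intro g hg
  obtain ⟨x, rfl⟩ := QuotientGroup.mk'_surjective _ g
  rw [N.pmap_mk] at hg
  exact (QuotientGroup.eq_one_iff _).2
    (N.mem_center_of_map f hf ((QuotientGroup.eq_one_iff _).1 hg))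

theorem pmap_lat (hl : IsLattice (SpecialLinearGroup.map (n := Fin n) f).range) :
    IsLattice (N.pmap f n).range := by
  have h1 := lat_comp hl (QuotientGroup.mk' (Subgroup.center (SpecialLinearGroup (Fin n) k)))
    continuous_quotient_mk' (QuotientGroup.mk'_surjective _)
    fun C hC => H793.proper_mk _ (finite_center_sl n k).isCompact C hC
  have e : (N.pmap f n).range = ((QuotientGroup.mk'
      (Subgroup.center (SpecialLinearGroup (Fin n) k))).comp
        (SpecialLinearGroup.map (n := Fin n) f)).range := by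
    ext x
    constructor
    · rintro ⟨g, rfl⟩
      obtain ⟨y, rfl⟩ := QuotientGroup.mk'_surjective _ g
      exact ⟨y, rfl⟩
    · rintro ⟨y, rfl⟩
      exact ⟨QuotientGroup.mk' _ y, rfl⟩
  rw [e]
  exact h1

end psa

theorem lat_SLZ (n : ℕ) :
    IsLattice (SpecialLinearGroup.map (n := Fin n) (Int.castRingHom ℝ)).range := by
  have h := H19.isLat_imR (⊤ : Subgroup (SpecialLinearGroup (Fin n) ℤ))
  have e : (SpecialLinearGroup.map (n := Fin n) (Int.castRingHom ℝ)).range =
      H670.imR (⊤ : Subgroup (SpecialLinearGroup (Fin n) ℤ)) := by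
    rw [H670.imR, MonoidHom.range_eq_map]
  rw [e]
  exact ⟨h.disc, h.covol⟩

/-- `PSL_n(ℤ) → PSL_n(ℝ)` -/
noncomputable def pz (n : ℕ) : SpecialLinearGroup (Fin n) ℤ ⧸
    Subgroup.center (SpecialLinearGroup (Fin n) ℤ) →* PS n ℝ :=
  N.pmap (Int.castRingHom ℝ) n

/-- **`PSL_n(ℤ)` is an ICC lattice of `PSL_n(ℝ)`**, every `n`. -/
theorem psl_Z (n : ℕ) : ICC (SpecialLinearGroup (Fin n) ℤ ⧸
    Subgroup.center (SpecialLinearGroup (Fin n) ℤ)) ∧ Function.Injective (pz n) ∧
    IsLattice (pz n).range :=
  ⟨N.icc_psl (Int.castRingHom ℝ) (RingHom.injective_int _), pmap_inj _ n (RingHom.injective_int _),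
    pmap_lat _ n (lat_SLZ n)⟩

end Vale.Agent.P092.H387.Ad
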