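import Vale.Agent.P092.H387.ExI
import Vale.Agent.P092.H584.TauP
import Vale.Agent.P092.H218.NEndA
import Vale.Agent.P092.H221.GapsP
import Vale.Agent.P092.H411.ChS

/-!
P092 (helper387), TEAM N, [N-GAPB], last composition: the positions `PosStmt` for every admissible
source group from the Howe–Moore input `HMIA`.
-/

set_option linter.all false

open scoped InnerProductSpace ENNReal LinearAlgebra.Projectivization
open Filter Topology ContinuousLinearMap MeasureTheory TopologicalSpace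

namespace Vale.Agent.P092.H387.Hp

open Vale.Agent.P092.SR Vale.Agent.P092.H160
open Vale.Agent.P092.RC (GG PG YY ct KK pic lam₁ lam₂ XX Om VR)
open Vale.Agent.P092.SN (CY nm PH Adm bw)
open Vale.Agent.P092.H35 (sp)
open Vale.Agent.P092.H933 (LocK)
open Vale.Agent.P092.H859.ExN (PosO)
open Vale.Agent.P092.H859.TgN (g2)
open Vale.Agent.P092.H337.NG (G2)
open Vale.Agent.P092.H534.GK (Crt)
open Vale.Agent.P092.H221.GapsC (lg)
open Vale.Agent.P092.H761 (SharpData GChain big mem_big Geo Gaps)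
open Vale.Agent.P092.H538 (ind)
open Vale.Agent.P092.H515 (GSys)
open Vale.Agent.P092.H805.Row (mpE JE)

open Vale.Agent.P092.H218.NR (HMIA)

/-! ### The gaps -/

section gap

variable {k : Type} [NontriviallyNormedField k] {m : ℕ} {Γ : Type} [Group Γ] [DecidableEq Γ]

/-- both of `G2 (q γ)`, `G2 (ct (q γ))` large: two large gaps, or a large middle gap -/
theorem hGH_of (q : Γ → GG k (m + 1)) {gap : Fin (m + 1) → Γ → ℝ} {c C : ℝ} (hc : 0 < c)
    (hcrt : ∀ γ, ∃ a U U' V V', Crt (q γ).1 a U U' V V' ∧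
      ∀ i : Fin (m + 1), |gap i γ - c * lg a i| ≤ C) (R : ℝ) :
    ∃ ρ : ℝ, ∀ γ, ρ < G2 (q γ) → ρ < G2 (ct (q γ)) →
      (2 ≤ (big gap (id : Fin (m + 1) → Fin (m + 1)) R γ).card ∨
        ∃ i : Fin (m + 1), (0 < (i : ℕ) ∧ (i : ℕ) + 1 < m + 1) ∧ R ≤ gap i γ) := by
  obtain ⟨r, hr⟩ := H221.GapsC.pos_gap (k := k) (n := m + 2) (by omega) hc (max C 1) R
  refine ⟨r, fun γ h1 h2 => ?_⟩
  obtain ⟨a, U, U', V, V', H, hx⟩ := hcrt γ
  have hd : (q γ).1.det ≠ 0 := by rw [(q γ).2]; exact one_ne_zero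
  have hB : H933.BCart (q γ).1 (fun i : Fin (m + 2 - 1) => gap i γ) c (max C 1) :=
    H221.GapsC.bcart_of_crt H (H.ne hd) (le_max_right _ _) fun i =>
      (hx i).trans (le_max_left _ _)
  have e1 : H776.NG.G2 (q γ).1 = G2 (q γ) := (H776.NG.G2_eq (q γ)).symm
  have e2 : H776.NG.G2 ((q γ).1)⁻¹ = G2 (ct (q γ)) := by
    have e : G2 (ct (q γ)) = G2 (q γ)⁻¹ := H337.NG.G2_ta (q γ)
    rw [e, H776.NG.G2_inv_eq]
  rcases hr (q γ).1 (fun i : Fin (m + 2 - 1) => gap i γ) (by rw [(q γ).2, norm_one]) hB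
    (by rw [e1]; exact h1) (by rw [e2]; exact h2) with ⟨i, j, hij, hi, hj⟩ | ⟨i, hi0, hi1, hi⟩
  · left
    refine Finset.one_lt_card.2 ⟨i, mem_big.2 ⟨i, rfl, hi⟩, j, mem_big.2 ⟨j, rfl, hj⟩, hij⟩
  · right
    refine ⟨i, ⟨Nat.pos_of_ne_zero hi0, ?_⟩, hi⟩
    have h3 : (i : ℕ) < m + 1 := i.2
    have h4 : (i : ℕ) ≠ m := by simpa using hi1
    omega

end gap

/-! ### The masses -/

section mass

theorem uc_inner {K K' : Type} [NormedAddCommGroup K] [InnerProductSpace ℂ K] [CompleteSpace K]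
    [NormedAddCommGroup K'] [InnerProductSpace ℂ K'] [CompleteSpace K'] (W : K ≃ₗᵢ[ℂ] K')
    (A B : K →L[ℂ] K) (ξ : K) :
    ⟪H142.uc W A (W ξ), H142.uc W B (H142.uc W A (W ξ))⟫_ℂ = ⟪A ξ, B (A ξ)⟫_ℂ := by
  rw [H142.uc_W, H142.uc_W, LinearIsometryEquiv.inner_map_map]

variable {E : Type} [Group E] [TopologicalSpace E] [IsTopologicalGroup E] [LocallyCompactSpace E]
  [SecondCountableTopology E] [T2Space E] [MeasurableSpace E] [BorelSpace E]
  {Γ : Subgroup E} [DiscreteTopology Γ] [Countable Γ] [MeasurableSpace (E ⧸ Γ)]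
  [BorelSpace (E ⧸ Γ)] {ν : Measure (E ⧸ Γ)} [IsProbabilityMeasure ν]
  (hν : ∀ g : E, ν.map (fun x => g • x) = ν)
  {Λ : Type} [Group Λ] [Countable Λ] {α : Γ →* (Ell2 Λ →L[ℂ] Ell2 Λ)} (hα : Frame α)

/-- the masses of the picture, in the letters of `mpE` -/
theorem msF_eq : H584.Tau.msF hν hα = fun (g : E) (F : Γ → ℝ) =>
    (⟪pic hν hα g (Om ν Λ), mpE ν hα F (pic hν hα g (Om ν Λ))⟫_ℂ).re := by
  funext g F
  have h1 : H584.Tau.msF hν hα g F = (⟪H790.Ri (H85.cdat ν hν) (VR hα) g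
      ((H790.baseL (H85.cdat ν hν).μ (Γ × Γ) Unit).ep ()),
      (H538.fst (H790.baseL (H85.cdat ν hν).μ (Γ × Γ) Unit)).mp F (H790.Ri (H85.cdat ν hν)
        (VR hα) g ((H790.baseL (H85.cdat ν hν).μ (Γ × Γ) Unit).ep ()))⟫_ℂ).re := by
    unfold H584.Tau.msF H132.massX
    rw [Fintype.sum_unique]
    rfl
  rw [h1, ← H805.Row.uc_pi hν hα g, ← H805.Row.JE_Om hα ()]
  exact congrArg Complex.re (uc_inner (JE ν hα) (H790.Ri (H85.cdat ν hν) (VR hα) g)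
    ((H538.fst (H790.baseL ν (Γ × Γ) Unit)).mp F) (H790.ept ν ())).symm

end mass

/-! ### The composition -/

section main

variable {k : Type} [NontriviallyNormedField k] [ProperSpace k] {m : ℕ}
  {E : Type} [Group E] [TopologicalSpace E] [IsTopologicalGroup E] [LocallyCompactSpace E]
  [SecondCountableTopology E] [T2Space E] [MeasurableSpace E] [BorelSpace E]
  {Γ : Subgroup E} [DiscreteTopology Γ] [Countable Γ] [MeasurableSpace (E ⧸ Γ)]
  [BorelSpace (E ⧸ Γ)] {ν : Measure (E ⧸ Γ)} [IsProbabilityMeasure ν]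
  (hν : ∀ g : E, ν.map (fun x => g • x) = ν)
  {Λ : Type} [Group Λ] [Countable Λ] {α : Γ →* (Ell2 Λ →L[ℂ] Ell2 Λ)} (hα : Frame α)
  {ι : GG k (m + 1) →* E} {a : E →* PG k (m + 2)}

/-- **The positions, one factor**, from `HMIA`. -/
theorem pos_of (hk : LocK k) (hm : 0 < m) (hι : Continuous ι) (ha : Continuous a)
    (hcomp : ∀ g, a (ι g) = sp k (m + 2) g) {w : kˣ} (hw : ‖(w : k)‖ < 1)
    {q : Γ → GG k (m + 1)} (hq : PH q) (hf : ∀ C : ℝ, {γ : Γ | nm (q γ) ≤ C}.Finite)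
    (hHM : ∀ {gap : Fin (m + 1) → Γ → ℝ} {c C : ℝ}, 0 < c →
      (∀ g, ∃ a U U' V V', Crt (q g).1 a U U' V V' ∧
        ∀ i : Fin (m + 1), |gap i g - c * lg a i| ≤ C) → Gaps gap id → ∀ i₀ : Fin (m + 1),
      0 < (i₀ : ℕ) → (i₀ : ℕ) + 1 < m + 1 →
      HMIA (H584.Tau.msF hν hα) gap id Finset.univ i₀ (fun n => ι (bw w) ^ n) (H411.ChS.sg ι)
          (cocompact (GG k m)) ∧
        HMIA (H584.Tau.msF hν hα) gap id Finset.univ i₀ (fun n => (ι (bw w))⁻¹ ^ n)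
          (H411.ChS.sg ι)
          (cocompact (GG k m))) :
    Ex.PosE hν hα (ι (bw w)) q := by
  classical
  obtain ⟨gap, W, c, C, hc, hs, hW, hcrt⟩ := H221.GapsC.gsys_crt2_ph (n := m + 2) hk (by omega) q
    (fun γ γ' => hq γ γ')
  have hfin : ∀ R : ℝ, {γ | W γ ≤ R}.Finite := fun R => by
    obtain ⟨R', hR'⟩ := hW R
    exact (hf (max R' 0)).subset fun γ hγ => H776.NG.nmx_le (le_max_right _ _) fun i j =>
      (hR' γ hγ i j).trans (le_max_left _ _)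
  have hg : Gaps (r := m + 1) (fun i : Fin (m + 1) => gap i) (id : Fin (m + 1) → Fin (m + 1)) :=
    hs.gaps hfin (fun i : Fin (m + 1) => i) fun R => ⟨R, fun i j hij g h => by
      have : i = j := hij
      rw [← this]; exact h⟩
  obtain ⟨t, hd⟩ := H584.Tau.sharpE hν hα
  have key : ∀ (z : E) (b : Fin (m + 1) → ℕ → E) (𝒦 : Fin (m + 1) → Set E),
      GChain (fun K : Set E => IsCompact K) (H261.PingT E) (m + 1) b 𝒦 →
      (∀ M, b 0 M = z ^ M) → (∀ j M, H411.ChS.sg ι (H411.ChS.bS w j M) = b j.succ M) →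
      (∀ j, H411.ChS.sg ι '' H411.ChS.KS k j = 𝒦 j.succ) → (∀ N s, z ^ N * H411.ChS.sg ι s = H411.ChS.sg ι s * z ^ N) →
      (∀ i₀ : Fin (m + 1), 0 < (i₀ : ℕ) → (i₀ : ℕ) + 1 < m + 1 →
        HMIA (H584.Tau.msF hν hα) (fun i : Fin (m + 1) => gap i) id Finset.univ i₀
          (fun n => z ^ n) (H411.ChS.sg ι) (cocompact (GG k m))) →
      PosO hν hα (g2 q fun _ => 0) (g2 (fun γ => ct (q γ)) fun _ => 0) z := by
    intro z b 𝒦 hch hb0 hbS hK hcomm hH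
    refine Ex.posO_of hν hα fun ε hε => ?_
    have hb0' : b 0 = fun n => z ^ n := funext hb0
    obtain ⟨ρ, hρ⟩ := H218.NR.pos_final (r := m + 1) (cl := (id : Fin (m + 1) → Fin (m + 1)))
      (A := Finset.univ) (b := b) (𝒦 := 𝒦) (bS := H411.ChS.bS w) (𝒦S := H411.ChS.KS k)
      (σ := H411.ChS.sg ι) (gap := fun i : Fin (m + 1) => gap i) hd hg
      (fun θ _ _ => hs.geo' hfin θ) hch hm (by rw [Finset.card_univ, Fintype.card_fin])
      (H218.NR.hA_univ hd) (fun N s => by rw [hb0]; exact hcomm N s)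
      (H411.ChS.sg_inj hcomp) hbS hK (H218.NR.hcc_of (H411.ChS.sg_cont hι))
      (H411.ChS.bS_tendsto hw hm)
      (Mid := fun i : Fin (m + 1) => 0 < (i : ℕ) ∧ (i : ℕ) + 1 < m + 1)
      (fun i₀ h => by rw [hb0']; exact hH i₀ h.1 h.2)
      (G2 := fun γ => G2 (q γ)) (H2 := fun γ => G2 (ct (q γ)))
      (fun R => hGH_of q hc hcrt R) (show 0 < ε ^ 2 by positivity)
    refine ⟨ρ, hρ.mono fun n hn => ?_⟩
    rw [hb0] at hn
    have h5 := H584.Tau.msF_ind hν hα {γ | ρ < G2 (q γ) ∧ ρ < G2 (ct (q γ))} (z ^ n)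
    have h6 : ‖H103.mS₁ ν hα {γ | ρ < G2 (q γ) ∧ ρ < G2 (ct (q γ))}
        (pic hν hα (z ^ n) (Om ν Λ))‖ ^ 2 ≤ ε ^ 2 := by
      rw [← h5]
      exact hn
    exact (sq_le_sq₀ (norm_nonneg _) hε.le).1 h6
  refine ⟨?_, ?_⟩
  · obtain ⟨b, 𝒦, h1, h2, h3, h4⟩ := H411.ChS.exists_chain hι ha hcomp hw
    exact key _ b 𝒦 h1 h2 h3 h4 (fun N s => H411.ChS.sg_comm_pow w N s)
      fun i₀ a1 a2 => (hHM hc hcrt hg i₀ a1 a2).1
  · obtain ⟨b, 𝒦, h1, h2, h3, h4⟩ := H411.ChS.exists_chain_inv hι ha hcomp hw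
    exact key _ b 𝒦 h1 h2 h3 h4 (fun N s => H411.ChS.sg_comm_inv_pow w N s)
      fun i₀ a1 a2 => (hHM hc hcrt hg i₀ a1 a2).2

end main

end Vale.Agent.P092.H387.Hp
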