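import Vale.Agent.P092.H789.Fr
import Vale.Agent.P092.RC.Cc
import Vale.Agent.P092.H387.Nm1
import Mathlib.LinearAlgebra.Matrix.SchurComplement

/-!
P092 (helper387), [N-PSL] (2): dilations which preserve two subspaces; `PGL_n(k)` is generated by the
image of `SL_n(k)` and the stabiliser of two subspaces.
-/

set_option linter.all false

open scoped LinearAlgebra.Projectivization
open Matrix Filter Topology

namespace Vale.Agent.P092.H387.Ad

open Vale.Agent.P092.H789 (PG YY)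
open Vale.Agent.P092.RC (Moore)

section dil

variable {k : Type} [Field k] {n : ℕ}

/-- a linear form which vanishes on `p` and is `1` at `v` -/
theorem exists_form {p : Submodule k (Fin n → k)} {v : Fin n → k} (hv : v ∉ p) :
    ∃ φ : Fin n → k, φ ⬝ᵥ v = 1 ∧ ∀ x ∈ p, φ ⬝ᵥ x = 0 := by
  obtain ⟨f, hf, hp⟩ := Submodule.exists_le_ker_of_notMem hv
  have h1 : ∀ x : Fin n → k, (fun i => (f v)⁻¹ * f (Pi.single i 1)) ⬝ᵥ x = (f v)⁻¹ * f x := by
    intro x
    have h2 : f x = ∑ i, x i * f (Pi.single i 1) := by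
      conv_lhs => rw [pi_eq_sum_univ' x]
      rw [map_sum]
      refine Finset.sum_congr rfl fun i _ => ?_
      rw [map_smul, smul_eq_mul]
    rw [h2, dotProduct, Finset.mul_sum]
    refine Finset.sum_congr rfl fun i _ => ?_
    ring
  refine ⟨fun i => (f v)⁻¹ * f (Pi.single i 1), ?_, fun x hx => ?_⟩
  · rw [h1, inv_mul_cancel₀ hf]
  · rw [h1, LinearMap.mem_ker.1 (hp hx), mul_zero]

/-- the dilation preserves `X` -/
def DP (X : Submodule k (Fin n → k)) (v φ : Fin n → k) : Prop :=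
  v ∈ X ∨ ∀ x ∈ X, φ ⬝ᵥ x = 0

theorem exists_dil (hn : 0 < n) (X Y : Submodule k (Fin n → k)) :
    ∃ v φ : Fin n → k, φ ⬝ᵥ v = 1 ∧ DP X v φ ∧ DP Y v φ := by
  by_cases h : X ⊓ Y = ⊥
  · by_cases hX : X = ⊥
    · by_cases hY : Y = ⊥
      · have h0 : (Pi.single ⟨0, hn⟩ 1 : Fin n → k) ∉ (⊥ : Submodule k (Fin n → k)) := by
          rw [Submodule.mem_bot]
          intro h
          have := congrFun h ⟨0, hn⟩
          simp at this
        obtain ⟨φ, h1, h2⟩ := exists_form h0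
        exact ⟨_, φ, h1, Or.inr (hX ▸ h2), Or.inr (hY ▸ h2)⟩
      · obtain ⟨v, hv, h0⟩ := Submodule.exists_mem_ne_zero_of_ne_bot hY
        obtain ⟨φ, h1, h2⟩ := exists_form (p := X) (v := v) (by
          rw [hX, Submodule.mem_bot]; exact h0)
        exact ⟨v, φ, h1, Or.inr h2, Or.inl hv⟩
    · obtain ⟨v, hv, h0⟩ := Submodule.exists_mem_ne_zero_of_ne_bot hX
      obtain ⟨φ, h1, h2⟩ := exists_form (p := Y) (v := v) (by
        intro hvY
        have h3 : v ∈ X ⊓ Y := ⟨hv, hvY⟩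
        rw [h, Submodule.mem_bot] at h3
        exact h0 h3)
      exact ⟨v, φ, h1, Or.inl hv, Or.inr h2⟩
  · obtain ⟨v, hv, h0⟩ := Submodule.exists_mem_ne_zero_of_ne_bot h
    obtain ⟨φ, h1, h2⟩ := exists_form (p := (⊥ : Submodule k (Fin n → k))) (v := v) (by
      rw [Submodule.mem_bot]; exact h0)
    exact ⟨v, φ, h1, Or.inl hv.1, Or.inl hv.2⟩

/-- the matrix of a dilation -/
def dm (v φ : Fin n → k) (d : k) : Matrix (Fin n) (Fin n) k := 1 + vecMulVec ((d - 1) • v) φ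

theorem dm_mulVec (v φ : Fin n → k) (d : k) (x : Fin n → k) :
    dm v φ d *ᵥ x = x + ((φ ⬝ᵥ x) * (d - 1)) • v := by
  rw [dm, add_mulVec, one_mulVec, vecMulVec_mulVec]
  funext i
  simp only [Pi.add_apply, Pi.smul_apply, smul_eq_mul, MulOpposite.smul_eq_mul_unop,
    MulOpposite.unop_op]
  ring

theorem dm_mul {v φ : Fin n → k} (h : φ ⬝ᵥ v = 1) (d e : k) :
    dm v φ d * dm v φ e = dm v φ (d * e) := by
  rw [dm, dm, dm, Matrix.mul_add, Matrix.mul_one, Matrix.add_mul, Matrix.one_mul,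
    vecMulVec_mul_vecMulVec]
  ext i j
  simp only [Matrix.add_apply, vecMulVec_apply, Pi.smul_apply, smul_eq_mul, dotProduct_smul, h]
  ring

theorem dm_one (v φ : Fin n → k) : dm v φ 1 = 1 := by
  rw [dm, sub_self, zero_smul, zero_vecMulVec, add_zero]

theorem det_dm {v φ : Fin n → k} (h : φ ⬝ᵥ v = 1) (d : k) : (dm v φ d).det = d := by
  have e : dm v φ d = 1 + replicateCol Unit ((d - 1) • v) * replicateRow Unit φ := by
    rw [dm, vecMulVec_eq Unit]
  rw [e, det_one_add_replicateCol_mul_replicateRow, dotProduct_smul, h, smul_eq_mul, mul_one]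
  ring

/-- the dilation -/
def dl {v φ : Fin n → k} (h : φ ⬝ᵥ v = 1) (d : kˣ) : GL (Fin n) k where
  val := dm v φ d
  inv := dm v φ (d⁻¹ : kˣ)
  val_inv := by rw [dm_mul h, ← Units.val_mul, mul_inv_cancel, Units.val_one, dm_one]
  inv_val := by rw [dm_mul h, ← Units.val_mul, inv_mul_cancel, Units.val_one, dm_one]

theorem dm_mem {X : Submodule k (Fin n → k)} {v φ : Fin n → k} (hX : DP X v φ) (d : k)
    {x : Fin n → k} (hx : x ∈ X) : dm v φ d *ᵥ x ∈ X := by
  rw [dm_mulVec]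
  rcases hX with hv | hφ
  · exact X.add_mem hx (X.smul_mem _ hv)
  · rw [hφ x hx, zero_mul, zero_smul, add_zero]
    exact hx

theorem dl_mem_iff {X : Submodule k (Fin n → k)} {v φ : Fin n → k} (h : φ ⬝ᵥ v = 1)
    (hX : DP X v φ) (d : kˣ) (x : Fin n → k) : (dl h d).1 *ᵥ x ∈ X ↔ x ∈ X := by
  constructor
  · intro hx
    have h1 := dm_mem hX (d⁻¹ : kˣ) hx
    have h2 : dm v φ (d⁻¹ : kˣ) *ᵥ ((dl h d).1 *ᵥ x) = x := by
      rw [mulVec_mulVec]
      change (dm v φ (d⁻¹ : kˣ) * dm v φ d) *ᵥ x = x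
      rw [dm_mul h, ← Units.val_mul, inv_mul_cancel, Units.val_one, dm_one, one_mulVec]
    rwa [h2] at h1
  · exact fun hx => dm_mem hX _ hx

/-- Every invertible matrix is a product of a dilation and a matrix of determinant one. -/
theorem exists_sl {v φ : Fin n → k} (h : φ ⬝ᵥ v = 1) (g : GL (Fin n) k) :
    ∃ s : SpecialLinearGroup (Fin n) k,
      g = dl h (GeneralLinearGroup.det g) * SpecialLinearGroup.toGL s := by
  have h1 : ((dl h (GeneralLinearGroup.det g))⁻¹ * g).1.det = 1 := by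
    rw [Units.val_mul, det_mul]
    have h2 : ((dl h (GeneralLinearGroup.det g))⁻¹).1 =
        dm v φ ((GeneralLinearGroup.det g)⁻¹ : kˣ) := rfl
    rw [h2, det_dm h, ← GeneralLinearGroup.val_det_apply, ← Units.val_mul, inv_mul_cancel,
      Units.val_one]
  refine ⟨⟨((dl h (GeneralLinearGroup.det g))⁻¹ * g).1, h1⟩, ?_⟩
  have h3 : SpecialLinearGroup.toGL (⟨((dl h (GeneralLinearGroup.det g))⁻¹ * g).1, h1⟩ :
      SpecialLinearGroup (Fin n) k) = (dl h (GeneralLinearGroup.det g))⁻¹ * g := by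
    apply Units.ext
    rfl
  rw [h3, mul_inv_cancel_left]

end dil

end Vale.Agent.P092.H387.Ad
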