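import Vale.Agent.P092.SN.Defs
import Vale.Agent.P092.H455.Hm3
import Vale.Agent.P092.H387.Ad1
import Vale.Agent.P092.H644.PGr
import Vale.Agent.P092.H35.Spg

/-!
P092 (helper387), [N-PSL] (3): the admissible source groups `SL_n(k)`, `SL_n(k) ⧸ Z`, `PGL_n(k)`, and
products with any other groups.
-/

set_option linter.all false

open scoped LinearAlgebra.Projectivization
open Matrix Filter Topology

namespace Vale.Agent.P092.H387.Ad

open Vale.Agent.P092.RC (Moore GG PG YY ct)
open Vale.Agent.P092.SN (Prv Adm inc)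
open Vale.Agent.P092.H933 (LocK)
open Vale.Agent.P092.H35 (sp mkP)
open Vale.Agent.P092.H644.PGr (tauG tauP tauP_cont tauP_can pair_gl)

section prv

variable {k : Type} [NontriviallyNormedField k] {N : ℕ}

theorem sub_le_iff {X : Submodule k (Fin (N + 1) → k)} {v : Fin (N + 1) → k} (hv : v ≠ 0) :
    (Projectivization.mk k v hv).submodule ≤ X ↔ v ∈ X := by
  rw [Projectivization.submodule_mk, Submodule.span_singleton_le_iff_mem]

/-- the condition on vectors for the class of a matrix -/
theorem prv_mkP {E : Type} [Group E] {a : E →* PG k (N + 1)} {X : Submodule k (Fin (N + 1) → k)}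
    {e : E} {g : GL (Fin (N + 1)) k} (he : a e = mkP k (N + 1) g)
    (h : ∀ v : Fin (N + 1) → k, g.1 *ᵥ v ∈ X ↔ v ∈ X) : Prv a X e := by
  intro x
  induction x using Projectivization.ind with | h v hv => ?_
  have h1 : a e • Projectivization.mk k v hv =
      Projectivization.mk k (g • v) ((smul_ne_zero_iff_ne g).2 hv) := by
    rw [he]
    rfl
  rw [h1, sub_le_iff, sub_le_iff]
  exact (h v).symm

theorem mem_iff_of_map {X : Submodule k (Fin (N + 1) → k)} {g : GG k N}
    (h : X.map (Matrix.toLin' g.1) = X) (v : Fin (N + 1) → k) : g.1 *ᵥ v ∈ X ↔ v ∈ X := by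
  constructor
  · intro hv
    rw [← h] at hv
    obtain ⟨u, hu, e⟩ := hv
    rw [Matrix.toLin'_apply] at e
    have h1 : u = v := by
      have h3 : (g⁻¹ : GG k N).1 * g.1 = 1 := congrArg Subtype.val (inv_mul_cancel g)
      have h2 := congrArg (fun w => (g⁻¹ : GG k N).1 *ᵥ w) e
      simp only [mulVec_mulVec] at h2
      rw [h3, one_mulVec, one_mulVec] at h2
      exact h2
    exact h1 ▸ hu
  · intro hv
    rw [← h]
    exact ⟨v, hv, Matrix.toLin'_apply _ _⟩

theorem ort_pg (e : PG k (N + 1)) (x l : YY k N) :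
    inc (e • x) (tauP k (N + 1) e • l) ↔ inc x l := by
  induction e using QuotientGroup.induction_on with | H g => ?_
  induction x using Projectivization.ind with | h v hv => ?_
  induction l using Projectivization.ind with | h w hw => ?_
  have h1 : (QuotientGroup.mk g : PG k (N + 1)) • Projectivization.mk k v hv =
      Projectivization.mk k (g • v) ((smul_ne_zero_iff_ne g).2 hv) := rfl
  have h2 : tauP k (N + 1) (QuotientGroup.mk g : PG k (N + 1)) • Projectivization.mk k w hw =
      Projectivization.mk k (tauG k (N + 1) g • w) ((smul_ne_zero_iff_ne _).2 hw) := rfl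
  rw [h1, h2]
  unfold inc
  rw [Projectivization.orthogonal_mk, Projectivization.orthogonal_mk, dotProduct_comm,
    pair_gl, dotProduct_comm]

/-- **Admissible groups**: a group `E` with continuous homomorphisms `ι : SL_n(k) →* E` and
`a : E →* PGL_n(k)`, which is generated by the image of `ι` and the stabiliser of two subspaces. -/
theorem adm_of [ProperSpace k] (hk : LocK k) (hN : 2 ≤ N) {E : Type} [Group E]
    [TopologicalSpace E] (tg : IsTopologicalGroup E) (ι : GG k N →* E) (hι : Continuous ι)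
    (a : E →* PG k (N + 1)) (ha : Continuous a) (h : ∀ g, a (ι g) = sp k (N + 1) g)
    (hA : ∀ (X Y : Submodule k (Fin (N + 1) → k)) (e : E),
      ∃ x ∈ Subgroup.closure {e | Prv a X e ∧ Prv a Y e}, ∃ s, e = x * ι s) :
    Adm ι a ((tauP k (N + 1)).comp a) where
  hN := hN
  tg := tg
  cι := hι
  ca := ha
  ca' := (tauP_cont (k := k) (n := N + 1)).comp ha
  comp g x := by
    rw [h]
    rfl
  comp' g x := by
    have h1 : (tauP k (N + 1)).comp a (ι g) = sp k (N + 1) (ct g) := by
      show tauP k (N + 1) (a (ι g)) = _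
      rw [h]
      exact (tauP_can (g := g) (g' := ct g) rfl).symm
    rw [h1]
    rfl
  ort e x l := ort_pg (a e) x l
  stb X Y := by
    refine Nm.moore_over ι hι (H455.moore_two' hk (by omega) X Y fun g hX hY => ?_) (hA X Y)
    exact ⟨prv_mkP (g := SpecialLinearGroup.toGL g) (h g) (mem_iff_of_map hX),
      prv_mkP (g := SpecialLinearGroup.toGL g) (h g) (mem_iff_of_map hY)⟩

theorem adm_of_surj [ProperSpace k] (hk : LocK k) (hN : 2 ≤ N) {E : Type} [Group E]
    [TopologicalSpace E] (tg : IsTopologicalGroup E) (ι : GG k N →* E) (hι : Continuous ι)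
    (hs : Function.Surjective ι)
    (a : E →* PG k (N + 1)) (ha : Continuous a) (h : ∀ g, a (ι g) = sp k (N + 1) g) :
    Adm ι a ((tauP k (N + 1)).comp a) := by
  refine adm_of hk hN tg ι hι a ha h fun X Y e => ?_
  obtain ⟨s, rfl⟩ := hs e
  exact ⟨1, one_mem _, s, (one_mul _).symm⟩

/-- **`SL_n(k)`** -/
theorem adm_sl [ProperSpace k] (hk : LocK k) (hN : 2 ≤ N) :
    Adm (MonoidHom.id (GG k N)) (sp k (N + 1)) ((tauP k (N + 1)).comp (sp k (N + 1))) :=
  adm_of_surj hk hN inferInstance _ continuous_id Function.surjective_id _ H35.sp_cont fun _ => rfl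

/-- `SL_n(k) ⧸ Z → PGL_n(k)` -/
noncomputable def spq (k : Type) [NontriviallyNormedField k] (N : ℕ) (Z : Subgroup (GG k N))
    [Z.Normal] (hZ : Z ≤ Subgroup.center (GG k N)) : GG k N ⧸ Z →* PG k (N + 1) :=
  QuotientGroup.lift Z (sp k (N + 1)) fun z hz => by
    obtain ⟨c, hc, hs⟩ := Matrix.SpecialLinearGroup.mem_center_iff.1 (hZ hz)
    refine MonoidHom.mem_ker.2 (H35.sp_one_iff.2 ⟨c, ?_⟩)
    rw [← hs, scalar_apply, smul_one_eq_diagonal]

/-- **`SL_n(k) ⧸ Z`, `Z` central**, for example `PSL_n(k)` -/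
theorem adm_psl [ProperSpace k] (hk : LocK k) (hN : 2 ≤ N) (Z : Subgroup (GG k N)) [Z.Normal]
    (hZ : Z ≤ Subgroup.center (GG k N)) :
    Adm (QuotientGroup.mk' Z) (spq k N Z hZ) ((tauP k (N + 1)).comp (spq k N Z hZ)) :=
  adm_of_surj hk hN inferInstance _ continuous_quotient_mk' (QuotientGroup.mk'_surjective Z) _
    (H35.sp_cont.quotient_lift _) fun _ => rfl

/-- **`PGL_n(k)`** -/
theorem adm_pgl [ProperSpace k] (hk : LocK k) (hN : 2 ≤ N) :
    Adm (sp k (N + 1)) (MonoidHom.id (PG k (N + 1)))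
      ((tauP k (N + 1)).comp (MonoidHom.id (PG k (N + 1)))) := by
  refine adm_of hk hN inferInstance _ H35.sp_cont _ continuous_id (fun _ => rfl) fun X Y e => ?_
  obtain ⟨v, φ, h1, hX, hY⟩ := exists_dil (Nat.succ_pos N) X Y
  obtain ⟨g, rfl⟩ := H35.mkP_surj e
  obtain ⟨s, hs⟩ := exists_sl h1 g
  refine ⟨mkP k (N + 1) (dl h1 (GeneralLinearGroup.det g)), Subgroup.subset_closure ⟨?_, ?_⟩, s, ?_⟩
  · exact prv_mkP (a := MonoidHom.id (PG k (N + 1))) rfl (dl_mem_iff h1 hX _)
  · exact prv_mkP (a := MonoidHom.id (PG k (N + 1))) rfl (dl_mem_iff h1 hY _)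
  · conv_lhs => rw [hs]
    rw [map_mul]
    rfl

/-- **Products** -/
theorem adm_pi {I : Type} [DecidableEq I] {E : I → Type} [∀ i, Group (E i)]
    [∀ i, TopologicalSpace (E i)] (tg : ∀ i, IsTopologicalGroup (E i)) (i : I)
    {ι : GG k N →* E i} {a a' : E i →* PG k (N + 1)} (h : Adm ι a a') :
    Adm ((MonoidHom.mulSingle E i).comp ι) (a.comp (Pi.evalMonoidHom E i))
      (a'.comp (Pi.evalMonoidHom E i)) where
  hN := h.hN
  tg := by
    haveI := tg
    infer_instance
  cι := (continuous_mulSingle i).comp h.cι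
  ca := h.ca.comp (continuous_apply i)
  ca' := h.ca'.comp (continuous_apply i)
  comp g x := by
    have e : (a.comp (Pi.evalMonoidHom E i)) ((MonoidHom.mulSingle E i).comp ι g) = a (ι g) := by
      show a (Pi.mulSingle i (ι g) i) = _
      rw [Pi.mulSingle_eq_same]
    rw [e]
    exact h.comp g x
  comp' g x := by
    have e : (a'.comp (Pi.evalMonoidHom E i)) ((MonoidHom.mulSingle E i).comp ι g) = a' (ι g) := by
      show a' (Pi.mulSingle i (ι g) i) = _
      rw [Pi.mulSingle_eq_same]
    rw [e]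
    exact h.comp' g x
  ort e x l := h.ort (e i) x l
  stb X Y := by
    refine Nm.moore_over (MonoidHom.mulSingle E i) (continuous_mulSingle i) ?_ fun e => ?_
    · have e1 : (MonoidHom.mulSingle E i) ⁻¹'
          {e | Prv (a.comp (Pi.evalMonoidHom E i)) X e ∧ Prv (a.comp (Pi.evalMonoidHom E i)) Y e} =
          {e | Prv a X e ∧ Prv a Y e} := by
        ext x
        have h1 : ∀ X : Submodule k (Fin (N + 1) → k), Prv (a.comp (Pi.evalMonoidHom E i)) X
            (MonoidHom.mulSingle E i x) ↔ Prv a X x := by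
          intro X
          have h2 : a.comp (Pi.evalMonoidHom E i) (MonoidHom.mulSingle E i x) = a x := by
            show a (Pi.mulSingle i x i) = _
            rw [Pi.mulSingle_eq_same]
          unfold Prv
          rw [h2]
        exact and_congr (h1 X) (h1 Y)
      rw [e1]
      exact h.stb X Y
    · refine ⟨e * (MonoidHom.mulSingle E i (e i))⁻¹, Subgroup.subset_closure ?_, e i, ?_⟩
      · have h1 : a.comp (Pi.evalMonoidHom E i) (e * (MonoidHom.mulSingle E i (e i))⁻¹) = 1 := by
          show a ((e * (MonoidHom.mulSingle E i (e i))⁻¹) i) = 1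
          rw [Pi.mul_apply, Pi.inv_apply]
          have h2 : (MonoidHom.mulSingle E i (e i)) i = e i := Pi.mulSingle_eq_same i (e i)
          rw [h2, mul_inv_cancel, map_one]
        have h3 : ∀ X : Submodule k (Fin (N + 1) → k), Prv (a.comp (Pi.evalMonoidHom E i)) X
            (e * (MonoidHom.mulSingle E i (e i))⁻¹) := by
          intro X x
          rw [h1, one_smul]
        exact ⟨h3 X, h3 Y⟩
      · group

end prv

end Vale.Agent.P092.H387.Ad
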