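import Vale.Agent.P092.SR.St

/-!
P092, project A (helper387): literal forms of the final statement of `ProductLattices`.
Only definitions; the hand-in states one of them, unfolded.
-/

open Vale.Agent.P092.H160.St Vale.Agent.P092.H103.St Vale.Agent.P092.H515.St Vale.Agent.P092.SR.St

namespace Vale.Agent.P092.PA.St

/-- `Γ` is an ICC irreducible lattice in a product `SL_m(k) × SL_n(l)` of two special linear groups
over local fields. -/
def LocalProductLattice (Γ : Type) [Group Γ] : Prop :=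
  ICC Γ ∧ ∃ (k l : Type) (_ : NontriviallyNormedField k) (_ : NontriviallyNormedField l)
    (m n : ℕ) (i : Γ →* Matrix.SpecialLinearGroup (Fin m) k × Matrix.SpecialLinearGroup (Fin n) l),
    ProperSpace k ∧ ProperSpace l ∧ LocK k ∧ LocK l ∧ 2 ≤ m ∧ 2 ≤ n ∧ IrrLattice i

/-- Version with `t = 1`. -/
def Final1 : Prop :=
  (∀ (Γ Λ : Type) [Group Γ] [Group Λ],
    LocalProductLattice Γ → LocalProductLattice Λ → ∀ θ : StarIso Γ Λ, Canonical θ) ∧
  ∀ n m p q : ℕ, Odd n → Odd m → 3 ≤ n → 3 ≤ m → p.Prime → q.Prime →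
    ((n, p) ≠ (m, q) → IsEmpty (StarIso
      (Matrix.SpecialLinearGroup (Fin n) (Localization.Away (p : ℤ)))
      (Matrix.SpecialLinearGroup (Fin m) (Localization.Away (q : ℤ))))) ∧
    ∀ θ : StarIso (Matrix.SpecialLinearGroup (Fin n) (Localization.Away (p : ℤ)))
      (Matrix.SpecialLinearGroup (Fin n) (Localization.Away (p : ℤ))), Canonical θ

/-- Version with all `t`. -/
def FinalAll : Prop :=
  (∀ (Γ Λ : Type) [Group Γ] [Group Λ], LocalProductLattice Γ → LocalProductLattice Λ →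
    ∀ (r : ℕ) (P : MOp r Λ), IsProj P → ∀ θ : CornerIso Γ Λ r P, mtr P = 1 ∧ CanonicalM θ) ∧
  ∀ n m p q : ℕ, Odd n → Odd m → 3 ≤ n → 3 ≤ m → p.Prime → q.Prime →
    ∀ (r : ℕ) (P : MOp r (Matrix.SpecialLinearGroup (Fin m) (Localization.Away (q : ℤ)))),
      IsProj P →
      ∀ θ : CornerIso (Matrix.SpecialLinearGroup (Fin n) (Localization.Away (p : ℤ)))
        (Matrix.SpecialLinearGroup (Fin m) (Localization.Away (q : ℤ))) r P,
        n = m ∧ p = q ∧ mtr P = 1 ∧ CanonicalM θ

end Vale.Agent.P092.PA.St
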