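import Vale.Agent.P092.H387.Ad2
import Vale.Agent.P092.H793.Lat
import Vale.Agent.P092.H793.Irr

/-!
P092 (helper387), [N-PSL] (4): the target letter `q : Γ → SL_n(k)` for groups `Γ` in
`SL_n(k) ⧸ Z`, `Z` central.
-/

set_option linter.all false

open scoped LinearAlgebra.Projectivization
open Matrix Filter Topology

namespace Vale.Agent.P092.H387.Ad

open Vale.Agent.P092.RC (Moore GG PG YY ct)
open Vale.Agent.P092.SN (Prv Adm inc PH UD nm)
open Vale.Agent.P092.H933 (LocK)
open Vale.Agent.P092.H35 (sp mkP)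
open Vale.Agent.P092.H644.PGr (tauG tauP tauP_cont tauP_can pair_gl)

section dual

variable {k : Type} [NontriviallyNormedField k] {N : ℕ}

theorem tauP_comp_sp : (tauP k (N + 1)).comp (sp k (N + 1)) =
    (sp k (N + 1)).comp (ct : GG k N →* GG k N) := by
  ext g
  exact (tauP_can (g := g) (g' := ct g) rfl).symm

/-- `SL_n(k)`, in the form of `SN.Blocks2` -/
theorem adm_sl' [ProperSpace k] (hk : LocK k) (hN : 2 ≤ N) :
    Adm (MonoidHom.id (GG k N)) (sp k (N + 1)) ((sp k (N + 1)).comp ct) := by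
  have h := adm_sl (k := k) hk hN
  rwa [tauP_comp_sp] at h

end dual

section ph

variable {k : Type} [NontriviallyNormedField k] {N : ℕ} {Γ : Type} [Group Γ]

/-- scalars between matrices of determinant one have norm one -/
theorem norm_scalar {g h : GG k N} {c : k} (e : g.1 = c • h.1) : ‖c‖ = 1 := by
  have h1 := congrArg Matrix.det e
  rw [det_smul, g.2, h.2, mul_one, Fintype.card_fin] at h1
  have h2 : ‖c‖ ^ (N + 1) = 1 := by rw [← norm_pow, ← h1, norm_one]
  exact (pow_eq_one_iff_of_nonneg (norm_nonneg c) (Nat.succ_ne_zero N)).1 h2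

theorem nm_of_scalar {g h : GG k N} {c : k} (e : g.1 = c • h.1) : nm g = nm h := by
  have h1 : nm g = ‖c‖ * nm h := by
    unfold nm
    rw [← norm_smul, e]
    rfl
  rw [h1, norm_scalar e, one_mul]

/-- two matrices of determinant one with the same class -/
theorem exists_scalar {g h : GG k N} (e : sp k (N + 1) g = sp k (N + 1) h) :
    ∃ c : k, g.1 = c • h.1 := H35.mkP_eq_iff.1 e.symm

/-- the homomorphism to `PGL_n(k)` -/
noncomputable def phHom (q : Γ → GG k N) (hq : PH q) : Γ →* PG k (N + 1) :=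
  MonoidHom.mk' (fun γ => sp k (N + 1) (q γ)) fun γ γ' => by
    obtain ⟨c, hc⟩ := hq γ γ'
    rw [← map_mul]
    exact (H35.mkP_eq_iff.2 ⟨c, hc⟩).symm

theorem phHom_apply (q : Γ → GG k N) (hq : PH q) (γ : Γ) : phHom q hq γ = sp k (N + 1) (q γ) := rfl

theorem ph_of_hom (q : Γ → GG k N) (f : Γ →* PG k (N + 1)) (h : ∀ γ, sp k (N + 1) (q γ) = f γ) :
    PH q := by
  intro γ γ'
  refine exists_scalar ?_
  rw [h, map_mul, map_mul, h, h]

/-- uniform discreteness from discreteness -/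
theorem ud_of_fin {q : Γ → GG k N} (hq : PH q) (hf : ∀ C : ℝ, {γ : Γ | nm (q γ) ≤ C}.Finite)
    (Z : Set Γ) : UD q Z := by
  classical
  intro C
  refine ⟨(hf C).toFinset.card, fun S _ hS => ?_⟩
  rcases S.eq_empty_or_nonempty with rfl | ⟨γ₀, h₀⟩
  · simp
  · rw [← Finset.card_image_of_injective S (mul_left_injective γ₀⁻¹)]
    refine Finset.card_le_card fun x hx => ?_
    obtain ⟨γ, hγ, rfl⟩ := Finset.mem_image.1 hx
    rw [Set.Finite.mem_toFinset, Set.mem_setOf_eq]
    have h1 : sp k (N + 1) (q (γ * γ₀⁻¹)) = sp k (N + 1) (q γ * (q γ₀)⁻¹) := by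
      rw [← phHom_apply q hq, map_mul, map_inv, phHom_apply, phHom_apply, map_mul, map_inv]
    obtain ⟨c, hc⟩ := exists_scalar h1
    show nm (q (γ * γ₀⁻¹)) ≤ C
    rw [nm_of_scalar hc]
    exact hS γ₀ h₀ γ hγ

end ph

section qo

variable {k : Type} [NontriviallyNormedField k] {N : ℕ} (Z : Subgroup (GG k N)) [Z.Normal]

/-- a representative of an element of `SL_n(k) ⧸ Z` -/
noncomputable def qO (e : GG k N ⧸ Z) : GG k N := Quotient.out e

theorem mk_qO (e : GG k N ⧸ Z) : QuotientGroup.mk' Z (qO Z e) = e := QuotientGroup.out_eq' e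

variable {Z} (hZ : Z ≤ Subgroup.center (GG k N))

theorem spq_mk (g : GG k N) : spq k N Z hZ (QuotientGroup.mk' Z g) = sp k (N + 1) g := rfl

theorem sp_qO (e : GG k N ⧸ Z) : sp k (N + 1) (qO Z e) = spq k N Z hZ e := by
  conv_rhs => rw [← mk_qO Z e]
  rfl

include hZ in
theorem ph_qO {Γ : Type} [Group Γ] (i : Γ →* GG k N ⧸ Z) : PH fun γ => qO Z (i γ) :=
  ph_of_hom _ ((spq k N Z hZ).comp i) fun γ => sp_qO hZ (i γ)

/-- the centre of `SL_n(k)` is finite -/
theorem finite_centerk : ((Subgroup.center (GG k N) : Subgroup (GG k N)) : Set (GG k N)).Finite := by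
  haveI : NeZero (max (Fintype.card (Fin (N + 1))) 1) := ⟨by simp⟩
  haveI : Finite (rootsOfUnity (max (Fintype.card (Fin (N + 1))) 1) k) := inferInstance
  haveI : Finite (Subgroup.center (GG k N)) :=
    Finite.of_equiv _ Matrix.SpecialLinearGroup.center_equiv_rootsOfUnity.symm.toEquiv
  exact Set.toFinite _

include hZ in
theorem finite_Z : (Z : Set (GG k N)).Finite := finite_centerk.subset hZ

include hZ in
theorem t2_quo : T2Space (GG k N ⧸ Z) := by
  haveI : IsClosed (Z : Set (GG k N)) := (finite_Z hZ).isClosed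
  infer_instance

include hZ in
/-- discreteness in the letters of `nm` -/
theorem fin_nm_qO [ProperSpace k] (Γ : Subgroup (GG k N ⧸ Z)) [DiscreteTopology Γ] (C : ℝ) :
    {γ : Γ | nm (qO Z (γ : GG k N ⧸ Z)) ≤ C}.Finite := by
  haveI := t2_quo hZ
  have h1 : IsCompact ((QuotientGroup.mk' Z : GG k N → GG k N ⧸ Z) ''
      {g : GG k N | H35.nmx g.1 ≤ C}) :=
    (H35.isCompact_bdd (k := k) (n := N + 1) C).image continuous_quotient_mk'
  refine (H790.finite_inter Γ h1).subset fun γ hγ => ?_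
  exact ⟨qO Z (γ : GG k N ⧸ Z), hγ, mk_qO Z _⟩

include hZ in
theorem spq_inj_icc {Γ : Type} [Group Γ] {i : Γ →* GG k N ⧸ Z} (hi : Function.Injective i)
    (hicc : ∀ g : Γ, g ≠ 1 → Set.Infinite {y : Γ | ∃ h, y = h * g * h⁻¹}) (γ : Γ)
    (h : sp k (N + 1) (qO Z (i γ)) = 1) : γ = 1 := by
  by_contra hne
  refine hicc γ hne ?_
  have h1 : {y : Γ | ∃ h, y = h * γ * h⁻¹} ⊆ {γ} := by
    rintro y ⟨x, rfl⟩
    have h2 : x * γ = γ * x := by
      apply hi
      rw [map_mul, map_mul, ← mk_qO Z (i γ), ← mk_qO Z (i x), ← map_mul, ← map_mul,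
        H35.sp_central h (qO Z (i x))]
    rw [Set.mem_singleton_iff, h2, mul_inv_cancel_right]
  exact (Set.finite_singleton γ).subset h1

end qo

end Vale.Agent.P092.H387.Ad
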