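import Vale.Agent.P092.H387.ExN3

/-!
P092 (helper387): `SL_n(ℤ[1/N])` is a lattice in the product of the `SL_n` of the completions.
-/

open Set Filter Topology Matrix MeasureTheory

namespace Vale.Agent.P092.H387.N

open Vale.Agent.P092.H19 Vale.Agent.P092.H515.St

variable (m N : ℕ) [hN : Fact (1 < N)]

section sigma

variable [MeasurableSpace (En (m + 1))] [BorelSpace (En (m + 1))]

instance instSigmamuR : SigmaFinite (muR m) := by
  obtain ⟨F, hF, hF0, hFt, hF1, hF2⟩ := exists_fd m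
  have hc := countable_of_disc (SLZ m)
  have hk : ∀ k : SLZ m, muR m ((fun g => g * (k : En (m + 1))) ⁻¹' F) = muR m F :=
    fun k => measure_preimage_mul_right (muR m) (k : En (m + 1)) F
  obtain ⟨e, he⟩ := exists_surjective_nat (SLZ m)
  refine ⟨⟨fun n => (fun g => g * (e n : En (m + 1))) ⁻¹' F, fun _ => trivial, fun n => ?_, ?_⟩⟩
  · rw [hk]; exact hFt.lt_top
  · rw [eq_univ_iff_forall]
    intro g
    obtain ⟨k, hkm, hk⟩ := hF1 g
    obtain ⟨n, hn⟩ := he ⟨k, hkm⟩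
    refine mem_iUnion.2 ⟨n, ?_⟩
    show g * (e n : En (m + 1)) ∈ F
    rw [hn]
    exact hk

end sigma

instance instSC (n : ℕ) : ∀ i : Option (PF N), SecondCountableTopology (GK n N i)
  | none => inferInstanceAs (SecondCountableTopology (GR n))
  | some p => inferInstanceAs (SecondCountableTopology (GP n p))

/-- The product set `F × ∏ SL_n(ℤ_p)`. -/
def DD (n : ℕ) (F : Set (GR n)) : ∀ i : Option (PF N), Set (GK n N i)
  | none => F
  | some p => (Kp n (p : ℕ) : Set (GP n (p : ℕ)))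

theorem exists_mu {F : Set (GR (m + 1))}
    (hF : MeasurableSet[borel (GR (m + 1))] F)
    (h0 : @muR m (borel _) F ≠ 0) (ht : @muR m (borel _) F ≠ ⊤) :
    ∀ i : Option (PF N), ∃ μ : @Measure (GK (m + 1) N i) (borel _),
      @SigmaFinite _ (borel _) μ ∧ @Measure.IsMulLeftInvariant _ (borel _) _ μ ∧
      @Measure.IsMulRightInvariant _ (borel _) _ μ ∧
      MeasurableSet[borel _] (DD N (m + 1) F i) ∧ μ (DD N (m + 1) F i) ≠ 0 ∧
      μ (DD N (m + 1) F i) ≠ ⊤
  | none => by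
    let _ : MeasurableSpace (GR (m + 1)) := borel _
    have _ : BorelSpace (GR (m + 1)) := ⟨rfl⟩
    exact ⟨muR m, instSigmamuR m, instLmuR m, instRmuR m, hF, h0, ht⟩
  | some p => by
    let _ : MeasurableSpace (GP (m + 1) (p : ℕ)) := borel _
    have _ : BorelSpace (GP (m + 1) (p : ℕ)) := ⟨rfl⟩
    have hs : SigmaFinite (Measure.haar : Measure (GP (m + 1) (p : ℕ))) := inferInstance
    have hl : (Measure.haar : Measure (GP (m + 1) (p : ℕ))).IsMulLeftInvariant := inferInstance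
    have hr : (Measure.haar : Measure (GP (m + 1) (p : ℕ))).IsMulRightInvariant := inferInstance
    have h1 : MeasurableSet (Kp (m + 1) (p : ℕ) : Set (GP (m + 1) (p : ℕ))) :=
      (isOpen_Kp _ _).measurableSet
    have h2 : (Measure.haar : Measure (GP (m + 1) (p : ℕ)))
        (Kp (m + 1) (p : ℕ) : Set (GP (m + 1) (p : ℕ))) ≠ 0 :=
      ((isOpen_Kp _ (p : ℕ)).measure_pos _ ⟨1, (Kp _ (p : ℕ)).one_mem⟩).ne'
    have h3 : (Measure.haar : Measure (GP (m + 1) (p : ℕ)))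
        (Kp (m + 1) (p : ℕ) : Set (GP (m + 1) (p : ℕ))) ≠ ⊤ :=
      (isCompact_Kp _ (p : ℕ)).measure_lt_top.ne
    refine ⟨(Measure.haar : Measure (GP (m + 1) (p : ℕ))), ?_⟩
    exact ⟨hs, hl, hr, h1, h2, h3⟩

section maps

variable (n : ℕ)

/-- The real component. -/
noncomputable def dR : SpecialLinearGroup (Fin n) (Zi N) →* GR n :=
  SpecialLinearGroup.map (show Zi N →+* ℝ from emb N none)

/-- The `p`-adic component. -/
noncomputable def dP (p : PF N) : SpecialLinearGroup (Fin n) (Zi N) →* GP n p :=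
  SpecialLinearGroup.map (show Zi N →+* ℚ_[p.1] from emb N (some p))

theorem dR_injective : Function.Injective (dR N n) := diaN_injective_apply n N none

theorem dR_int (δ : SpecialLinearGroup (Fin n) ℤ) :
    dR N n (SpecialLinearGroup.map (Int.castRingHom (Zi N)) δ) =
      SpecialLinearGroup.map (Int.castRingHom ℝ) δ := by
  apply Subtype.ext
  ext i j
  exact RingHom.congr_fun (emb_comp_int N none) (δ i j)

theorem dP_int (p : PF N) (δ : SpecialLinearGroup (Fin n) ℤ) :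
    dP N n p (SpecialLinearGroup.map (Int.castRingHom (Zi N)) δ) ∈ Kp n (p : ℕ) := by
  rw [mem_Kp]
  intro i j
  have h1 : (dP N n p (SpecialLinearGroup.map (Int.castRingHom (Zi N)) δ)) i j =
      ((δ i j : ℤ) : ℚ_[p.1]) :=
    RingHom.congr_fun (emb_comp_int N (some p)) (δ i j)
  rw [h1]
  exact Padic.norm_int_le_one _

/-- an element of the group with the `p`-components in the compact open subgroups -/
theorem exists_gam (g : ∀ p : PF N, GP n (p : ℕ)) :
    ∃ γ : SpecialLinearGroup (Fin n) (Zi N), ∀ p : PF N, g p * dP N n p γ ∈ Kp n (p : ℕ) := by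
  have hG : ∃ g' : ∀ i : Option (PF N), GK n N i, ∀ p, g' (some p) = g p :=
    ⟨fun | none => (1 : GR n) | some p => g p, fun p => rfl⟩
  obtain ⟨g', hg'⟩ := hG
  have ho : IsOpen (Set.pi univ fun i : {i : Option (PF N) // i ≠ none} =>
      (fun x => g' i.1 * x) ⁻¹' (DD N n univ i.1)) := by
    refine isOpen_set_pi finite_univ ?_
    rintro ⟨_ | p, hi⟩ -
    · exact absurd rfl hi
    · have hc : Continuous fun x : GP n (p : ℕ) => (show GP n (p : ℕ) from g' (some p)) * x := by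
        fun_prop
      exact (isOpen_Kp n (p : ℕ)).preimage hc
  obtain ⟨γ, hγ⟩ := (denseRange_diaN n N none).exists_mem_open ho
    ⟨fun i => (g' i.1)⁻¹, by
      rintro ⟨_ | p, hi⟩ -
      · exact absurd rfl hi
      · show g' (some p) * (g' (some p))⁻¹ ∈ DD N n univ (some p)
        rw [mul_inv_cancel]
        exact (Kp n (p : ℕ)).one_mem⟩
  refine ⟨γ, fun p => ?_⟩
  have h1 : g' (some p) * diaN n N γ (some p) ∈ DD N n univ (some p) :=
    hγ ⟨some p, by simp⟩ (mem_univ _)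
  rw [hg'] at h1
  exact h1

end maps

theorem exists_unique_gam {F : Set (GR (m + 1))}
    (hF1 : ∀ g : En (m + 1), ∃ k ∈ SLZ m, g * k ∈ F)
    (hF2 : ∀ g ∈ F, ∀ k ∈ SLZ m, g * k ∈ F → k = 1)
    (gR : GR (m + 1)) (gP : ∀ p : PF N, GP (m + 1) (p : ℕ)) :
    ∃ γ : SpecialLinearGroup (Fin (m + 1)) (Zi N),
      (gR * dR N (m + 1) γ ∈ F ∧ ∀ p : PF N, gP p * dP N (m + 1) p γ ∈ Kp (m + 1) (p : ℕ)) ∧
      ∀ γ', gR * dR N (m + 1) γ' ∈ F →
        (∀ p : PF N, gP p * dP N (m + 1) p γ' ∈ Kp (m + 1) (p : ℕ)) → γ' = γ := by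
  obtain ⟨γ, hγ⟩ := exists_gam N (m + 1) gP
  obtain ⟨k, ⟨δ, rfl⟩, hk⟩ := hF1 (gR * dR N (m + 1) γ)
  obtain ⟨γ0, hγ0⟩ : ∃ γ0, γ0 = γ * SpecialLinearGroup.map (Int.castRingHom (Zi N)) δ := ⟨_, rfl⟩
  have h7 : gR * dR N (m + 1) γ0 ∈ F := by
    rw [hγ0, map_mul, dR_int, ← mul_assoc]
    exact hk
  have h4 : ∀ p : PF N, gP p * dP N (m + 1) p γ0 ∈ Kp (m + 1) (p : ℕ) := by
    intro p
    rw [hγ0, map_mul, ← mul_assoc]
    exact (Kp (m + 1) (p : ℕ)).mul_mem (hγ p) (dP_int N (m + 1) p δ)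
  refine ⟨γ0, ⟨h7, h4⟩, fun γ' h1 h2 => ?_⟩
  have h3 : ∀ p : PF N, dP N (m + 1) p (γ0⁻¹ * γ') ∈ Kp (m + 1) (p : ℕ) := by
    intro p
    have h5 := (Kp (m + 1) (p : ℕ)).mul_mem ((Kp (m + 1) (p : ℕ)).inv_mem (h4 p)) (h2 p)
    have h6 : (gP p * dP N (m + 1) p γ0)⁻¹ * (gP p * dP N (m + 1) p γ') =
        dP N (m + 1) p (γ0⁻¹ * γ') := by
      rw [map_mul (dP N (m + 1) p) γ0⁻¹ γ', map_inv]; group
    rwa [h6] at h5
  obtain ⟨δ', hδ'⟩ := exists_SLZN (m + 1) N h3
  have h8 := hF2 _ h7 (SpecialLinearGroup.map (Int.castRingHom ℝ) δ') ⟨δ', rfl⟩ (by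
    rw [← dR_int N, hδ', map_mul (dR N (m + 1)) γ0⁻¹ γ', map_inv, mul_assoc,
      mul_inv_cancel_left]
    exact h1)
  have h9 : γ0⁻¹ * γ' = 1 := by
    apply dR_injective N (m + 1)
    rw [← hδ', dR_int, h8, map_one]
  exact (inv_mul_eq_one.1 h9).symm

/-- **`SL_n(ℤ[1/N])` is a lattice of the product of the `SL_n` of the completions.** -/
theorem isLattice_GamN : IsLattice (GamN (m + 1) N) := by
  let _ : MeasurableSpace (GR (m + 1)) := borel _
  have _ : BorelSpace (GR (m + 1)) := ⟨rfl⟩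
  obtain ⟨F, hF, hF0, hFt, hF1, hF2⟩ := exists_fd m
  have hex := exists_mu m N hF hF0 hFt
  let instM : ∀ i : Option (PF N), MeasurableSpace (GK (m + 1) N i) := fun i => borel _
  have instB : ∀ i : Option (PF N), BorelSpace (GK (m + 1) N i) := fun i => ⟨rfl⟩
  choose μ hμs hμl hμr hDm hD0 hDt using hex
  have hc : Countable (GamN (m + 1) N) :=
    TopologicalSpace.separableSpace_iff_countable.1 inferInstance
  refine isLattice_of_fd (GamN (m + 1) N) (Measure.pi μ) (D := Set.pi univ (DD N (m + 1) F))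
    (MeasurableSet.univ_pi hDm) ?_ ?_ fun g => ?_
  · rw [Measure.pi_pi]
    exact Finset.prod_ne_zero_iff.2 fun i _ => hD0 i
  · rw [Measure.pi_pi]
    exact ENNReal.prod_ne_top fun i _ => hDt i
  · obtain ⟨γ, ⟨h1, h2⟩, h3⟩ := exists_unique_gam m N hF1 hF2 (g none) (fun p => g (some p))
    refine ⟨⟨diaN (m + 1) N γ, ⟨_, rfl⟩⟩, ?_, ?_⟩
    · rintro (_ | p) -
      · exact h1
      · exact h2 p
    · rintro ⟨_, ⟨γ', rfl⟩⟩ h
      apply Subtype.ext
      show diaN (m + 1) N γ' = diaN (m + 1) N γ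
      rw [h3 γ' (h none (mem_univ _)) fun p => h (some p) (mem_univ _)]

end Vale.Agent.P092.H387.N
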