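import Vale.Agent.P092.H387.ExN4
import Vale.Agent.P092.H387.ExN5

/-!
P092 (helper387): `SL_n(ℤ[1/N])`, `n` odd, is ICC and determines `n` and the prime divisors of `N`.
-/

open Set Matrix

namespace Vale.Agent.P092.H387.N

variable (N : ℕ) [hN : Fact (1 < N)] (M : ℕ) [hM : Fact (1 < M)]

/-- **ICC.** -/
theorem iccN {n : ℕ} (hn : Odd n) (g : SpecialLinearGroup (Fin n) (Zi N)) (hg : g ≠ 1) :
    Set.Infinite {y : SpecialLinearGroup (Fin n) (Zi N) | ∃ h, y = h * g * h⁻¹} :=
  iccA (show Zi N →+* ℝ from emb N none) (emb_injective N none) hn g hg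

/-- `ℤ[1/M] → ℚ_p` for any `p` -/
noncomputable def toQM (p : ℕ) [hp : Fact p.Prime] : Zi M →+* ℚ_[p] :=
  IsLocalization.Away.lift (M : ℤ) (g := Int.castRingHom ℚ_[p]) (by
    rw [isUnit_iff_ne_zero]
    simpa using N_ne M)

theorem toQM_rep (p : ℕ) [hp : Fact p.Prime] {a : Zi M} {k : ℕ} {z : ℤ}
    (h : a * (M : Zi M) ^ k = (z : Zi M)) : toQM M p a * (M : ℚ_[p]) ^ k = z := by
  have := congrArg (toQM M p) h
  simpa using this

theorem toQM_injective (p : ℕ) [hp : Fact p.Prime] : Function.Injective (toQM M p) := by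
  rw [injective_iff_map_eq_zero]
  intro a ha
  obtain ⟨k, z, h⟩ := exists_repN M a
  have h1 := toQM_rep M p h
  rw [ha, zero_mul] at h1
  have h2 : z = 0 := by exact_mod_cast h1.symm
  rw [h2, Int.cast_zero] at h
  exact ((isUnit_N M).pow k).mul_left_eq_zero.1 h

theorem norm_toQM_le (p : ℕ) [hp : Fact p.Prime] (hpM : ¬ p ∣ M) (a : Zi M) :
    ‖toQM M p a‖ ≤ 1 := by
  obtain ⟨k, z, h⟩ := exists_repN M a
  have h1 := congrArg norm (toQM_rep M p h)
  have h2 : ‖((M : ℕ) : ℚ_[p])‖ = 1 :=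
    Padic.norm_natCast_eq_one_iff.2 ((Nat.Prime.coprime_iff_not_dvd hp.out).2 hpM)
  rw [norm_mul, norm_pow, h2, one_pow, mul_one] at h1
  rw [h1]
  exact Padic.norm_int_le_one z

/-- **`SL_n(ℤ[1/N])`, `n ≥ 2`, embeds in `SL_m(ℤ[1/M])` only if all prime divisors of `N` divide
`M`.** -/
theorem primeFactors_subset {n m : ℕ} (hn : 2 ≤ n)
    (φ : SpecialLinearGroup (Fin n) (Zi N) →* SpecialLinearGroup (Fin m) (Zi M))
    (hφ : Function.Injective φ) : N.primeFactors ⊆ M.primeFactors := by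
  intro p hp
  have hpp : Fact p.Prime := ⟨Nat.prime_of_mem_primeFactors hp⟩
  rw [Nat.mem_primeFactors]
  refine ⟨hpp.out, ?_, N_ne M⟩
  by_contra hpM
  exact not_injective (A := Zi N) (B := Zi M) (fun k hk => by
      have h1 := congrArg (emb N none) hk
      rw [map_natCast, map_zero] at h1
      exact_mod_cast h1)
    (isUnit_of_dvd N (Nat.dvd_of_mem_primeFactors hp))
    ((Complex.ofRealHom).comp (show Zi M →+* ℝ from emb M none))
    (Complex.ofRealHom.injective.comp (emb_injective M none)) (toQM M p) (toQM_injective M p)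
    (norm_toQM_le M p hpM) hn φ hφ

theorem dim_leN {n m : ℕ} (hn : Odd n) (hm : Odd m)
    (φ : SpecialLinearGroup (Fin n) (Zi N) →* SpecialLinearGroup (Fin m) (Zi M))
    (hφ : Function.Injective φ) : n ≤ m :=
  dim_leA (show Zi N →+* ℝ from emb N none)
    ((Complex.ofRealHom).comp (show Zi M →+* ℝ from emb M none))
    (Complex.ofRealHom.injective.comp (emb_injective M none)) hn hm φ hφ

/-- **`SL_n(ℤ[1/N])`, `n` odd, `n ≥ 2`, determines `n` and the prime divisors of `N`.** -/
theorem eq_of_equivN {n m : ℕ} (hn : Odd n) (hm : Odd m) (hn2 : 2 ≤ n)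
    (e : SpecialLinearGroup (Fin n) (Zi N) ≃* SpecialLinearGroup (Fin m) (Zi M)) :
    n = m ∧ N.primeFactors = M.primeFactors := by
  have h1 : n = m := le_antisymm (dim_leN N M hn hm e.toMonoidHom e.injective)
    (dim_leN M N hm hn e.symm.toMonoidHom e.symm.injective)
  exact ⟨h1, Finset.Subset.antisymm (primeFactors_subset N M hn2 e.toMonoidHom e.injective)
    (primeFactors_subset M N (h1 ▸ hn2) e.symm.toMonoidHom e.symm.injective)⟩

omit hN hM in
/-- If `N` and `M` have the same prime divisors then `ℤ[1/N] ≃ ℤ[1/M]`. -/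
theorem exists_ringEquiv (h : N.primeFactors = M.primeFactors) (hN0 : N ≠ 0) (hM0 : M ≠ 0) :
    Nonempty (Zi N ≃+* Zi M) := by
  have hu : ∀ {N M : ℕ}, N.primeFactors ⊆ M.primeFactors → M ≠ 0 → N ≠ 0 →
      IsUnit ((N : ℤ) : Zi M) := by
    intro N M h hM0 hN0
    have h1 : N ∣ M ^ N := by
      rw [← Nat.factorization_le_iff_dvd hN0 (pow_ne_zero _ hM0)]
      intro p
      by_cases hp : p ∈ N.primeFactors
      · have hpM := h hp
        rw [Nat.factorization_pow, Finsupp.smul_apply, smul_eq_mul]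
        have h2 : 0 < M.factorization p :=
          (Nat.prime_of_mem_primeFactors hpM).factorization_pos_of_dvd hM0
            (Nat.dvd_of_mem_primeFactors hpM)
        have h3 : N.factorization p < N := Nat.factorization_lt p hN0
        nlinarith
      · rw [← Nat.support_factorization, Finsupp.notMem_support_iff] at hp
        rw [hp]
        exact Nat.zero_le _
    have h4 : IsUnit ((M : ℕ) : Zi M) := by
      have h := IsLocalization.Away.algebraMap_isUnit (S := Zi M) (M : ℤ)
      simpa using h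
    obtain ⟨c, hc⟩ := h1
    have h5 : ((M : ℕ) : Zi M) ^ N = ((N : ℕ) : Zi M) * ((c : ℕ) : Zi M) := by
      rw [← Nat.cast_mul, ← hc, Nat.cast_pow]
    have h6 := h4.pow N
    rw [h5] at h6
    rw [Int.cast_natCast]
    exact isUnit_of_mul_isUnit_left h6
  let f : Zi N →+* Zi M := IsLocalization.Away.lift (N : ℤ) (g := Int.castRingHom (Zi M))
    (hu h.subset hM0 hN0)
  let g : Zi M →+* Zi N := IsLocalization.Away.lift (M : ℤ) (g := Int.castRingHom (Zi N))
    (hu h.symm.subset hN0 hM0)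
  refine ⟨RingEquiv.ofRingHom f g ?_ ?_⟩
  · exact IsLocalization.ringHom_ext (Submonoid.powers (M : ℤ)) (RingHom.ext_int _ _)
  · exact IsLocalization.ringHom_ext (Submonoid.powers (N : ℤ)) (RingHom.ext_int _ _)

end Vale.Agent.P092.H387.N
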