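import Mathlib

/-!
P092 (helper387): `SL_n` over a field is generated by elementary matrices; density of
`SL_n(A)` in `SL_n(k)` for a ring `A` with dense image in `k`.
-/

open Matrix

namespace Vale.Agent.P092.H387

section gen

variable {ι : Type*} [Fintype ι] [DecidableEq ι] {k : Type*} [Field k]

theorem tr_mulVec {k : Type*} [CommRing k] (i j : ι) (b : k) (v : ι → k) :
    (Matrix.transvection i j b).mulVec v = Function.update v i (v i + b * v j) := by
  rw [Matrix.transvection, Matrix.add_mulVec, Matrix.one_mulVec]
  funext l
  by_cases hl : l = i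
  · subst hl
    simp [Matrix.single_mulVec]
  · simp [Matrix.single_mulVec, hl]

/-- the diagonal matrix with `a` at `i` and `a⁻¹` at `j` -/
def hd (i j : ι) (a : k) : ι → k := Function.update (Function.update 1 i a) j a⁻¹

theorem hd_eq (i j : ι) (hij : i ≠ j) (a : k) (ha : a ≠ 0) :
    Matrix.transvection i j a * Matrix.transvection j i (-a⁻¹) * Matrix.transvection i j a *
      (Matrix.transvection i j (-1) * Matrix.transvection j i 1 * Matrix.transvection i j (-1)) =
      Matrix.diagonal (hd i j a) := by
  rw [Matrix.ext_iff_mulVec]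
  intro v
  have hji : j ≠ i := hij.symm
  simp only [← Matrix.mulVec_mulVec, tr_mulVec]
  funext l
  rw [Matrix.mulVec_diagonal, hd]
  by_cases hi : l = i
  · subst hi
    simp [Function.update_of_ne hij, Function.update_of_ne hji]
    field_simp
    ring
  · by_cases hj : l = j
    · subst hj
      simp [Function.update_of_ne hij, Function.update_of_ne hji]
      field_simp
      ring
    · simp [Function.update_of_ne hi, Function.update_of_ne hj]

/-- the elements of `S` with matrix `diagonal D` -/
theorem diag_mem (S : Subgroup (SpecialLinearGroup ι k))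
    (h : ∀ (i j : ι) (hij : i ≠ j) (b : k), SpecialLinearGroup.transvection hij b ∈ S)
    (i0 : ι) (s : Finset ι) : i0 ∉ s → ∀ g : SpecialLinearGroup ι k, ∀ D : ι → k,
      g.1 = Matrix.diagonal D → (∀ l, l ≠ i0 → l ∉ s → D l = 1) → g ∈ S := by
  induction s using Finset.induction_on with
  | empty =>
    intro _ g D hg hD
    have h1 : ∏ l, D l = 1 := by
      rw [← Matrix.det_diagonal, ← hg]; exact g.2
    have h2 : ∏ l, D l = D i0 :=
      Finset.prod_eq_single i0 (fun l _ hl => hD l hl (Finset.notMem_empty _))
        (fun hh => absurd (Finset.mem_univ _) hh)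
    have h3 : D = 1 := by
      funext l
      by_cases hl : l = i0
      · subst hl; rw [← h2, h1]; rfl
      · exact hD l hl (Finset.notMem_empty _)
    have h4 : g = 1 := by
      apply Subtype.ext
      rw [hg, h3]
      exact Matrix.diagonal_one
    rw [h4]
    exact S.one_mem
  | insert i s his ih =>
    intro hi0 g D hg hD
    have hne : i ≠ i0 := fun hh => hi0 (hh ▸ Finset.mem_insert_self i s)
    have hi0s : i0 ∉ s := fun hh => hi0 (Finset.mem_insert_of_mem hh)
    have hdet : ∏ l, D l = 1 := by
      rw [← Matrix.det_diagonal, ← hg]; exact g.2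
    have hDi : D i ≠ 0 := by
      intro h0
      rw [Finset.prod_eq_zero (Finset.mem_univ i) h0] at hdet
      exact zero_ne_one hdet
    set q : SpecialLinearGroup ι k :=
      SpecialLinearGroup.transvection hne (D i) * SpecialLinearGroup.transvection hne.symm (-(D i)⁻¹)
        * SpecialLinearGroup.transvection hne (D i) *
        (SpecialLinearGroup.transvection hne (-1) * SpecialLinearGroup.transvection hne.symm 1 *
          SpecialLinearGroup.transvection hne (-1)) with hq
    have hqS : q ∈ S := S.mul_mem (S.mul_mem (S.mul_mem (h _ _ _ _) (h _ _ _ _)) (h _ _ _ _))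
      (S.mul_mem (S.mul_mem (h _ _ _ _) (h _ _ _ _)) (h _ _ _ _))
    have hq1 : q.1 = Matrix.diagonal (hd i i0 (D i)) := hd_eq i i0 hne (D i) hDi
    set D' : ι → k := Function.update (Function.update D i 1) i0 (D i * D i0) with hD'
    have hfac : Matrix.diagonal D = Matrix.diagonal (hd i i0 (D i)) * Matrix.diagonal D' := by
      rw [Matrix.diagonal_mul_diagonal]
      congr 1
      funext l
      rw [hd, hD']
      by_cases h1 : l = i0
      · subst h1
        simp
        field_simp
      · by_cases h2 : l = i
        · subst h2
          simp [Function.update_of_ne h1]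
        · simp [Function.update_of_ne h1, Function.update_of_ne h2]
    have hgi : (q⁻¹ * g).1 = Matrix.diagonal D' := by
      have e1 : (q * (q⁻¹ * g)).1 = q.1 * Matrix.diagonal D' := by
        rw [mul_inv_cancel_left, hg, hfac, hq1]
      have e2 : q.1 * (q⁻¹ * g).1 = q.1 * Matrix.diagonal D' := e1
      have e3 := congrArg (fun M => (q⁻¹).1 * M) e2
      simp only [← Matrix.mul_assoc] at e3
      have e4 : (q⁻¹).1 * q.1 = 1 := congrArg Subtype.val (inv_mul_cancel q)
      rwa [e4, Matrix.one_mul, Matrix.one_mul] at e3
    have hm := ih hi0s (q⁻¹ * g) D' hgi (by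
      intro l hl hls
      rw [hD', Function.update_of_ne hl]
      by_cases h2 : l = i
      · subst h2; simp
      · rw [Function.update_of_ne h2]
        exact hD l hl fun hh => (Finset.mem_insert.1 hh).elim h2 hls)
    have := S.mul_mem hqS hm
    rwa [mul_inv_cancel_left] at this

theorem exists_prod (S : Subgroup (SpecialLinearGroup ι k))
    (h : ∀ (i j : ι) (hij : i ≠ j) (b : k), SpecialLinearGroup.transvection hij b ∈ S)
    (L : List (Matrix.TransvectionStruct ι k)) : ∃ q : SpecialLinearGroup ι k,
      q.1 = (L.map Matrix.TransvectionStruct.toMatrix).prod ∧ q ∈ S := by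
  induction L with
  | nil => exact ⟨1, rfl, S.one_mem⟩
  | cons t L ih =>
    obtain ⟨q, hq, hqS⟩ := ih
    refine ⟨SpecialLinearGroup.transvection t.hij t.c * q, ?_, S.mul_mem (h _ _ _ _) hqS⟩
    rw [List.map_cons, List.prod_cons, ← hq]
    rfl

/-- `SL_n(k)` is generated by the elementary matrices. -/
theorem eq_top_of_transvection (S : Subgroup (SpecialLinearGroup ι k))
    (h : ∀ (i j : ι) (hij : i ≠ j) (b : k), SpecialLinearGroup.transvection hij b ∈ S) :
    S = ⊤ := by
  rw [eq_top_iff]
  intro g _
  by_cases hι : Nonempty ι
  · obtain ⟨i0⟩ := hι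
    obtain ⟨L, L', D, hLD⟩ := Pivot.exists_list_transvec_mul_diagonal_mul_list_transvec g.1
    obtain ⟨q, hq, hqS⟩ := exists_prod S h L
    obtain ⟨q', hq', hqS'⟩ := exists_prod S h L'
    rw [← hq, ← hq'] at hLD
    have e : (q⁻¹ * g * q'⁻¹).1 = Matrix.diagonal D := by
      have e1 : (q⁻¹).1 * q.1 = 1 := congrArg Subtype.val (inv_mul_cancel q)
      have e2 : q'.1 * (q'⁻¹).1 = 1 := congrArg Subtype.val (mul_inv_cancel q')
      change (q⁻¹).1 * g.1 * (q'⁻¹).1 = _
      rw [hLD]
      simp only [← Matrix.mul_assoc]
      rw [e1, Matrix.one_mul, Matrix.mul_assoc, e2, Matrix.mul_one]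
    have hm := diag_mem S h i0 (Finset.univ.erase i0) (Finset.notMem_erase _ _) _ D e (by
      intro l hl hls
      exact absurd (Finset.mem_erase.2 ⟨hl, Finset.mem_univ _⟩) hls)
    have := S.mul_mem (S.mul_mem hqS hm) hqS'
    have e5 : q * (q⁻¹ * g * q'⁻¹) * q' = g := by group
    rwa [e5] at this
  · have : g = 1 := by
      apply Subtype.ext
      ext i
      exact absurd ⟨i⟩ hι
    rw [this]
    exact S.one_mem

end gen

section dens

variable {ι : Type*} [Fintype ι] [DecidableEq ι] {k : Type*} [Field k] [TopologicalSpace k]
  [IsTopologicalRing k] {A : Type*} [CommRing A]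

theorem continuous_transvection {i j : ι} (hij : i ≠ j) :
    Continuous fun b : k => SpecialLinearGroup.transvection (ι := ι) hij b := by
  refine Continuous.subtype_mk ?_ _
  refine continuous_const.add ?_
  refine continuous_matrix fun a b => ?_
  by_cases h : i = a ∧ j = b
  · obtain ⟨rfl, rfl⟩ := h
    simp only [Matrix.single_apply_same]
    exact continuous_id
  · simp only [Matrix.single_apply, if_neg h]
    exact continuous_const

theorem map_transvection (f : A →+* k) {i j : ι} (hij : i ≠ j) (a : A) :
    SpecialLinearGroup.map f (SpecialLinearGroup.transvection hij a) =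
      SpecialLinearGroup.transvection hij (f a) := by
  apply Subtype.ext
  change (Matrix.transvection i j a).map f = Matrix.transvection i j (f a)
  ext r s
  rw [Matrix.map_apply, Matrix.transvection, Matrix.transvection, Matrix.add_apply,
    Matrix.add_apply, map_add, Matrix.one_apply, Matrix.one_apply, Matrix.single_apply,
    Matrix.single_apply]
  congr 1
  · split_ifs
    · exact map_one f
    · exact map_zero f
  · split_ifs
    · rfl
    · exact map_zero f

/-- **Density**: if `A` has dense image in `k` then `SL_n(A)` has dense image in `SL_n(k)`. -/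
theorem denseRange_map (f : A →+* k) (hf : DenseRange f) :
    DenseRange (SpecialLinearGroup.map (n := ι) f) := by
  have h1 : ((SpecialLinearGroup.map (n := ι) f).range.topologicalClosure) = ⊤ := by
    refine eq_top_of_transvection _ fun i j hij b => ?_
    have hb : b ∈ closure (Set.range f) := hf b
    have hc := continuous_transvection (k := k) hij
    have h2 : SpecialLinearGroup.transvection hij b ∈
        closure ((fun b : k => SpecialLinearGroup.transvection (ι := ι) hij b) '' Set.range f) :=
      image_closure_subset_closure_image hc ⟨b, hb, rfl⟩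
    refine closure_mono ?_ h2
    rintro _ ⟨_, ⟨a, rfl⟩, rfl⟩
    exact ⟨SpecialLinearGroup.transvection hij a, map_transvection f hij a⟩
  intro x
  have h2 : x ∈ (SpecialLinearGroup.map (n := ι) f).range.topologicalClosure := by
    rw [h1]; exact Subgroup.mem_top x
  exact h2

end dens

end Vale.Agent.P092.H387
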