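import Vale.Agent.P092.H387.Ex3

/-!
P092 (helper387): `SL_n(ℤ[1/p])` is ICC for `n` odd.
-/

open Set Matrix

namespace Vale.Agent.P092.H387

section scalar

variable {ι : Type*} [Fintype ι] [DecidableEq ι] {A : Type*} [CommRing A] [IsDomain A]

theorem entries_of_commute {g : Matrix ι ι A} {i j : ι} {c : A} (hc : c ≠ 0)
    (h : Matrix.transvection i j c * g = g * Matrix.transvection i j c) :
    (∀ k, k ≠ i → g k i = 0) ∧ g i i = g j j := by
  rw [Matrix.transvection, add_mul, mul_add, one_mul, mul_one, add_right_inj] at h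
  constructor
  · intro k hk
    have h1 := congrFun (congrFun h k) j
    rw [Matrix.mul_single_apply_same, Matrix.single_mul_apply_of_ne _ _ _ _ _ hk] at h1
    exact (mul_eq_zero.1 h1.symm).resolve_right hc
  · have h1 := congrFun (congrFun h i) j
    rw [Matrix.mul_single_apply_same, Matrix.single_mul_apply_same, mul_comm] at h1
    exact (mul_right_cancel₀ hc h1).symm

end scalar

variable (n : ℕ) (p : ℕ) [hp : Fact p.Prime]

theorem cast_injective : Function.Injective (fun t : ℕ => (t : Zi p)) := by
  intro a b hab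
  have h1 := congrArg (toR p) hab
  simpa using h1

theorem transvection_add' {ι : Type*} [Fintype ι] [DecidableEq ι] {A : Type*} [CommRing A]
    {i j : ι} (hij : i ≠ j) (a b : A) :
    SpecialLinearGroup.transvection hij a * SpecialLinearGroup.transvection hij b =
      SpecialLinearGroup.transvection hij (a + b) :=
  Subtype.ext (Matrix.transvection_mul_transvection_same i j hij a b)

/-- **ICC.** -/
theorem icc (hn : Odd n) (g : SpecialLinearGroup (Fin n) (Zi p)) (hg : g ≠ 1) :
    Set.Infinite {y : SpecialLinearGroup (Fin n) (Zi p) | ∃ h, y = h * g * h⁻¹} := by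
  have hdom : IsDomain (Zi p) :=
    Function.Injective.isDomain (toR p) (toR_injective p)
  intro hfin
  apply hg
  have key : ∀ i j : Fin n, ∀ hij : i ≠ j, (∀ k, k ≠ i → g.1 k i = 0) ∧ g.1 i i = g.1 j j := by
    intro i j hij
    have hmaps : MapsTo (fun t : ℕ => SpecialLinearGroup.transvection hij (t : Zi p) * g *
        (SpecialLinearGroup.transvection hij (t : Zi p))⁻¹) univ
        {y : SpecialLinearGroup (Fin n) (Zi p) | ∃ h, y = h * g * h⁻¹} :=
      fun t _ => ⟨_, rfl⟩
    obtain ⟨s, -, t, -, hst, heq⟩ := Set.infinite_univ.exists_ne_map_eq_of_mapsTo hmaps hfin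
    -- `x(s) g x(s)⁻¹ = x(t) g x(t)⁻¹`
    have hc : ((s : Zi p) - (t : Zi p)) ≠ 0 := by
      intro h0
      exact hst (cast_injective p (sub_eq_zero.1 h0))
    have h1 : SpecialLinearGroup.transvection hij ((s : Zi p) - (t : Zi p)) * g =
        g * SpecialLinearGroup.transvection hij ((s : Zi p) - (t : Zi p)) := by
      have e1 : SpecialLinearGroup.transvection hij ((s : Zi p) - (t : Zi p)) =
          (SpecialLinearGroup.transvection hij (t : Zi p))⁻¹ *
            SpecialLinearGroup.transvection hij (s : Zi p) := by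
        rw [eq_inv_mul_iff_mul_eq, transvection_add', add_sub_cancel]
      have heq' : SpecialLinearGroup.transvection hij (s : Zi p) * g *
        (SpecialLinearGroup.transvection hij (s : Zi p))⁻¹ =
        SpecialLinearGroup.transvection hij (t : Zi p) * g *
        (SpecialLinearGroup.transvection hij (t : Zi p))⁻¹ := heq
      have e2 : SpecialLinearGroup.transvection hij (s : Zi p) * g =
          SpecialLinearGroup.transvection hij (t : Zi p) * g *
          (SpecialLinearGroup.transvection hij (t : Zi p))⁻¹ *
          SpecialLinearGroup.transvection hij (s : Zi p) := by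
        rw [← heq']; group
      rw [e1, mul_assoc, e2]; group
    exact entries_of_commute hc (congrArg Subtype.val h1)
  obtain ⟨k, hk⟩ := hn
  have hpos : 0 < n := by omega
  set i0 : Fin n := ⟨0, hpos⟩
  have hscal : g.1 = Matrix.diagonal fun _ => g.1 i0 i0 := by
    ext i j
    by_cases hij : i = j
    · subst hij
      rw [Matrix.diagonal_apply_eq]
      by_cases h0 : i = i0
      · rw [h0]
      · exact (key i i0 h0).2
    · rw [Matrix.diagonal_apply_ne _ hij]
      exact (key j i (Ne.symm hij)).1 i hij
  have hdet : (g.1 i0 i0) ^ n = 1 := by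
    have h1 : g.1.det = 1 := g.2
    rw [hscal, Matrix.det_diagonal, Finset.prod_const, Finset.card_univ, Fintype.card_fin] at h1
    exact h1
  have h1 : g.1 i0 i0 = 1 := by
    apply toR_injective p
    rw [map_one]
    have h2 := congrArg (toR p) hdet
    rw [map_pow, map_one] at h2
    have hodd : Odd n := ⟨k, hk⟩
    exact (hodd.pow_injective (by simpa using h2))
  apply Subtype.ext
  rw [hscal, h1]
  exact Matrix.diagonal_one

theorem icc_Gam (hn : Odd n) (g : Gam n p) (hg : g ≠ 1) :
    Set.Infinite {y : Gam n p | ∃ h, y = h * g * h⁻¹} := by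
  obtain ⟨_, γ, rfl⟩ := g
  have hγ : γ ≠ 1 := by
    rintro rfl
    apply hg
    apply Subtype.ext
    exact map_one _
  have h1 := icc n p hn γ hγ
  refine Set.Infinite.mono ?_ (h1.image (f := fun x => (⟨dia n p x, x, rfl⟩ : Gam n p)) ?_)
  · rintro _ ⟨_, ⟨h, rfl⟩, rfl⟩
    refine ⟨⟨dia n p h, h, rfl⟩, ?_⟩
    apply Subtype.ext
    show dia n p (h * γ * h⁻¹) = dia n p h * dia n p γ * (dia n p h)⁻¹
    rw [map_mul, map_mul, map_inv]
  · intro a _ b _ hab
    exact dia_injective n p (congrArg Subtype.val hab)

end Vale.Agent.P092.H387
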