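import Vale.Agent.P092.H387.StA
import Vale.Agent.P092.H387.Ex7
import Vale.Agent.P092.H387.Ex9

/-!
P092 (helper387): `SL_n(ℤ[1/p])`, `n ≥ 3` odd, as an example for the statements of projects A and B.
-/

open Set Matrix Vale.Agent.P092.H160.St Vale.Agent.P092.H103.St Vale.Agent.P092.H515.St
  Vale.Agent.P092.SR.St

namespace Vale.Agent.P092.H387

variable (p : ℕ) [hp : Fact p.Prime]

theorem irrLattice_dia (m : ℕ) : IrrLattice (dia (m + 1) p) where
  inj := dia_injective (m + 1) p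
  lat := isLattice_Gam m p
  dense₁ := denseRange_map (ι := Fin (m + 1)) (toR p) (denseRange_toR p)
  dense₂ := denseRange_map (ι := Fin (m + 1)) (toP p) (denseRange_toP p)

theorem localProductLattice {n : ℕ} (hn : Odd n) (hn2 : 2 ≤ n) :
    PA.St.LocalProductLattice (SpecialLinearGroup (Fin n) (Zi p)) := by
  obtain ⟨m, rfl⟩ : ∃ m, n = m + 1 := ⟨n - 1, by omega⟩
  exact ⟨icc (m + 1) p hn, ℝ, ℚ_[p], inferInstance, inferInstance, m + 1, m + 1, dia (m + 1) p,
    inferInstance, inferInstance, .real (RingEquiv.refl ℝ) (fun _ => rfl), .ultra inferInstance,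
    hn2, hn2, irrLattice_dia p m⟩

/-- The second conjunct of `PA.St.Final1` follows from the first. -/
theorem final1_of (H : ∀ (Γ Λ : Type) [Group Γ] [Group Λ],
    PA.St.LocalProductLattice Γ → PA.St.LocalProductLattice Λ → ∀ θ : StarIso Γ Λ, Canonical θ) :
    PA.St.Final1 := by
  refine ⟨H, fun n m p q hn hm hn3 hm3 hp hq => ?_⟩
  have := Fact.mk hp
  have := Fact.mk hq
  have h1 := localProductLattice p hn (by omega)
  have h2 := localProductLattice q hm (by omega)
  refine ⟨fun hne => ⟨fun θ => ?_⟩, fun θ => H _ _ h1 h1 θ⟩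
  obtain ⟨δ, -⟩ := H _ _ h1 h2 θ
  obtain ⟨h3, h4⟩ := eq_of_equiv p q hn hm (by omega) δ
  exact hne (by rw [h3, h4])

/-- The second conjunct of `PA.St.FinalAll` follows from the first. -/
theorem finalAll_of (H : ∀ (Γ Λ : Type) [Group Γ] [Group Λ], PA.St.LocalProductLattice Γ →
    PA.St.LocalProductLattice Λ → ∀ (r : ℕ) (P : MOp r Λ), IsProj P →
      ∀ θ : CornerIso Γ Λ r P, mtr P = 1 ∧ CanonicalM θ) : PA.St.FinalAll := by
  refine ⟨H, fun n m p q hn hm hn3 hm3 hp hq r P hP θ => ?_⟩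
  have := Fact.mk hp
  have := Fact.mk hq
  have h1 := localProductLattice p hn (by omega)
  have h2 := localProductLattice q hm (by omega)
  obtain ⟨h5, h6⟩ := H _ _ h1 h2 r P hP θ
  obtain ⟨δ, -⟩ := id h6
  obtain ⟨h3, h4⟩ := eq_of_equiv p q hn hm (by omega) δ
  exact ⟨h3, h4, h5, h6⟩

/-- Project Q: `SL_n(ℤ[1/p])` is `W*`-superrigid. -/
theorem super_of (H : ∀ (Γ : Type) [Group Γ], PA.St.LocalProductLattice Γ → Super Γ) {n : ℕ}
    (hn : Odd n) (hn2 : 2 ≤ n) : Super (SpecialLinearGroup (Fin n) (Zi p)) :=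
  H _ (localProductLattice p hn hn2)

/-- Project Q: `SL_n(ℤ[1/p])` is `W*`-superrigid, all amplifications. -/
theorem superAll_of (H : ∀ (Γ : Type) [Group Γ], PA.St.LocalProductLattice Γ → SuperAll Γ) {n : ℕ}
    (hn : Odd n) (hn2 : 2 ≤ n) : SuperAll (SpecialLinearGroup (Fin n) (Zi p)) :=
  H _ (localProductLattice p hn hn2)

end Vale.Agent.P092.H387
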