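import Mathlib

/-!
P092 (helper387): the ring `ℤ[1/p]` in `ℝ` and in `ℚ_[p]`.
-/

open Set

namespace Vale.Agent.P092.H387

/-- The ring `ℤ[1/p]`. -/
abbrev Zi (p : ℕ) : Type := Localization.Away (p : ℤ)

variable (p : ℕ) [hp : Fact p.Prime]

theorem p_ne : (p : ℤ) ≠ 0 := by exact_mod_cast hp.out.ne_zero

/-- `ℤ[1/p] → ℝ` -/
noncomputable def toR : Zi p →+* ℝ :=
  IsLocalization.Away.lift (p : ℤ) (g := Int.castRingHom ℝ) (by
    rw [isUnit_iff_ne_zero]
    simpa using hp.out.ne_zero)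

/-- `ℤ[1/p] → ℚ_[p]` -/
noncomputable def toP : Zi p →+* ℚ_[p] :=
  IsLocalization.Away.lift (p : ℤ) (g := Int.castRingHom ℚ_[p]) (by
    rw [isUnit_iff_ne_zero]
    simpa using hp.out.ne_zero)

theorem isUnit_p : IsUnit ((p : ℕ) : Zi p) := by
  have h := IsLocalization.Away.algebraMap_isUnit (S := Zi p) (p : ℤ)
  simpa using h

theorem exists_rep (a : Zi p) : ∃ (k : ℕ) (m : ℤ), a * (p : Zi p) ^ k = (m : Zi p) := by
  obtain ⟨k, m, h⟩ := IsLocalization.Away.surj (p : ℤ) a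
  exact ⟨k, m, by simpa using h⟩

theorem exists_inv (k : ℕ) (m : ℤ) : ∃ a : Zi p, a * (p : Zi p) ^ k = (m : Zi p) := by
  obtain ⟨u, hu⟩ := (isUnit_p p).pow k
  exact ⟨(m : Zi p) * (↑u⁻¹ : Zi p), by rw [← hu, mul_assoc, Units.inv_mul, mul_one]⟩

theorem toR_rep {a : Zi p} {k : ℕ} {m : ℤ} (h : a * (p : Zi p) ^ k = (m : Zi p)) :
    toR p a * (p : ℝ) ^ k = m := by
  have := congrArg (toR p) h
  simpa using this

theorem toP_rep {a : Zi p} {k : ℕ} {m : ℤ} (h : a * (p : Zi p) ^ k = (m : Zi p)) :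
    toP p a * (p : ℚ_[p]) ^ k = m := by
  have := congrArg (toP p) h
  simpa using this

theorem toR_injective : Function.Injective (toR p) := by
  rw [injective_iff_map_eq_zero]
  intro a ha
  obtain ⟨k, m, h⟩ := exists_rep p a
  have h1 := toR_rep p h
  rw [ha, zero_mul] at h1
  have h2 : m = 0 := by exact_mod_cast h1.symm
  rw [h2, Int.cast_zero] at h
  exact ((isUnit_p p).pow k).mul_left_eq_zero.1 h

theorem toP_injective : Function.Injective (toP p) := by
  rw [injective_iff_map_eq_zero]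
  intro a ha
  obtain ⟨k, m, h⟩ := exists_rep p a
  have h1 := toP_rep p h
  rw [ha, zero_mul] at h1
  have h2 : m = 0 := by exact_mod_cast h1.symm
  rw [h2, Int.cast_zero] at h
  exact ((isUnit_p p).pow k).mul_left_eq_zero.1 h

/-- `ℤ[1/p] ∩ ℤ_p = ℤ`. -/
theorem exists_int {a : Zi p} (ha : ‖toP p a‖ ≤ 1) : ∃ m : ℤ, a = m := by
  obtain ⟨k, m, h⟩ := exists_rep p a
  have h1 := toP_rep p h
  have h2 : ‖((m : ℤ) : ℚ_[p])‖ ≤ (p : ℝ) ^ (-k : ℤ) := by
    rw [← h1, norm_mul, Padic.norm_p_pow]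
    have h3 : (0 : ℝ) ≤ (p : ℝ) ^ (-k : ℤ) := by positivity
    calc ‖toP p a‖ * (p : ℝ) ^ (-k : ℤ) ≤ 1 * (p : ℝ) ^ (-k : ℤ) :=
          mul_le_mul_of_nonneg_right ha h3
      _ = _ := one_mul _
  have h4 : ((p ^ k : ℕ) : ℤ) ∣ m := by
    have := (Padic.norm_int_le_pow_iff_dvd m k).1 h2
    simpa using this
  obtain ⟨c, hc⟩ := h4
  refine ⟨c, ?_⟩
  rw [hc] at h
  push_cast at h
  rw [mul_comm ((p : Zi p) ^ k)] at h
  exact ((isUnit_p p).pow k).mul_right_cancel h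

theorem denseRange_toR : DenseRange (toR p) := by
  have h : Dense ((toR p).toAddMonoidHom.range : Set ℝ) := by
    refine AddSubgroup.dense_of_not_isolated_zero _ fun ε hε => ?_
    have hp1 : (1 : ℝ) < p := by exact_mod_cast hp.out.one_lt
    obtain ⟨k, hk⟩ := exists_pow_lt_of_lt_one hε (inv_lt_one_of_one_lt₀ hp1)
    obtain ⟨a, ha⟩ := exists_inv p k 1
    have h1 := toR_rep p ha
    have h2 : toR p a = ((p : ℝ)⁻¹) ^ k := by
      rw [inv_pow]
      rw [Int.cast_one] at h1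
      exact eq_inv_of_mul_eq_one_left h1
    refine ⟨toR p a, ⟨a, rfl⟩, ?_, ?_⟩
    · rw [h2]; positivity
    · rw [h2]; exact hk
  exact h

theorem denseRange_toP : DenseRange (toP p) := by
  intro x
  have hx : x ∈ (toP p).range.topologicalClosure := by
    set S := (toP p).range.topologicalClosure with hS
    have hcl : IsClosed (S : Set ℚ_[p]) := (toP p).range.isClosed_topologicalClosure
    have hle : ∀ a : Zi p, toP p a ∈ S := fun a => (toP p).range.le_topologicalClosure ⟨a, rfl⟩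
    have hint : ∀ z : ℤ_[p], (z : ℚ_[p]) ∈ S := by
      intro z
      have hcl' : IsClosed {z : ℤ_[p] | (z : ℚ_[p]) ∈ S} := hcl.preimage continuous_subtype_val
      refine PadicInt.denseRange_intCast.induction_on z hcl' fun m => ?_
      have h0 := hle (m : Zi p)
      rw [map_intCast] at h0
      change (((m : ℤ_[p]) : ℚ_[p])) ∈ S
      rwa [PadicInt.coe_intCast]
    obtain ⟨k, hk⟩ : ∃ k : ℕ, ‖x * (p : ℚ_[p]) ^ k‖ ≤ 1 := by
      have hp1 : (1 : ℝ) < p := by exact_mod_cast hp.out.one_lt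
      obtain ⟨k, hk⟩ := pow_unbounded_of_one_lt ‖x‖ hp1
      refine ⟨k, ?_⟩
      rw [norm_mul, Padic.norm_p_pow, zpow_neg, zpow_natCast, ← div_eq_mul_inv]
      exact (div_le_one (by positivity)).2 hk.le
    have h1 : x * (p : ℚ_[p]) ^ k ∈ S := hint ⟨_, hk⟩
    obtain ⟨a, ha⟩ := exists_inv p k 1
    have h2 := toP_rep p ha
    rw [Int.cast_one] at h2
    have h3 := S.mul_mem h1 (hle a)
    have h4 : x * (p : ℚ_[p]) ^ k * toP p a = x := by
      rw [mul_assoc, mul_comm ((p : ℚ_[p]) ^ k), h2, mul_one]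
    rwa [h4] at h3
  exact hx

end Vale.Agent.P092.H387
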