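import Vale.Agent.P092.H387.Ex1
import Vale.Agent.P092.H387.Ex2

/-!
P092 (helper387): the compact open subgroup `SL_n(ℤ_p)`; the discrete subgroup `SL_n(ℤ[1/p])` of
`SL_n(ℝ) × SL_n(ℚ_p)`.
-/

open Set Matrix

namespace Vale.Agent.P092.H387

variable (n : ℕ) (p : ℕ) [hp : Fact p.Prime]

/-- `SL_n(ℝ)` -/
abbrev GR := SpecialLinearGroup (Fin n) ℝ
/-- `SL_n(ℚ_p)` -/
abbrev GP := SpecialLinearGroup (Fin n) ℚ_[p]

/-- `SL_n(ℤ_p)` in `SL_n(ℚ_p)` -/
noncomputable def Kp : Subgroup (GP n p) :=
  (SpecialLinearGroup.map (n := Fin n) (PadicInt.Coe.ringHom (p := p))).range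

theorem mem_Kp {g : GP n p} : g ∈ Kp n p ↔ ∀ i j, ‖g i j‖ ≤ 1 := by
  constructor
  · rintro ⟨h, rfl⟩ i j
    exact (h i j).2
  · intro hg
    let M : Matrix (Fin n) (Fin n) ℤ_[p] := fun i j => ⟨g i j, hg i j⟩
    have hM : M.map (PadicInt.Coe.ringHom (p := p)) = g.1 := rfl
    have hdet : M.det = 1 := by
      apply PadicInt.ext
      have h1 : PadicInt.Coe.ringHom (p := p) M.det = (M.map (PadicInt.Coe.ringHom (p := p))).det :=
        RingHom.map_det _ _
      rw [hM] at h1
      have h2 : g.1.det = 1 := g.2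
      rw [h2] at h1
      exact h1
    exact ⟨⟨M, hdet⟩, Subtype.ext hM⟩

theorem isOpen_Kp : IsOpen (Kp n p : Set (GP n p)) := by
  have h : (Kp n p : Set (GP n p)) = ⋂ i, ⋂ j, {g : GP n p | ‖g i j‖ ≤ 1} := by
    ext g
    simp only [SetLike.mem_coe, mem_iInter, mem_ofPred_eq]
    exact mem_Kp n p
  rw [h]
  refine isOpen_iInter_of_finite fun i => isOpen_iInter_of_finite fun j => ?_
  have h1 : IsOpen {x : ℚ_[p] | ‖x‖ ≤ 1} := by
    have := IsUltrametricDist.isOpen_closedBall (0 : ℚ_[p]) (r := 1) one_ne_zero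
    simpa [Metric.closedBall, dist_zero_right] using this
  refine h1.preimage ?_
  exact (continuous_apply_apply i j).comp continuous_subtype_val

theorem isCompact_Kp : IsCompact (Kp n p : Set (GP n p)) := by
  have hc : Continuous (SpecialLinearGroup.map (n := Fin n) (PadicInt.Coe.ringHom (p := p))) := by
    refine Continuous.subtype_mk ?_ _
    refine continuous_matrix fun i j => ?_
    exact continuous_subtype_val.comp ((continuous_apply_apply i j).comp continuous_subtype_val)
  have : CompactSpace (SpecialLinearGroup (Fin n) ℤ_[p]) := by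
    have h : Topology.IsClosedEmbedding
        ((↑) : SpecialLinearGroup (Fin n) ℤ_[p] → Matrix (Fin n) (Fin n) ℤ_[p]) :=
      Matrix.SpecialLinearGroup.isClosedEmbedding_val
    have : CompactSpace (Matrix (Fin n) (Fin n) ℤ_[p]) :=
      inferInstanceAs (CompactSpace (Fin n → Fin n → ℤ_[p]))
    exact h.compactSpace
  exact isCompact_range hc

/-- The diagonal map `SL_n(ℤ[1/p]) → SL_n(ℝ) × SL_n(ℚ_p)`. -/
noncomputable def dia : SpecialLinearGroup (Fin n) (Zi p) →* GR n × GP n p :=
  (SpecialLinearGroup.map (toR p)).prod (SpecialLinearGroup.map (toP p))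

theorem map_injective {R S : Type*} [CommRing R] [CommRing S] {f : R →+* S}
    (hf : Function.Injective f) : Function.Injective (SpecialLinearGroup.map (n := Fin n) f) := by
  intro a b h
  apply Subtype.ext
  ext i j
  have := congrArg (fun g : SpecialLinearGroup (Fin n) S => g i j) h
  exact hf this

theorem dia_injective : Function.Injective (dia n p) := by
  intro a b h
  exact map_injective n (toR_injective p) (congrArg Prod.fst h)

/-- The group `SL_n(ℤ[1/p])` in `SL_n(ℝ) × SL_n(ℚ_p)`. -/
noncomputable def Gam : Subgroup (GR n × GP n p) := (dia n p).range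

/-- `SL_n(ℤ[1/p]) ∩ SL_n(ℤ_p) = SL_n(ℤ)` -/
theorem exists_SLZ {γ : SpecialLinearGroup (Fin n) (Zi p)}
    (h : SpecialLinearGroup.map (toP p) γ ∈ Kp n p) :
    ∃ δ : SpecialLinearGroup (Fin n) ℤ, SpecialLinearGroup.map (Int.castRingHom (Zi p)) δ = γ := by
  rw [mem_Kp] at h
  choose m hm using fun i j => exists_int p (a := γ i j) (h i j)
  have hM : (Matrix.of m).map (Int.castRingHom (Zi p)) = γ.1 := by
    ext i j
    exact (hm i j).symm
  have hinj : Function.Injective (Int.castRingHom (Zi p)) := by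
    intro a b hab
    have h1 := congrArg (toR p) hab
    simpa using h1
  have hdet : (Matrix.of m).det = 1 := by
    apply hinj
    have h1 : Int.castRingHom (Zi p) (Matrix.of m).det =
        ((Matrix.of m).map (Int.castRingHom (Zi p))).det := RingHom.map_det _ _
    rw [h1, hM, map_one]
    exact γ.2
  exact ⟨⟨Matrix.of m, hdet⟩, Subtype.ext hM⟩

theorem toR_comp_int : (toR p).comp (Int.castRingHom (Zi p)) = Int.castRingHom ℝ :=
  RingHom.ext_int _ _

theorem toP_comp_int : (toP p).comp (Int.castRingHom (Zi p)) = Int.castRingHom ℚ_[p] :=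
  RingHom.ext_int _ _

instance instDiscGam : DiscreteTopology (Gam n p) := by
  apply discreteTopology_of_isOpen_singleton_one
  rw [isOpen_induced_iff]
  have h : {g : GR n × GP n p | ∀ i j, ‖g.1 i j - (1 : Matrix (Fin n) (Fin n) ℝ) i j‖ < 1} =
      ⋂ i, ⋂ j, {g : GR n × GP n p | ‖g.1 i j - (1 : Matrix (Fin n) (Fin n) ℝ) i j‖ < 1} := by
    ext g
    simp only [mem_iInter, mem_ofPred_eq]
  have hA : IsOpen {g : GR n × GP n p | ∀ i j,
      ‖g.1 i j - (1 : Matrix (Fin n) (Fin n) ℝ) i j‖ < 1} := by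
    rw [h]
    refine isOpen_iInter_of_finite fun i => isOpen_iInter_of_finite fun j => ?_
    refine isOpen_lt ?_ continuous_const
    have h1 : Continuous fun g : GR n × GP n p => (g.1 : Matrix (Fin n) (Fin n) ℝ) i j :=
      ((continuous_apply_apply i j).comp
        (continuous_subtype_val : Continuous fun g : GR n => (g : Matrix (Fin n) (Fin n) ℝ))).comp
        (continuous_fst : Continuous fun g : GR n × GP n p => g.1)
    exact (h1.sub continuous_const).norm
  refine ⟨_ ∩ _, hA.inter ((isOpen_Kp n p).preimage continuous_snd), ?_⟩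
  · ext ⟨g, hg⟩
    obtain ⟨γ, rfl⟩ := hg
    simp only [mem_preimage, mem_inter_iff, mem_ofPred_eq, mem_singleton_iff]
    constructor
    · rintro ⟨h1, h2⟩
      obtain ⟨δ, rfl⟩ := exists_SLZ n p h2
      have h3 : δ = 1 := by
        apply Subtype.ext
        ext i j
        have h4 := h1 i j
        have h5 : ((dia n p) (SpecialLinearGroup.map (Int.castRingHom (Zi p)) δ)).1 i j =
            ((δ i j : ℤ) : ℝ) := by
          have := RingHom.congr_fun (toR_comp_int p) (δ i j)
          exact this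
        rw [h5] at h4
        have h6 : (1 : Matrix (Fin n) (Fin n) ℝ) i j =
            (((1 : Matrix (Fin n) (Fin n) ℤ) i j : ℤ) : ℝ) := by
          rw [Matrix.one_apply, Matrix.one_apply]; split_ifs <;> simp
        rw [h6, ← Int.cast_sub, Real.norm_eq_abs, ← Int.cast_abs] at h4
        have h7 : |δ i j - (1 : Matrix (Fin n) (Fin n) ℤ) i j| < 1 := by exact_mod_cast h4
        have h8 := Int.abs_lt_one_iff.1 h7
        exact sub_eq_zero.1 h8
      rw [h3]
      apply Subtype.ext
      simp
    · intro h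
      have h1 : dia n p γ = 1 := congrArg Subtype.val h
      rw [h1]
      refine ⟨fun i j => ?_, (Kp n p).one_mem⟩
      simp

end Vale.Agent.P092.H387
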