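import Vale.Agent.P092.H387.Ex3

/-!
P092 (helper387): `SL_n(ℚ_p)` is unimodular.
-/

open Set Matrix MeasureTheory
open scoped NNReal ENNReal

namespace Vale.Agent.P092.H387

section conj

variable {ι : Type*} [Fintype ι] [DecidableEq ι] {k : Type*} [Field k]

theorem exists_dd (i j : ι) (hij : i ≠ j) (a : k) (ha : a ≠ 0) :
    ∃ d : SpecialLinearGroup ι k, d.1 = Matrix.diagonal (hd i j a) :=
  ⟨SpecialLinearGroup.transvection hij a * SpecialLinearGroup.transvection hij.symm (-a⁻¹)
        * SpecialLinearGroup.transvection hij a *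
        (SpecialLinearGroup.transvection hij (-1) * SpecialLinearGroup.transvection hij.symm 1 *
          SpecialLinearGroup.transvection hij (-1)), hd_eq i j hij a ha⟩

theorem dd_conj {i j : ι} (hij : i ≠ j) {a : k} (ha : a ≠ 0) (b : k)
    {d : SpecialLinearGroup ι k} (hd' : d.1 = Matrix.diagonal (hd i j a)) :
    d * SpecialLinearGroup.transvection hij b =
      SpecialLinearGroup.transvection hij (a * a * b) * d := by
  apply Subtype.ext
  change d.1 * Matrix.transvection i j b = Matrix.transvection i j (a * a * b) * d.1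
  rw [hd', Matrix.ext_iff_mulVec]
  intro v
  simp only [← Matrix.mulVec_mulVec, tr_mulVec]
  funext l
  rw [Matrix.mulVec_diagonal, hd]
  by_cases hi : l = i
  · subst hi
    simp [Matrix.mulVec_diagonal, Function.update_of_ne hij]
    field_simp
  · simp [Matrix.mulVec_diagonal, Function.update_of_ne hi]

end conj

variable (n : ℕ) (p : ℕ) [hp : Fact p.Prime]

instance instLCGP : LocallyCompactSpace (GP n p) := by
  have h : Topology.IsClosedEmbedding ((↑) : GP n p → Matrix (Fin n) (Fin n) ℚ_[p]) :=
    Matrix.SpecialLinearGroup.isClosedEmbedding_val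
  have : LocallyCompactSpace (Matrix (Fin n) (Fin n) ℚ_[p]) :=
    inferInstanceAs (LocallyCompactSpace (Fin n → Fin n → ℚ_[p]))
  exact h.locallyCompactSpace

instance instSCGP : SecondCountableTopology (GP n p) := by
  have h : Topology.IsClosedEmbedding ((↑) : GP n p → Matrix (Fin n) (Fin n) ℚ_[p]) :=
    Matrix.SpecialLinearGroup.isClosedEmbedding_val
  have : SecondCountableTopology (Matrix (Fin n) (Fin n) ℚ_[p]) :=
    inferInstanceAs (SecondCountableTopology (Fin n → Fin n → ℚ_[p]))
  exact h.isEmbedding.secondCountableTopology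

theorem mod_Kp {g : GP n p} (hg : g ∈ Kp n p) : Measure.modularCharacter g = 1 := by
  borelize (GP n p)
  set μ : Measure (GP n p) := Measure.haar with hμ
  have h1 := Measure.map_right_mul_eq_modularCharacterFun_smul μ g
  have hm : MeasurableSet (Kp n p : Set (GP n p)) := (isOpen_Kp n p).measurableSet
  have h2 : μ.map (· * g) (Kp n p : Set (GP n p)) = μ (Kp n p : Set (GP n p)) := by
    rw [Measure.map_apply (measurable_mul_const g) hm]
    congr 1
    ext x
    exact (Kp n p).mul_mem_cancel_right hg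
  rw [h1, Measure.smul_apply] at h2
  have hpos : μ (Kp n p : Set (GP n p)) ≠ 0 :=
    ((isOpen_Kp n p).measure_pos μ ⟨1, (Kp n p).one_mem⟩).ne'
  have hfin : μ (Kp n p : Set (GP n p)) ≠ ⊤ := (isCompact_Kp n p).measure_lt_top.ne
  have h3 : ((Measure.modularCharacterFun g : ℝ≥0) : ℝ≥0∞) * μ (Kp n p : Set (GP n p)) =
      1 * μ (Kp n p : Set (GP n p)) := by
    rw [one_mul]; exact h2
  have h4 := (ENNReal.mul_left_inj hpos hfin).1 h3
  exact_mod_cast h4

theorem mod_eq_one (g : GP n p) : Measure.modularCharacter g = 1 := by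
  have h : (Measure.modularCharacter (G := GP n p)).ker = ⊤ := by
    refine eq_top_of_transvection _ fun i j hij b => ?_
    rw [MonoidHom.mem_ker]
    obtain ⟨m, hm⟩ : ∃ m : ℕ, ‖(p : ℚ_[p]) ^ m * (p : ℚ_[p]) ^ m * b‖ ≤ 1 := by
      have hp1 : (1 : ℝ) < p := by exact_mod_cast hp.out.one_lt
      obtain ⟨m, hm⟩ := pow_unbounded_of_one_lt ‖b‖ hp1
      refine ⟨m, ?_⟩
      have h1 : ‖(p : ℚ_[p]) ^ m‖ ≤ 1 := by
        rw [Padic.norm_p_pow]
        exact zpow_le_one_of_nonpos₀ hp1.le (by simp)
      have h2 : ‖(p : ℚ_[p]) ^ m‖ * ‖b‖ ≤ 1 := by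
        rw [Padic.norm_p_pow, _root_.zpow_neg, zpow_natCast, mul_comm, ← div_eq_mul_inv]
        exact (div_le_one (by positivity)).2 hm.le
      rw [mul_assoc, norm_mul, norm_mul]
      calc ‖(p : ℚ_[p]) ^ m‖ * (‖(p : ℚ_[p]) ^ m‖ * ‖b‖) ≤ 1 * 1 :=
            mul_le_mul h1 h2 (by positivity) zero_le_one
        _ = 1 := one_mul 1
    have hp0 : (p : ℚ_[p]) ^ m ≠ 0 := pow_ne_zero _ (by exact_mod_cast hp.out.ne_zero)
    obtain ⟨d, hd'⟩ := exists_dd i j hij ((p : ℚ_[p]) ^ m) hp0
    have h1 := congrArg (Measure.modularCharacter (G := GP n p)) (dd_conj hij hp0 b hd')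
    rw [map_mul, map_mul, mul_comm] at h1
    have hpos : Measure.modularCharacter (G := GP n p) d ≠ 0 :=
      (Measure.modularCharacterFun_pos d).ne'
    have h2 := mul_right_cancel₀ hpos h1
    rw [h2]
    apply mod_Kp
    rw [mem_Kp]
    intro r s
    rw [SpecialLinearGroup.transvection_coe, Matrix.add_apply, Matrix.single_apply,
      Matrix.one_apply]
    split_ifs with h3 h4 h4
    · exact absurd (h4.1.trans (h3.trans h4.2.symm)) hij
    · simp
    · simpa using hm
    · simp
  have h2 : g ∈ (Measure.modularCharacter (G := GP n p)).ker := by rw [h]; exact Subgroup.mem_top g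
  exact h2

instance instRightInvGP [MeasurableSpace (GP n p)] [BorelSpace (GP n p)] :
    (Measure.haar : Measure (GP n p)).IsMulRightInvariant where
  map_mul_right_eq_self g := by
    have h1 := Measure.map_right_mul_eq_modularCharacterFun_smul (Measure.haar : Measure (GP n p)) g
    have h2 : Measure.modularCharacterFun g = 1 := mod_eq_one n p g
    rw [h1, h2, one_smul]

end Vale.Agent.P092.H387
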