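import Vale.Agent.P092.H387.Ex4
import Vale.Agent.P092.H19.Covol
import Vale.Agent.P092.H515.RkDef

/-!
P092 (helper387): `SL_n(ℤ[1/p])` is a lattice of `SL_n(ℝ) × SL_n(ℚ_p)`.
-/

open Set Matrix MeasureTheory
open scoped NNReal ENNReal

namespace Vale.Agent.P092.H387

open Vale.Agent.P092.H19

section real

variable (m : ℕ)

/-- An invariant measure on `SL_n(ℝ)` -/
noncomputable def muR [MeasurableSpace (En (m + 1))] : Measure (En (m + 1)) :=
  (volume.restrict (Om (m + 1))).map nrm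

variable [MeasurableSpace (En (m + 1))] [BorelSpace (En (m + 1))]

instance instSFinmuR : SFinite (muR m) := by
  unfold muR; infer_instance

theorem muR_apply {A : Set (En (m + 1))} (hA : MeasurableSet A) :
    muR m A = volume (nrm ⁻¹' A ∩ Om (m + 1)) := by
  rw [muR, Measure.map_apply measurable_nrm hA, Measure.restrict_apply (measurable_nrm hA)]

instance instLmuR : (muR m).IsMulLeftInvariant where
  map_mul_left_eq_self x := by
    ext A hA
    rw [Measure.map_apply (measurable_const_mul x) hA,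
      muR_apply m ((measurable_const_mul x) hA), muR_apply m hA,
      ← (mp_lm x).measure_preimage ((measurable_nrm hA).inter measurableSet_Om).nullMeasurableSet]
    congr 1
    ext g
    simp only [mem_inter_iff, mem_preimage, lm_mem_Om]
    constructor
    · rintro ⟨h1, h2⟩
      rw [nrm_lm x g h2.1]
      exact ⟨h1, h2⟩
    · rintro ⟨h1, h2⟩
      rw [nrm_lm x g h2.1] at h1
      exact ⟨h1, h2⟩

instance instRmuR : (muR m).IsMulRightInvariant where
  map_mul_right_eq_self x := by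
    ext A hA
    rw [Measure.map_apply (measurable_mul_const x) hA,
      muR_apply m ((measurable_mul_const x) hA), muR_apply m hA,
      ← (mp_rm x).measure_preimage ((measurable_nrm hA).inter measurableSet_Om).nullMeasurableSet]
    congr 1
    ext g
    simp only [mem_inter_iff, mem_preimage, rm_mem_Om]
    constructor
    · rintro ⟨h1, h2⟩
      rw [nrm_rm x g h2.1]
      exact ⟨h1, h2⟩
    · rintro ⟨h1, h2⟩
      rw [nrm_rm x g h2.1] at h1
      exact ⟨h1, h2⟩

/-- a fundamental domain of `SL_n(ℤ)` in `SL_n(ℝ)` -/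
theorem exists_fd : ∃ F : Set (En (m + 1)), MeasurableSet F ∧ muR m F ≠ 0 ∧ muR m F ≠ ⊤ ∧
    (∀ g : En (m + 1), ∃ k ∈ SLZ m, g * k ∈ F) ∧
    ∀ g ∈ F, ∀ k ∈ SLZ m, g * k ∈ F → k = 1 := by
  let _ : MeasurableSpace (En (m + 1) ⧸ SLZ m) := borel _
  have _ : BorelSpace (En (m + 1) ⧸ SLZ m) := ⟨rfl⟩
  have hc := countable_of_disc (SLZ m)
  obtain ⟨σ, hσm, hσ, -⟩ := Vale.Agent.P092.H790.exists_section (SLZ m)
  have hD := sectTile_tile (SLZ m) σ hσm hσ
  obtain ⟨S, hS, hSf, hcov⟩ := cover_SLZ m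
  have hfin := lt_of_le_of_lt (tile_le (SLZ m) hD hS hcov) hSf
  have hq : Measurable ((↑) : En (m + 1) → En (m + 1) ⧸ SLZ m) :=
    (continuous_quotient_mk').measurable
  have hT2 : T2Space (En (m + 1)) := inferInstance
  have hF : MeasurableSet {x : En (m + 1) | σ (x : En (m + 1) ⧸ SLZ m) = x} :=
    measurableSet_eq_fun (hσm.comp hq) measurable_id
  have e1 : muR m {x : En (m + 1) | σ (x : En (m + 1) ⧸ SLZ m) = x} =
      volume (sectTile (SLZ m) σ) := by
    rw [muR_apply m hF, inter_comm]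
    rfl
  have hk : ∀ g : En (m + 1), ∀ k ∈ SLZ m,
      ((g * k : En (m + 1)) : En (m + 1) ⧸ SLZ m) = (g : En (m + 1) ⧸ SLZ m) := by
    intro g k hk
    refine (QuotientGroup.eq.2 ?_).symm
    rwa [inv_mul_cancel_left]
  refine ⟨_, hF, ?_, ?_, fun g => ?_, fun g hg k hkm hgk => ?_⟩
  · rw [e1]; exact hD.pos
  · rw [e1]; exact hfin.ne
  · have h1 : g⁻¹ * σ (g : En (m + 1) ⧸ SLZ m) ∈ SLZ m :=
      QuotientGroup.eq.1 (hσ (g : En (m + 1) ⧸ SLZ m)).symm
    refine ⟨_, h1, ?_⟩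
    show σ ((g * (g⁻¹ * σ (g : En (m + 1) ⧸ SLZ m)) : En (m + 1)) : En (m + 1) ⧸ SLZ m) =
      g * (g⁻¹ * σ (g : En (m + 1) ⧸ SLZ m))
    rw [hk g _ h1, mul_inv_cancel_left]
  · have h1 : σ (g : En (m + 1) ⧸ SLZ m) = g := hg
    have h2 : σ ((g * k : En (m + 1)) : En (m + 1) ⧸ SLZ m) = g * k := hgk
    rw [hk g k hkm, h1] at h2
    exact (mul_eq_left.1 h2.symm)

end real

section lat

variable (m : ℕ) (p : ℕ) [hp : Fact p.Prime]

theorem exists_fd_Gam : ∃ (_ : MeasurableSpace (GR (m + 1) × GP (m + 1) p))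
    (_ : BorelSpace (GR (m + 1) × GP (m + 1) p)) (μ : Measure (GR (m + 1) × GP (m + 1) p))
    (D : Set (GR (m + 1) × GP (m + 1) p)), μ.IsMulLeftInvariant ∧ μ.IsMulRightInvariant ∧
    MeasurableSet D ∧ μ D ≠ 0 ∧ μ D ≠ ⊤ ∧ ∀ g : GR (m + 1) × GP (m + 1) p,
      ∃! k : Gam (m + 1) p, g * (k : GR (m + 1) × GP (m + 1) p) ∈ D := by
  borelize (GR (m + 1))
  borelize (GP (m + 1) p)
  obtain ⟨F, hF, hF0, hFt, hF1, hF2⟩ := exists_fd m
  refine ⟨inferInstance, inferInstance, (muR m).prod Measure.haar,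
    F ×ˢ (Kp (m + 1) p : Set (GP (m + 1) p)), inferInstance, inferInstance,
    hF.prod (isOpen_Kp _ _).measurableSet, ?_, ?_, fun g => ?_⟩
  · rw [Measure.prod_prod]
    exact mul_ne_zero hF0 ((isOpen_Kp _ p).measure_pos _ ⟨1, (Kp _ p).one_mem⟩).ne'
  · rw [Measure.prod_prod]
    exact ENNReal.mul_ne_top hFt (isCompact_Kp _ p).measure_lt_top.ne
  · obtain ⟨g1, g2⟩ := g
    -- an element of the group with second component in the compact open subgroup
    obtain ⟨γ, hγ⟩ : ∃ γ : SpecialLinearGroup (Fin (m + 1)) (Zi p),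
        g2 * SpecialLinearGroup.map (toP p) γ ∈ Kp (m + 1) p := by
      have ho : IsOpen ((fun x => g2 * x) ⁻¹' (Kp (m + 1) p : Set (GP (m + 1) p))) :=
        (isOpen_Kp _ p).preimage (by fun_prop)
      obtain ⟨γ, hγ⟩ := (denseRange_map (ι := Fin (m + 1)) (toP p)
        (denseRange_toP p)).exists_mem_open ho ⟨g2⁻¹, by
          simp [(Kp (m + 1) p).one_mem]⟩
      exact ⟨γ, hγ⟩
    have hint : ∀ δ : SpecialLinearGroup (Fin (m + 1)) ℤ,
        SpecialLinearGroup.map (toR p) (SpecialLinearGroup.map (Int.castRingHom (Zi p)) δ) =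
        SpecialLinearGroup.map (Int.castRingHom ℝ) δ := by
      intro δ
      apply Subtype.ext
      ext i j
      exact RingHom.congr_fun (toR_comp_int p) (δ i j)
    have hint' : ∀ δ : SpecialLinearGroup (Fin (m + 1)) ℤ,
        SpecialLinearGroup.map (toP p) (SpecialLinearGroup.map (Int.castRingHom (Zi p)) δ) ∈
        Kp (m + 1) p := by
      intro δ
      rw [mem_Kp]
      intro i j
      have h1 : (SpecialLinearGroup.map (toP p) (SpecialLinearGroup.map
          (Int.castRingHom (Zi p)) δ)) i j = ((δ i j : ℤ) : ℚ_[p]) :=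
        RingHom.congr_fun (toP_comp_int p) (δ i j)
      rw [h1]
      exact Padic.norm_int_le_one _
    obtain ⟨k, ⟨δ, rfl⟩, hk⟩ := hF1 (g1 * SpecialLinearGroup.map (toR p) γ)
    refine ⟨⟨dia (m + 1) p (γ * SpecialLinearGroup.map (Int.castRingHom (Zi p)) δ), ⟨_, rfl⟩⟩,
      ⟨?_, ?_⟩, ?_⟩
    · show g1 * SpecialLinearGroup.map (toR p)
        (γ * SpecialLinearGroup.map (Int.castRingHom (Zi p)) δ) ∈ F
      rw [map_mul, hint, ← mul_assoc]
      exact hk
    · show g2 * SpecialLinearGroup.map (toP p)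
        (γ * SpecialLinearGroup.map (Int.castRingHom (Zi p)) δ) ∈ Kp (m + 1) p
      rw [map_mul, ← mul_assoc]
      exact (Kp (m + 1) p).mul_mem hγ (hint' δ)
    · rintro ⟨_, ⟨γ', rfl⟩⟩ ⟨h1, h2⟩
      have h1' : g1 * SpecialLinearGroup.map (toR p) γ' ∈ F := h1
      have h2' : g2 * SpecialLinearGroup.map (toP p) γ' ∈ Kp (m + 1) p := h2
      obtain ⟨γ0, hγ0⟩ : ∃ γ0, γ0 = γ * SpecialLinearGroup.map (Int.castRingHom (Zi p)) δ := ⟨_, rfl⟩
      rw [← hγ0]
      have h3 : SpecialLinearGroup.map (toP p) (γ0⁻¹ * γ') ∈ Kp (m + 1) p := by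
        have h4 : g2 * SpecialLinearGroup.map (toP p) γ0 ∈ Kp (m + 1) p := by
          rw [hγ0, map_mul, ← mul_assoc]
          exact (Kp (m + 1) p).mul_mem hγ (hint' δ)
        have h5 := (Kp (m + 1) p).mul_mem ((Kp (m + 1) p).inv_mem h4) h2'
        have h6 : (g2 * SpecialLinearGroup.map (toP p) γ0)⁻¹ *
            (g2 * SpecialLinearGroup.map (toP p) γ') =
            SpecialLinearGroup.map (toP p) (γ0⁻¹ * γ') := by
          rw [map_mul (SpecialLinearGroup.map (toP p)) γ0⁻¹ γ', map_inv]; group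
        rwa [h6] at h5
      obtain ⟨δ', hδ'⟩ := exists_SLZ (m + 1) p h3
      have h7 : g1 * SpecialLinearGroup.map (toR p) γ0 ∈ F := by
        rw [hγ0, map_mul, hint, ← mul_assoc]
        exact hk
      have h8 := hF2 _ h7 (SpecialLinearGroup.map (Int.castRingHom ℝ) δ') ⟨δ', rfl⟩ (by
        rw [← hint, hδ', map_mul (SpecialLinearGroup.map (toR p)) γ0⁻¹ γ', map_inv, mul_assoc,
          mul_inv_cancel_left]
        exact h1')
      have h9 : γ0⁻¹ * γ' = 1 := by
        apply map_injective (m + 1) (toR_injective p)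
        rw [← hδ', hint, h8, map_one]
      have h10 : γ' = γ0 := (inv_mul_eq_one.1 h9).symm
      apply Subtype.ext
      show dia (m + 1) p γ' = dia (m + 1) p γ0
      rw [h10]

end lat

end Vale.Agent.P092.H387
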