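import Vale.Agent.P092.H387.Ex5

/-!
P092 (helper387): from a fundamental domain of finite measure to `IsLattice`; the final statements
for `SL_n(ℤ[1/p])`.
-/

open Set Matrix MeasureTheory
open scoped NNReal ENNReal Pointwise

namespace Vale.Agent.P092.H387

open Vale.Agent.P092.H515.St (IsLattice)

theorem isLattice_of_fd {E : Type} [Group E] [TopologicalSpace E] [IsTopologicalGroup E]
    [SecondCountableTopology E]
    [MeasurableSpace E] [BorelSpace E] (Λ : Subgroup E) [DiscreteTopology Λ] [Countable Λ]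
    (μ : Measure E) [μ.IsMulLeftInvariant] [μ.IsMulRightInvariant] {D : Set E}
    (hD : MeasurableSet D) (h0 : μ D ≠ 0) (ht : μ D ≠ ⊤) (h : ∀ g : E, ∃! k : Λ, g * (k : E) ∈ D) :
    IsLattice Λ := by
  refine ⟨inferInstance, ?_⟩
  let _ : MeasurableSpace (E ⧸ Λ) := borel _
  have hB : BorelSpace (E ⧸ Λ) := ⟨rfl⟩
  have hq : Measurable ((↑) : E → E ⧸ Λ) := (continuous_quotient_mk').measurable
  have hfd : IsFundamentalDomain Λ.op D μ := by
    refine IsFundamentalDomain.mk' hD.nullMeasurableSet fun x => ?_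
    obtain ⟨k, hk, hu⟩ := h x
    refine ⟨⟨MulOpposite.op (k : E), k.2⟩, hk, ?_⟩
    rintro ⟨l, hl⟩ hl'
    have h1 := hu ⟨MulOpposite.unop l, hl⟩ hl'
    apply Subtype.ext
    show l = MulOpposite.op (k : E)
    rw [← h1]
    rfl
  have hc : Countable Λ.op := by
    have e : Function.Injective fun l : Λ.op => (⟨MulOpposite.unop l.1, l.2⟩ : Λ) := by
      intro a b hab
      apply Subtype.ext
      exact MulOpposite.unop_injective (congrArg Subtype.val hab)
    exact e.countable
  refine ⟨(μ.restrict D).map ((↑) : E → E ⧸ Λ), ?_, ?_, fun g s hs => ?_⟩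
  · intro h1
    have h2 := congrArg (fun ν : Measure (E ⧸ Λ) => ν univ) h1
    simp only [Measure.map_apply hq MeasurableSet.univ, preimage_univ, Measure.restrict_apply_univ,
      Measure.coe_zero, Pi.zero_apply] at h2
    exact h0 h2
  · rw [Measure.map_apply hq MeasurableSet.univ, preimage_univ, Measure.restrict_apply_univ]
    exact ht.lt_top
  · have hgm : Measurable fun y : E ⧸ Λ => g • y := (continuous_const_smul g).measurable
    have hs' : MeasurableSet ((fun y : E ⧸ Λ => g • y) ⁻¹' s) := hgm hs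
    rw [Measure.map_apply hq hs', Measure.map_apply hq hs, Measure.restrict_apply (hq hs'),
      Measure.restrict_apply (hq hs)]
    have h2 : IsFundamentalDomain Λ.op (g • D) μ := hfd.smul_of_comm g
    have h3 := hfd.measure_set_eq h2 (A := ((↑) : E → E ⧸ Λ) ⁻¹' s) (hq hs) (by
      rintro ⟨l, hl⟩
      ext x
      have hl' : MulOpposite.unop l ∈ Λ := hl
      have e1 : ((x * MulOpposite.unop l : E) : E ⧸ Λ) = (x : E ⧸ Λ) := by
        refine (QuotientGroup.eq.2 ?_).symm
        rwa [inv_mul_cancel_left]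
      show ((x * MulOpposite.unop l : E) : E ⧸ Λ) ∈ s ↔ (x : E ⧸ Λ) ∈ s
      rw [e1])
    have h4 := measure_preimage_mul μ g (((↑) : E → E ⧸ Λ) ⁻¹' s ∩ g • D)
    rw [h3, ← h4]
    congr 1
    ext x
    simp only [mem_inter_iff, mem_preimage]
    refine and_congr Iff.rfl ?_
    rw [← smul_eq_mul, Set.smul_mem_smul_set_iff]

section final

variable (m : ℕ) (p : ℕ) [hp : Fact p.Prime]

/-- **`SL_n(ℤ[1/p])` is a lattice of `SL_n(ℝ) × SL_n(ℚ_p)`.** -/
theorem isLattice_Gam : IsLattice (Gam (m + 1) p) := by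
  obtain ⟨_, _, μ, D, h1, h2, hD, h0, ht, h⟩ := exists_fd_Gam m p
  have hc : Countable (Gam (m + 1) p) :=
    TopologicalSpace.separableSpace_iff_countable.1 inferInstance
  exact isLattice_of_fd (Gam (m + 1) p) μ hD h0 ht h

variable (n : ℕ)

/-- The first projection is injective on the lattice. -/
theorem injective_fst : Function.Injective fun g : Gam n p => (g : GR n × GP n p).1 := by
  rintro ⟨_, a, rfl⟩ ⟨_, b, rfl⟩ h
  have h1 : SpecialLinearGroup.map (toR p) a = SpecialLinearGroup.map (toR p) b := h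
  rw [map_injective n (toR_injective p) h1]

/-- The second projection is injective on the lattice. -/
theorem injective_snd : Function.Injective fun g : Gam n p => (g : GR n × GP n p).2 := by
  rintro ⟨_, a, rfl⟩ ⟨_, b, rfl⟩ h
  have h1 : SpecialLinearGroup.map (toP p) a = SpecialLinearGroup.map (toP p) b := h
  rw [map_injective n (toP_injective p) h1]

/-- The first projection of the lattice is dense. -/
theorem dense_fst : DenseRange fun g : Gam n p => (g : GR n × GP n p).1 := by
  refine (denseRange_map (ι := Fin n) (toR p) (denseRange_toR p)).mono ?_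
  rintro _ ⟨γ, rfl⟩
  exact ⟨⟨dia n p γ, γ, rfl⟩, rfl⟩

/-- The second projection of the lattice is dense. -/
theorem dense_snd : DenseRange fun g : Gam n p => (g : GR n × GP n p).2 := by
  refine (denseRange_map (ι := Fin n) (toP p) (denseRange_toP p)).mono ?_
  rintro _ ⟨γ, rfl⟩
  exact ⟨⟨dia n p γ, γ, rfl⟩, rfl⟩

/-- `SL_n(ℤ[1/p])` as an abstract group. -/
noncomputable def gamEquiv : SpecialLinearGroup (Fin n) (Zi p) ≃* Gam n p :=
  MonoidHom.ofInjective (dia_injective n p)

end final

end Vale.Agent.P092.H387
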