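import Vale.Agent.P092.SN.Blocks2
import Vale.Agent.P092.SD.Flip
import Vale.Agent.P092.H859.TwN
import Vale.Agent.P092.H859.ExN
import Vale.Agent.P092.H725.SN.LegB
import Vale.Agent.P092.H776.NG6
import Vale.Agent.P092.H458.Size
import Vale.Agent.P092.H100.GrN
import Vale.Agent.P092.H387.Pl1

/-!
P092 (helper387), TEAM N, [N-EX] for any admissible source group `E`: the assembly of `SN.LegN` for
both legs of the concrete picture over a lattice of `E`, and `SN.ExStmt`, from the tightness `Pos`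
alone; the instances `SL_n(k)`, `PSL_n(k)`.
-/

set_option linter.all false

open scoped InnerProductSpace ENNReal LinearAlgebra.Projectivization
open Filter Topology ContinuousLinearMap MeasureTheory TopologicalSpace

namespace Vale.Agent.P092.H387.Ex

open Vale.Agent.P092.RC (Pic Moore Cm GG PG YY y0 ct KK pic lam₁ lam₂ XX Om)
open Vale.Agent.P092.SN (CY nm NW Att act PH UD NWA NWS EFam Adm bw Prv inc LegN ExStmt)
open Vale.Agent.P092.H368.SN (Ad0 ad0_of Cz)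
open Vale.Agent.P092.H35 (sp)
open Vale.Agent.P092.H100.Gr (Gr)
open Vale.Agent.P092.H644.PGr (tauP tauP_tauP)
open Vale.Agent.P092.H76.Pur (NIS)
open Vale.Agent.P092.H933 (LocK)

/-! ### No invariant states -/

section nis

open Vale.Agent.P092.H514.NI (tr no_inv Covol toC)

variable {k : Type} [NontriviallyNormedField k] [ProperSpace k] {N : ℕ} {E : Type} [Group E]
  [TopologicalSpace E] [IsTopologicalGroup E]

/-- **No invariant state on the subspaces**, for a subgroup of finite covolume of a group which acts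
through `PGL_n(k)` and contains a copy of `SL_n(k)`. -/
theorem nis_E {a : E →* PG k (N + 1)} (ha : Continuous a) (s : GG k N →* E)
    (hs : ∀ g, a (s g) = sp k (N + 1) g) (Γ : Subgroup E) (hΓ : Covol Γ) {q : Γ → GG k N}
    (hq : ∀ γ : Γ, sp k (N + 1) (q γ) = a γ) {d : ℕ} (hd : 0 < d) (hdn : d < N + 1) :
    NIS fun (γ : Γ) (y : Gr k (Fin (N + 1)) d) => q γ • y := by
  classical
  intro φ h0 h1 hinv
  let ψ : C(Gr k (Fin (N + 1)) d, ℝ) →ₗ[ℝ] ℝ :=
    { toFun := fun F => (φ (toC F)).re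
      map_add' := fun F G => by
        have : toC (F + G) = toC F + toC G := by ext x; simp [toC]
        rw [this, map_add, Complex.add_re]
      map_smul' := fun c F => by
        have : toC (c • F) = (c : ℂ) • toC F := by ext x; simp [toC]
        rw [this, map_smul]
        simp }
  obtain ⟨F, x, y, T, hF, hab, hT⟩ := H100.Gr.exists_data' (k := k) (ι := Fin (N + 1)) (d := d) hd
    (by rw [Fintype.card_fin]; exact hdn)
  have hact : ∀ (g : GG k N) (L : Gr k (Fin (N + 1)) d), a (s g) • L = g • L := by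
    intro g L
    rw [hs]
    rfl
  have hact' : ∀ (γ : Γ) (L : Gr k (Fin (N + 1)) d), a γ • L = q γ • L := by
    intro γ L
    rw [← hq]
    rfl
  obtain ⟨ν, hν0, hνf, hν⟩ := hΓ
  refine no_inv a ha Γ ν hν0 hνf hν ((T.card : ℝ) • F) (fun L => ?_) (s x) (s y) (fun L => ?_)
    (T.image s) (fun L => ?_) ψ (fun G hG => ?_) ?_ (fun γ hγ G => ?_)
  · exact mul_nonneg (Nat.cast_nonneg _) (hF L)
  · change (T.card : ℝ) * F (a (s x) • L) + (T.card : ℝ) * F (a (s y) • L) ≤ (T.card : ℝ) * F L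
    rw [hact, hact, ← mul_add]
    exact mul_le_mul_of_nonneg_left (hab L) (Nat.cast_nonneg _)
  · refine (hT L).trans ?_
    change ∑ g ∈ T, F (g • L) ≤ ∑ e ∈ T.image s, (T.card : ℝ) * F (a e • L)
    rw [← Finset.mul_sum]
    have h5 : ∀ g ∈ T, F (g • L) ≤ ∑ e ∈ T.image s, F (a e • L) := by
      intro g hg
      rw [← hact]
      exact Finset.single_le_sum (f := fun e => F (a e • L)) (fun e _ => hF _)
        (Finset.mem_image_of_mem s hg)
    refine (Finset.sum_le_card_nsmul T _ _ h5).trans (le_of_eq ?_)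
    rw [nsmul_eq_mul]
  · let R : C(Gr k (Fin (N + 1)) d, ℝ) := ⟨fun x => Real.sqrt (G x), G.continuous.sqrt⟩
    have e : toC G = star (toC R) * toC R := by
      ext x
      simp only [toC, ContinuousMap.coe_mk, ContinuousMap.mul_apply,
        ContinuousMap.star_apply, Complex.star_def, Complex.conj_ofReal, ← Complex.ofReal_mul, R]
      exact congrArg _ (Real.mul_self_sqrt (hG x)).symm
    change 0 ≤ (φ (toC G)).re
    rw [e]
    exact h0 _
  · have : toC (1 : C(Gr k (Fin (N + 1)) d, ℝ)) = 1 := by ext x; simp [toC]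
    change (φ (toC 1)).re = 1
    rw [this, h1, Complex.one_re]
  · change (φ (toC (tr G (a γ)))).re = (φ (toC G)).re
    congr 1
    refine (hinv ⟨γ, hγ⟩ (toC (tr G (a γ))) (toC G) fun L => ?_).symm
    change ((G (q ⟨γ, hγ⟩ • L) : ℝ) : ℂ) = ((G (a γ • L) : ℝ) : ℂ)
    rw [← hact' ⟨γ, hγ⟩ L]

end nis

/-! ### Change of the sets of bounded elements -/

section chg

variable {k : Type} [NontriviallyNormedField k] [ProperSpace k] {N : ℕ} {E Γ K : Type} [Group E]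
  [Group Γ] [NormedAddCommGroup K] [InnerProductSpace ℂ K] [CompleteSpace K]
  {w : kˣ} {ι : GG k N →* E} {a : E →* PG k (N + 1)} {π : E →* (K →L[ℂ] K)}
  {lam : Γ →* (K →L[ℂ] K)} {W : Set (K →L[ℂ] K)} {Ω : K} {m : Set Γ → (K →L[ℂ] K)}
  {q : Γ → GG k N} {Z Z' : ℝ → Set Γ} {F : YY k N → (CY k N →⋆ₐ[ℂ] (K →L[ℂ] K))}

theorem efam_mono (hM : SD.Ms lam W Ω m) (hZ : ∀ R, Z R ⊆ Z' R)
    (h : EFam w ι a π lam W m q Z F) : EFam w ι a π lam W m q Z' F where
  cm := h.cm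
  cov := h.cov
  pcov := h.pcov
  dom g u A hA hu ζ ε hε := by
    obtain ⟨R, hR⟩ := h.dom g u A hA hu ζ ε hε
    refine ⟨R, fun T hT => ?_⟩
    filter_upwards [hR T hT] with t ht
    refine ht.trans (add_le_add_left (mul_le_mul_of_nonneg_left (H458.Size.ms_mono hM ?_ _)
      (norm_nonneg _)) _)
    rintro γ ⟨h1, h2, h3⟩
    exact ⟨hZ _ h1, h2, h3⟩
  agr := h.agr

theorem nws_mono (hM : SD.Ms lam W Ω m) (hZ : ∀ R, Z R ⊆ Z' R) (h : NWS w ι π Ω m q Z) :
    NWS w ι π Ω m q Z' := by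
  intro g ε hε
  obtain ⟨R, hR⟩ := h g ε hε
  refine ⟨R, fun t => (H458.Size.ms_mono hM ?_ _).trans (hR t)⟩
  intro γ hγ hc
  exact hγ ⟨hZ _ hc.1, hc.2⟩

theorem legN_univ [TopologicalSpace E] [MeasurableSpace k] {μ : Measure k}
    {a' : E →* PG k (N + 1)} {Ec : YY k N → (CY k N →⋆ₐ[ℂ] (K →L[ℂ] K))}
    (h : LegN μ w ι a a' π lam W Ω m q Z Ec F)
    (hf : ∀ C : ℝ, {γ : Γ | nm (q γ) ≤ C}.Finite) :
    LegN μ w ι a a' π lam W Ω m q (fun _ => Set.univ) Ec F :=
  { h with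
    zm := fun _ _ _ => le_rfl
    ud := fun _ => Ad.ud_of_fin h.ph hf _
    nws := nws_mono h.ms (fun _ => Set.subset_univ _) h.nws
    nws' := nws_mono h.ms (fun _ => Set.subset_univ _) h.nws'
    e := efam_mono h.ms (fun _ => Set.subset_univ _) h.e
    f := efam_mono h.ms (fun _ => Set.subset_univ _) h.f }

end chg

/-! ### The first leg of the concrete picture -/

section con

open Vale.Agent.P092.SR Vale.Agent.P092.H160
open Vale.Agent.P092.H859.TgN (Tg g1 g2 ZZ)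
open Vale.Agent.P092.H859.ExN (PosO leg_first)
open Vale.Agent.P092.H933 (LeviGap)

variable {k : Type} [NontriviallyNormedField k] [ProperSpace k] {N : ℕ}
  {E : Type} [Group E] [TopologicalSpace E] [IsTopologicalGroup E] [LocallyCompactSpace E]
  [SecondCountableTopology E] [T2Space E] [MeasurableSpace E] [BorelSpace E]
  {Γ : Subgroup E} [DiscreteTopology Γ] [Countable Γ] [MeasurableSpace (E ⧸ Γ)]
  [BorelSpace (E ⧸ Γ)] {ν : Measure (E ⧸ Γ)} [IsProbabilityMeasure ν]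
  (hν : ∀ g : E, ν.map (fun x => g • x) = ν)
  {Λ : Type} [Group Λ] [Countable Λ] {α : Γ →* (Ell2 Λ →L[ℂ] Ell2 Λ)} (hα : Frame α)
  (hΛ : ∀ g : Λ, g ≠ 1 → Set.Infinite {y : Λ | ∃ h, y = h * g * h⁻¹})

/-- finite covolume -/
theorem covol_of (hν : ∀ g : E, ν.map (fun x => g • x) = ν) : H514.NI.Covol Γ := by
  have e : (inferInstance : MeasurableSpace (E ⧸ Γ)) = borel (E ⧸ Γ) :=
    BorelSpace.measurable_eq
  have h1 : ∀ g : E, Measurable fun x : E ⧸ Γ => g • x := fun g =>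
    (continuous_const_smul g).measurable
  have h2 : ∃ m : Measure (E ⧸ Γ), m ≠ 0 ∧ m Set.univ < ⊤ ∧
      ∀ g : E, ∀ s : Set (E ⧸ Γ), MeasurableSet s → m ((fun x => g • x) ⁻¹' s) = m s := by
    refine ⟨ν, IsProbabilityMeasure.ne_zero ν, measure_lt_top _ _, fun g s hs => ?_⟩
    rw [← Measure.map_apply (h1 g) hs, hν]
  unfold H514.NI.Covol
  subst e
  exact h2

/-- a source group is not compact -/
theorem noncompact_of_adm {k : Type} [NontriviallyNormedField k] {N : ℕ} {E : Type} [Group E]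
    [TopologicalSpace E] {ι : GG k N →* E} {a a' : E →* PG k (N + 1)} (h : Adm ι a a') :
    NoncompactSpace E := by
  obtain ⟨w, hw0, hw1⟩ := NormedField.exists_norm_lt_one k
  have hw : w ≠ 0 := norm_pos_iff.1 hw0
  have h1 := H368.SN.pow_cocompact h (w := Units.mk0 w hw) hw1
  rw [← Filter.cocompact_neBot_iff]
  exact h1.neBot

theorem tg_of {Γ : Type} [Group Γ] {q : Γ → GG k N} (hq : PH q)
    (hd : ∀ C : ℝ, {γ : Γ | nm (q γ) ≤ C}.Finite) : Tg q fun _ => 0 where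
  ph := hq
  siz := H337.NG.siz_zero
  inv := ⟨0, fun g => by simp⟩
  fin := fun R => (hd R).subset fun γ hγ => hγ.1

theorem fin_ct {Γ : Type} [Group Γ] {q : Γ → GG k N} (hq : PH q)
    (hd : ∀ C : ℝ, {γ : Γ | nm (q γ) ≤ C}.Finite) (C : ℝ) :
    {γ : Γ | nm (ct (q γ)) ≤ C}.Finite := by
  refine ((tg_of hq hd).dual.fin (max C 0)).subset fun γ hγ => ⟨?_, le_max_right _ _⟩
  exact le_trans (show nm (ct (q γ)) ≤ C from hγ) (le_max_left _ _)

/-- The tightness of the middle gaps along the wall element and its inverse: the input of the type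
dichotomy. -/
def PosE (hν : ∀ g : E, ν.map (fun x => g • x) = ν) (hα : Frame α) (b : E) (q : Γ → GG k N) :
    Prop :=
  PosO hν hα (g2 q fun _ => 0) (g2 (fun γ => ct (q γ)) fun _ => 0) b ∧
    PosO hν hα (g2 q fun _ => 0) (g2 (fun γ => ct (q γ)) fun _ => 0) b⁻¹

include hΛ in
/-- **Leg 1 over any admissible source group**, from the tightness. -/
theorem leg₁ [MeasurableSpace k] [BorelSpace k] {μ : Measure k} [μ.IsAddHaarMeasure]
    (hk : LocK k) {ι : GG k N →* E} {a a' : E →* PG k (N + 1)} (hA : Adm ι a a') {w : kˣ}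
    (hw : ‖(w : k)‖ < 1) (hz : Cz w ι a a') (hL : LeviGap (ι (bw w))) {q : Γ → GG k N}
    (hq : ∀ γ : Γ, sp k (N + 1) (q γ) = a γ) (hd : ∀ C : ℝ, {γ : Γ | nm (q γ) ≤ C}.Finite)
    (hp : PosE hν hα (ι (bw w)) q) :
    ∃ (q' : Γ → GG k N) (Ec F : YY k N → (CY k N →⋆ₐ[ℂ] (KK ν Λ →L[ℂ] KK ν Λ))),
      (q' = q ∨ q' = fun γ => ct (q γ)) ∧
      LegN μ w ι a a' (pic hν hα) (lam₁ ν α) (XX ν Λ ∪ Set.range (lam₂ ν α)) (Om ν Λ)
        (H103.mS₁ ν hα) q' (fun _ => Set.univ) Ec F := by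
  have hN : 2 ≤ N := hA.hN
  have hA0 := ad0_of hA
  have hph : PH q := Ad.ph_of_hom q (a.comp Γ.subtype) hq
  have hT := tg_of hph hd
  haveI := noncompact_of_adm hA
  obtain ⟨Br, -, -, hB₁, hB₂, nrm⟩ := H776.NG.exists_regular_one hν hα hk (by omega) ι a hA.cι
    hA.ca hA.comp hw q hph hd
  have hcov := covol_of hν
  have hs : ∀ g, a (ι g) = sp k (N + 1) g := hA0.a_ι
  -- the dual of `a` on the lattice
  have hq' : ∀ γ : Γ, sp k (N + 1) (ct (q γ)) = tauP k (N + 1) (a γ) := fun γ => by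
    rw [← hq]
    exact H644.PGr.tauP_can (g := q γ) (g' := ct (q γ)) rfl
  have n1 : ∀ d, 1 ≤ d → d ≤ N → NIS fun (γ : Γ) (y : Gr k (Fin (N + 1)) d) => q γ • y :=
    fun d h1 h2 => nis_E hA.ca ι hs Γ hcov hq h1 (by omega)
  have n2 : ∀ d, 1 ≤ d → d ≤ N → NIS fun (γ : Γ) (y : Gr k (Fin (N + 1)) d) => ct (q γ) • y :=
    fun d h1 h2 => nis_E (a := (tauP k (N + 1)).comp a)
      ((H644.PGr.tauP_cont (k := k) (n := N + 1)).comp hA.ca) (ι.comp ct) (fun g => by
        change tauP k (N + 1) (a (ι (ct g))) = _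
        rw [hs]
        have h5 := H644.PGr.tauP_can (g := ct g) (g' := ct (ct g)) rfl
        rw [H859.TgN.ct_ct] at h5
        exact h5.symm) Γ hcov hq' h1 (by omega)
  obtain ⟨q', hq'', Ec, F, h⟩ := leg_first (μ := μ) hν hα hΛ hA hw hz hT hB₁ hB₂ nrm hL n1 n2
    hp.1 hp.2
  have hfin : ∀ C : ℝ, {γ : Γ | nm (q' γ) ≤ C}.Finite := by
    rcases hq'' with rfl | rfl
    · exact hd
    · exact fin_ct hph hd
  exact ⟨q', Ec, F, hq'', legN_univ h hfin⟩

end con

/-! ### `ExStmt` -/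

section ex

open Vale.Agent.P092.SR Vale.Agent.P092.H160
open Vale.Agent.P092.H933 (LeviGap)

variable {k : Type} [NontriviallyNormedField k] [ProperSpace k] {N : ℕ}
  {E : Type} [Group E] [TopologicalSpace E] [IsTopologicalGroup E] [LocallyCompactSpace E]
  [SecondCountableTopology E] [T2Space E]

/-- **[N-GAPB] for the source group `E`**, the input of `exStmt_of`. -/
def PosStmt (ι : GG k N →* E) (a : E →* PG k (N + 1)) : Prop :=
  ∀ [MeasurableSpace E] [BorelSpace E] {Γ : Subgroup E} [DiscreteTopology Γ] [Countable Γ]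
    [MeasurableSpace (E ⧸ Γ)] [BorelSpace (E ⧸ Γ)] {ν : Measure (E ⧸ Γ)}
    [IsProbabilityMeasure ν] (hν : ∀ g : E, ν.map (fun x => g • x) = ν)
    {Λ : Type} [Group Λ] [Countable Λ]
    (_ : ∀ g : Λ, g ≠ 1 → Set.Infinite {y : Λ | ∃ h, y = h * g * h⁻¹})
    {α : Γ →* (Ell2 Λ →L[ℂ] Ell2 Λ)} (hα : Frame α) (w : kˣ), ‖(w : k)‖ < 1 →
    ∀ q : Γ → GG k N, (∀ γ : Γ, sp k (N + 1) (q γ) = a γ) →
      (∀ C : ℝ, {γ : Γ | nm (q γ) ≤ C}.Finite) → PosE hν hα (ι (bw w)) q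

theorem sp_ct_one {g : GG k N} (h : sp k (N + 1) (ct g) = 1) : sp k (N + 1) g = 1 := by
  have h1 : tauP k (N + 1) (sp k (N + 1) g) = 1 := by
    rw [← h]
    exact (H644.PGr.tauP_can (g := g) (g' := ct g) rfl).symm
  have h2 := congrArg (tauP k (N + 1)) h1
  rwa [tauP_tauP, map_one] at h2

/-- **[N-EX] for any admissible source group**, from the tightness. -/
theorem exStmt_of [MeasurableSpace k] [BorelSpace k] {μ : Measure k} [μ.IsAddHaarMeasure]
    (hk : LocK k) {ι : GG k N →* E} {a a' : E →* PG k (N + 1)} (hA : Adm ι a a')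
    (hz : ∀ w : kˣ, Cz w ι a a') (hL : ∀ w : kˣ, LeviGap (ι (bw w)))
    (hQ : ∀ (Γ : Subgroup E) [DiscreteTopology Γ],
      (∀ g : Γ, g ≠ 1 → Set.Infinite {y : Γ | ∃ h, y = h * g * h⁻¹}) →
      ∃ q : Γ → GG k N, (∀ γ : Γ, sp k (N + 1) (q γ) = a γ) ∧
        (∀ γ, sp k (N + 1) (q γ) = 1 → γ = 1) ∧ ∀ C : ℝ, {γ : Γ | nm (q γ) ≤ C}.Finite)
    (hP : PosStmt ι a) : ExStmt k μ ι a a' := by
  intro _ _ Γ _ _ _ _ ν _ hν _ hicc Λ _ _ hΛ α hα
  obtain ⟨w, hw0, hw⟩ : ∃ w : kˣ, True ∧ ‖(w : k)‖ < 1 := by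
    obtain ⟨c, hc0, hc1⟩ := NormedField.exists_norm_lt_one k
    exact ⟨Units.mk0 c (norm_pos_iff.1 hc0), trivial, hc1⟩
  obtain ⟨q, hq, hi, hd⟩ := hQ Γ hicc
  have hph : PH q := Ad.ph_of_hom q (a.comp Γ.subtype) hq
  obtain ⟨q', Ec, F, h1, h2⟩ := leg₁ (μ := μ) hν hα hΛ hk hA hw (hz w) (hL w) hq hd
    (hP hν hΛ hα w hw q hq hd)
  have h3 := H859.TwN.tw_legN (SD.tw_flK hν hα) h2
  have i1 : ∀ γ, sp k (N + 1) (q' γ) = 1 → γ = 1 := by
    rcases h1 with rfl | rfl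
    · exact hi
    · exact fun γ hγ => hi γ (sp_ct_one hγ)
  have f1 : ∀ C : ℝ, {γ : Γ | nm (q' γ) ≤ C}.Finite := by
    rcases h1 with rfl | rfl
    · exact hd
    · exact fin_ct hph hd
  exact ⟨w, _, _, q', q', Ec, F, _, _, h2, h3, i1, i1, f1, f1⟩

end ex

end Vale.Agent.P092.H387.Ex
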