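import Vale.Agent.P092.H387.ExG
import Vale.Agent.P092.H368.SN.GeoC
import Vale.Agent.P092.H387.Pl2

/-!
P092 (helper387), TEAM N: the instances of `exStmt_of`: `SN.ExSl` (all lattices of `SL_n(k)`) and
`SN.ExPs` (all lattices of `PSL_n(k)`), from the tightness `PosStmt`.
-/

set_option linter.all false

open scoped InnerProductSpace ENNReal LinearAlgebra.Projectivization
open Filter Topology ContinuousLinearMap MeasureTheory TopologicalSpace

namespace Vale.Agent.P092.H387.Ex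

open Vale.Agent.P092.RC (GG PG ct)
open Vale.Agent.P092.SN (CY nm Adm bw ExStmt ExSl)
open Vale.Agent.P092.H368.SN (ad0_of cz_sl cz_psl)
open Vale.Agent.P092.H35 (sp)
open Vale.Agent.P092.H644.PGr (tauP)
open Vale.Agent.P092.H933 (LocK)
open Vale.Agent.P092.H725.SN (leviGap_bw leviGap_bw_mk)
open Vale.Agent.P092.H387.Ad (PS spq qO sp_qO fin_nm_qO spq_inj_icc adm_sl' adm_psl)

variable {k : Type} [NontriviallyNormedField k] [ProperSpace k] {N : ℕ}

/-- the target map for `SL_n(k)` -/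
theorem lift_sl (Γ : Subgroup (GG k N)) [DiscreteTopology Γ]
    (hicc : ∀ g : Γ, g ≠ 1 → Set.Infinite {y : Γ | ∃ h, y = h * g * h⁻¹}) :
    ∃ q : Γ → GG k N, (∀ γ : Γ, sp k (N + 1) (q γ) = sp k (N + 1) (γ : GG k N)) ∧
      (∀ γ, sp k (N + 1) (q γ) = 1 → γ = 1) ∧ ∀ C : ℝ, {γ : Γ | nm (q γ) ≤ C}.Finite := by
  refine ⟨fun γ => (γ : GG k N), fun _ => rfl, fun γ h => ?_, fun C => ?_⟩
  · by_contra hne
    refine hicc γ hne ?_
    have h1 : {y : Γ | ∃ h, y = h * γ * h⁻¹} ⊆ {γ} := by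
      rintro y ⟨x, rfl⟩
      have h2 : x * γ = γ * x := Subtype.ext (H35.sp_central h (x : GG k N))
      rw [Set.mem_singleton_iff, h2, mul_inv_cancel_right]
    exact (Set.finite_singleton γ).subset h1
  · exact H790.finite_inter Γ (H35.isCompact_bdd (k := k) (n := N + 1) C)

variable [MeasurableSpace k] [BorelSpace k] {μ : Measure k} [μ.IsAddHaarMeasure]

/-- **`SN.ExSl` from the tightness.** -/
theorem exSl_of (hk : LocK k)
    (hP : ∀ {N : ℕ}, 2 ≤ N → ∀ [LocallyCompactSpace (GG k N)] [SecondCountableTopology (GG k N)],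
      PosStmt (MonoidHom.id (GG k N)) (sp k (N + 1))) : ExSl k μ := by
  intro N hN _ _
  have hA := adm_sl' (k := k) hk hN
  intro _ _ Γ _ _ _ _ ν _ hν hl hicc Λ _ _ hΛ α hα
  exact exStmt_of hk hA (cz_sl (ad0_of hA)) (fun w => leviGap_bw hk hN w)
    (fun Γ _ hicc => lift_sl Γ hicc) (@hP N hN _ _) hν hl hicc hΛ hα

/-- **`SN.ExPs` (in unfolded form) from the tightness.** -/
theorem exPs' (hk : LocK k)
    (hP : ∀ {N : ℕ}, 2 ≤ N → PosStmt (E := PS (N + 1) k)
      (QuotientGroup.mk' (Subgroup.center (GG k N)))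
      (spq k N (Subgroup.center (GG k N)) le_rfl)) :
    ∀ {N : ℕ}, 2 ≤ N → ExStmt k μ (E := PS (N + 1) k)
      (QuotientGroup.mk' (Subgroup.center (GG k N))) (spq k N (Subgroup.center (GG k N)) le_rfl)
      ((tauP k (N + 1)).comp (spq k N (Subgroup.center (GG k N)) le_rfl)) := by
  intro N hN
  have hA := adm_psl (k := k) hk hN (Subgroup.center (GG k N)) le_rfl
  intro _ _ Γ _ _ _ _ ν _ hν hl hicc Λ _ _ hΛ α hα
  refine exStmt_of (E := PS (N + 1) k) hk hA
    (fun w => cz_psl (Subgroup.center (GG k N)) le_rfl (ad0_of hA) w)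
    (fun w => leviGap_bw_mk hk hN w (Subgroup.center (GG k N)))
    (fun Γ _ hicc => ⟨fun γ => qO (Subgroup.center (GG k N)) (γ : PS (N + 1) k),
      fun γ => sp_qO le_rfl _, fun γ h => ?_, fun C => fin_nm_qO le_rfl Γ C⟩)
    (@hP N hN) hν hl hicc hΛ hα
  exact spq_inj_icc le_rfl (i := Γ.subtype) Subtype.val_injective hicc γ h

end Vale.Agent.P092.H387.Ex
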