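import Vale.Agent.P092.H387.ExH
import Vale.Agent.P092.H859.PosTwo

/-!
P092 (helper387), TEAM N: `PosStmt` for `n = 3` (from helper859's `pos_two`), and `ExSl`, `ExPs` from
the tightness of the middle gaps for `n ≥ 4`, in the letters of `H337.NG.G2`.
-/

set_option linter.all false

open scoped InnerProductSpace ENNReal LinearAlgebra.Projectivization
open Filter Topology ContinuousLinearMap MeasureTheory TopologicalSpace

namespace Vale.Agent.P092.H387.Ex

open Vale.Agent.P092.SR Vale.Agent.P092.H160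
open Vale.Agent.P092.RC (GG PG YY ct KK pic Om)
open Vale.Agent.P092.SN (CY nm PH Adm bw ExStmt ExSl)
open Vale.Agent.P092.H35 (sp)
open Vale.Agent.P092.H644.PGr (tauP)
open Vale.Agent.P092.H933 (LocK)
open Vale.Agent.P092.H859.ExN (PosO)
open Vale.Agent.P092.H859.TgN (g2)
open Vale.Agent.P092.H337.NG (G2)
open Vale.Agent.P092.H387.Ad (PS spq adm_sl' adm_psl)

variable {k : Type} [NontriviallyNormedField k] [ProperSpace k] {N : ℕ}

section pos

variable {E : Type} [Group E] [TopologicalSpace E] [IsTopologicalGroup E] [LocallyCompactSpace E]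
  [SecondCountableTopology E] [T2Space E]

/-- `PosO` in the letters of `G2`. -/
theorem posO_of [MeasurableSpace E] [BorelSpace E] {Γ : Subgroup E} [DiscreteTopology Γ]
    [Countable Γ] [MeasurableSpace (E ⧸ Γ)] [BorelSpace (E ⧸ Γ)] {ν : Measure (E ⧸ Γ)}
    [IsProbabilityMeasure ν] (hν : ∀ g : E, ν.map (fun x => g • x) = ν)
    {Λ : Type} [Group Λ] [Countable Λ] {α : Γ →* (Ell2 Λ →L[ℂ] Ell2 Λ)} (hα : Frame α) {b : E}
    {q : Γ → GG k N}
    (h : ∀ ε : ℝ, 0 < ε → ∃ r : ℝ, ∀ᶠ i : ℕ in atTop,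
      ‖H103.mS₁ ν hα {γ | r < G2 (q γ) ∧ r < G2 (ct (q γ))} (pic hν hα (b ^ i) (Om ν Λ))‖ ≤ ε) :
    PosO hν hα (g2 q fun _ => 0) (g2 (fun γ => ct (q γ)) fun _ => 0) b := by
  intro ε hε
  obtain ⟨r, hr⟩ := h ε hε
  refine ⟨max r 0, hr.mono fun i hi => ?_⟩
  refine (H458.Size.ms_mono (H103.ms₁ hα) ?_ _).trans hi
  rintro γ ⟨h1, h2⟩
  have h3 : ∀ x : ℝ, max r 0 < max x 0 → r < x := fun x hx => by
    rcases le_total x 0 with h | h
    · rw [max_eq_right h] at hx
      exact absurd (le_max_right r 0) (not_le.2 hx)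
    · rw [max_eq_left h] at hx
      exact (le_max_left r 0).trans_lt hx
  exact ⟨h3 _ h1, h3 _ h2⟩

/-- The tightness for `SL_3`, any source. -/
theorem posStmt_two (hk : LocK k) {ι : GG k N →* E} {a a' : E →* PG k (N + 1)}
    (hA : Adm ι a a') (hN : N = 2) : PosStmt ι a := by
  intro _ _ Γ _ _ _ _ ν _ hν Λ _ _ hΛ α hα w hw q hq hd
  have hph : PH q := Ad.ph_of_hom q (a.comp Γ.subtype) hq
  exact ⟨H859.ExB.pos_two hν hα hk hA hw hN hph hd (Subgroup.mem_zpowers _),
    H859.ExB.pos_two hν hα hk hA hw hN hph hd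
      (Subgroup.inv_mem _ (Subgroup.mem_zpowers _))⟩

end pos

variable [MeasurableSpace k] [BorelSpace k] {μ : Measure k} [μ.IsAddHaarMeasure]

/-- **`SN.ExSl`** from the tightness for `n ≥ 4`. -/
theorem exSl_of3 (hk : LocK k)
    (hP : ∀ {N : ℕ}, 3 ≤ N → ∀ [LocallyCompactSpace (GG k N)] [SecondCountableTopology (GG k N)],
      PosStmt (MonoidHom.id (GG k N)) (sp k (N + 1))) : ExSl k μ := by
  refine exSl_of hk ?_
  intro N hN _ _
  rcases Nat.eq_or_lt_of_le hN with h | h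
  · exact posStmt_two hk (adm_sl' hk hN) h.symm
  · exact @hP N h _ _

/-- **`SN.ExPs`** (unfolded) from the tightness for `n ≥ 4`. -/
theorem exPs3' (hk : LocK k)
    (hP : ∀ {N : ℕ}, 3 ≤ N → PosStmt (E := PS (N + 1) k)
      (QuotientGroup.mk' (Subgroup.center (GG k N)))
      (spq k N (Subgroup.center (GG k N)) le_rfl)) :
    ∀ {N : ℕ}, 2 ≤ N → ExStmt k μ (E := PS (N + 1) k)
      (QuotientGroup.mk' (Subgroup.center (GG k N))) (spq k N (Subgroup.center (GG k N)) le_rfl)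
      ((tauP k (N + 1)).comp (spq k N (Subgroup.center (GG k N)) le_rfl)) := by
  refine exPs' hk ?_
  intro N hN
  rcases Nat.eq_or_lt_of_le hN with h | h
  · exact posStmt_two hk (adm_psl hk hN (Subgroup.center (GG k N)) le_rfl) h.symm
  · exact @hP N h

end Vale.Agent.P092.H387.Ex
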