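import Vale.Agent.P092.H387.Hp
import Vale.Agent.P092.H618.Hmi

/-!
P092 (helper387), TEAM N: `PosStmt` for every admissible source group; **`SN.ExSl`, `SN.ExPs`**, and
`SN.ExStmt` for every admissible source group.
-/

set_option linter.all false

open scoped InnerProductSpace ENNReal LinearAlgebra.Projectivization
open Filter Topology ContinuousLinearMap MeasureTheory TopologicalSpace

namespace Vale.Agent.P092.H387.Ex

open Vale.Agent.P092.RC (GG PG YY ct)
open Vale.Agent.P092.SN (CY nm PH Adm bw ExStmt ExSl)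
open Vale.Agent.P092.H35 (sp)
open Vale.Agent.P092.H644.PGr (tauP)
open Vale.Agent.P092.H933 (LocK LeviGap)
open Vale.Agent.P092.H368.SN (ad0_of Cz)
open Vale.Agent.P092.H387.Ad (PS spq)

variable {k : Type} [NontriviallyNormedField k] [ProperSpace k] {N : ℕ}

section gen

variable {E : Type} [Group E] [TopologicalSpace E] [IsTopologicalGroup E] [LocallyCompactSpace E]
  [SecondCountableTopology E] [T2Space E]

/-- **[N-GAPB] for every admissible source group.** -/
theorem posStmt_of (hk : LocK k) {ι : GG k N →* E} {a a' : E →* PG k (N + 1)}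
    (hA : Adm ι a a') : PosStmt ι a := by
  have hN := hA.hN
  obtain ⟨m, rfl⟩ : ∃ m, N = m + 1 := ⟨N - 1, by omega⟩
  intro _ _ Γ _ _ _ _ ν _ hν Λ _ _ hΛ α hα w hw q hq hd
  haveI := noncompact_of_adm hA
  have hph : PH q := Ad.ph_of_hom q (a.comp Γ.subtype) hq
  refine Hp.pos_of hν hα hk (by omega) hA.cι hA.ca (ad0_of hA).a_ι hw hph hd ?_
  intro gap c C hc hcrt hg i₀ h0 h1
  exact H618.Hmi.hmi hν hα hΛ hk hA.cι hw hph hc hcrt
    (fun g F _ => congrFun (congrFun (Hp.msF_eq hν hα) g) F) hg i₀ h0 h1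

variable [MeasurableSpace k] [BorelSpace k] {μ : Measure k} [μ.IsAddHaarMeasure]

/-- **[N-EX] for every admissible source group.** -/
theorem exStmt (hk : LocK k) {ι : GG k N →* E} {a a' : E →* PG k (N + 1)} (hA : Adm ι a a')
    (hz : ∀ w : kˣ, Cz w ι a a') (hL : ∀ w : kˣ, LeviGap (ι (bw w)))
    (hQ : ∀ (Γ : Subgroup E) [DiscreteTopology Γ],
      (∀ g : Γ, g ≠ 1 → Set.Infinite {y : Γ | ∃ h, y = h * g * h⁻¹}) →
      ∃ q : Γ → GG k N, (∀ γ : Γ, sp k (N + 1) (q γ) = a γ) ∧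
        (∀ γ, sp k (N + 1) (q γ) = 1 → γ = 1) ∧ ∀ C : ℝ, {γ : Γ | nm (q γ) ≤ C}.Finite) :
    ExStmt k μ ι a a' := by
  intro _ _ Γ _ _ _ _ ν _ hν hl hicc Λ _ _ hΛ α hα
  exact exStmt_of hk hA hz hL hQ (posStmt_of hk hA) hν hl hicc hΛ hα

end gen

variable [MeasurableSpace k] [BorelSpace k] {μ : Measure k} [μ.IsAddHaarMeasure]

/-- **`SN.ExSl` is a theorem.** -/
theorem exSl (hk : LocK k) : ExSl k μ := by
  refine exSl_of hk ?_
  intro N hN _ _
  exact posStmt_of hk (Ad.adm_sl' hk hN)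

/-- **`SN.ExPs`** (unfolded) **is a theorem.** -/
theorem exPs_unf (hk : LocK k) :
    ∀ {N : ℕ}, 2 ≤ N → ExStmt k μ (E := PS (N + 1) k)
      (QuotientGroup.mk' (Subgroup.center (GG k N))) (spq k N (Subgroup.center (GG k N)) le_rfl)
      ((tauP k (N + 1)).comp (spq k N (Subgroup.center (GG k N)) le_rfl)) := by
  refine exPs' hk ?_
  intro N hN
  exact posStmt_of hk (Ad.adm_psl hk hN (Subgroup.center (GG k N)) le_rfl)

end Vale.Agent.P092.H387.Ex
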