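import Vale.Agent.P092.H387.Ex2
import Vale.Agent.P092.H387.Ex1

/-!
P092 (helper387): the ring `ℤ[1/N]` in `ℝ` and in `ℚ_p`, `p ∣ N`; strong approximation.
-/

open Set Filter Topology

namespace Vale.Agent.P092.H387.N

/-- The prime divisors of `N`. -/
abbrev PF (N : ℕ) : Type := {p : ℕ // p ∈ N.primeFactors}

instance instFactPF (N : ℕ) (p : PF N) : Fact (p : ℕ).Prime := ⟨Nat.prime_of_mem_primeFactors p.2⟩

/-- The completions of `ℚ` at `∞` and at the prime divisors of `N`. -/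
def KK (N : ℕ) : Option (PF N) → Type
  | none => ℝ
  | some p => ℚ_[p.1]

noncomputable instance instNNF (N : ℕ) : ∀ i, NontriviallyNormedField (KK N i)
  | none => inferInstanceAs (NontriviallyNormedField ℝ)
  | some p => inferInstanceAs (NontriviallyNormedField ℚ_[p.1])

instance instPK (N : ℕ) : ∀ i, ProperSpace (KK N i)
  | none => inferInstanceAs (ProperSpace ℝ)
  | some p => inferInstanceAs (ProperSpace ℚ_[p.1])

instance instCharZ (N : ℕ) : ∀ i, CharZero (KK N i)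
  | none => inferInstanceAs (CharZero ℝ)
  | some p => inferInstanceAs (CharZero ℚ_[p.1])

variable (N : ℕ) [hN : Fact (1 < N)]

theorem N_ne : N ≠ 0 := by have := hN.out; omega

/-- The embedding of `ℤ[1/N]` into the completion. -/
noncomputable def emb (i : Option (PF N)) : Zi N →+* KK N i :=
  IsLocalization.Away.lift (N : ℤ) (g := Int.castRingHom (KK N i)) (by
    rw [isUnit_iff_ne_zero]
    simpa using N_ne N)

theorem isUnit_N : IsUnit ((N : ℕ) : Zi N) := by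
  have h := IsLocalization.Away.algebraMap_isUnit (S := Zi N) (N : ℤ)
  simpa using h

theorem isUnit_of_dvd {d : ℕ} (hd : d ∣ N) : IsUnit ((d : ℕ) : Zi N) := by
  obtain ⟨e, he⟩ := hd
  have h2 : ((N : ℕ) : Zi N) = (d : Zi N) * (e : Zi N) := by
    rw [← Nat.cast_mul]
    exact congrArg _ he
  exact isUnit_of_mul_isUnit_left (h2 ▸ isUnit_N N)

theorem exists_repN (a : Zi N) : ∃ (k : ℕ) (m : ℤ), a * (N : Zi N) ^ k = (m : Zi N) := by
  obtain ⟨k, m, h⟩ := IsLocalization.Away.surj (N : ℤ) a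
  exact ⟨k, m, by simpa using h⟩

theorem exists_invN {d : ℕ} (hd : d ∣ N) (k : ℕ) (m : ℤ) :
    ∃ a : Zi N, a * (d : Zi N) ^ k = (m : Zi N) := by
  obtain ⟨u, hu⟩ := (isUnit_of_dvd N hd).pow k
  exact ⟨(m : Zi N) * (↑u⁻¹ : Zi N), by rw [← hu, mul_assoc, Units.inv_mul, mul_one]⟩

theorem emb_rep (i : Option (PF N)) {a : Zi N} {d k : ℕ} {m : ℤ}
    (h : a * (d : Zi N) ^ k = (m : Zi N)) : emb N i a * (d : KK N i) ^ k = m := by
  have := congrArg (emb N i) h
  simpa using this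

theorem emb_injective (i : Option (PF N)) : Function.Injective (emb N i) := by
  rw [injective_iff_map_eq_zero]
  intro a ha
  obtain ⟨k, m, h⟩ := exists_repN N a
  have h1 := emb_rep N i h
  rw [ha, zero_mul] at h1
  have h2 : m = 0 := by exact_mod_cast h1.symm
  rw [h2, Int.cast_zero] at h
  exact ((isUnit_N N).pow k).mul_left_eq_zero.1 h

/-- `ℤ[1/N] ∩ ⋂_p ℤ_p = ℤ`. -/
theorem exists_intN {a : Zi N} (ha : ∀ p : PF N, ‖emb N (some p) a‖ ≤ 1) : ∃ m : ℤ, a = m := by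
  obtain ⟨k, m, h⟩ := exists_repN N a
  have hdvd : N ^ k ∣ m.natAbs := by
    rw [Nat.dvd_iff_prime_pow_dvd_dvd]
    intro p j hp hj
    rcases Nat.eq_zero_or_pos j with rfl | hj0
    · simp
    have hpN : p ∈ N.primeFactors := by
      rw [Nat.mem_primeFactors]
      exact ⟨hp, hp.dvd_of_dvd_pow ((dvd_pow_self p hj0.ne').trans hj), N_ne N⟩
    have h1 : emb N (some ⟨p, hpN⟩) a * ((N : ℕ) : KK N (some ⟨p, hpN⟩)) ^ k = m :=
      emb_rep N _ h
    have h2 := ha ⟨p, hpN⟩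
    have : Fact p.Prime := ⟨hp⟩
    have h3 : ‖((m : ℤ) : ℚ_[p])‖ ≤ ‖((((N ^ k : ℕ) : ℤ)) : ℚ_[p])‖ := by
      have h4 : ‖((m : ℤ) : KK N (some ⟨p, hpN⟩))‖ ≤
          ‖((N : ℕ) : KK N (some ⟨p, hpN⟩)) ^ k‖ := by
        rw [← h1, norm_mul]
        exact (mul_le_mul_of_nonneg_right h2 (norm_nonneg _)).trans_eq (one_mul _)
      push_cast
      exact h4
    have h5 : ‖((((N ^ k : ℕ) : ℤ)) : ℚ_[p])‖ ≤ (p : ℝ) ^ (-j : ℤ) :=
      (Padic.norm_int_le_pow_iff_dvd _ j).2 (by exact_mod_cast hj)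
    have h6 := (Padic.norm_int_le_pow_iff_dvd m j).1 (h3.trans h5)
    exact Int.natCast_dvd.1 (by exact_mod_cast h6)
  obtain ⟨c, hc⟩ := Int.natCast_dvd.2 hdvd
  refine ⟨c, ?_⟩
  rw [hc] at h
  push_cast at h
  rw [mul_comm ((N : Zi N) ^ k)] at h
  exact ((isUnit_N N).pow k).mul_right_cancel h

theorem denseRange_embR : DenseRange (emb N none) := by
  obtain ⟨f, hf⟩ : ∃ f : Zi N →+* ℝ, f = emb N none := ⟨_, rfl⟩
  have h : Dense (f.toAddMonoidHom.range : Set ℝ) := by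
    refine AddSubgroup.dense_of_not_isolated_zero _ fun ε hε => ?_
    have hp1 : (1 : ℝ) < N := by exact_mod_cast hN.out
    obtain ⟨k, hk⟩ := exists_pow_lt_of_lt_one hε (inv_lt_one_of_one_lt₀ hp1)
    obtain ⟨a, ha⟩ := exists_invN N (dvd_refl N) k 1
    have h1 : f a * ((N : ℕ) : ℝ) ^ k = ((1 : ℤ) : ℝ) := by
      rw [hf]; exact emb_rep N none ha
    have h2 : f a = ((N : ℝ)⁻¹) ^ k := by
      rw [inv_pow]
      rw [Int.cast_one] at h1
      exact eq_inv_of_mul_eq_one_left h1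
    refine ⟨f a, ⟨a, rfl⟩, ?_, ?_⟩
    · rw [h2]; positivity
    · rw [h2]; exact hk
  have h' : DenseRange f := h
  rw [hf] at h'
  exact h'

theorem denseRange_embP (p : PF N) : DenseRange (emb N (some p)) := by
  -- `ℤ[1/p] ⊆ ℤ[1/N]`
  have hdvd : (p : ℕ) ∣ N := Nat.dvd_of_mem_primeFactors p.2
  let g : Zi (p : ℕ) →+* Zi N := IsLocalization.Away.lift ((p : ℕ) : ℤ)
    (g := Int.castRingHom (Zi N)) (by simpa using isUnit_of_dvd N hdvd)
  have hg : (emb N (some p)).comp g = toP p :=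
    IsLocalization.ringHom_ext (Submonoid.powers ((p : ℕ) : ℤ)) (RingHom.ext_int _ _)
  refine (denseRange_toP (p : ℕ)).mono ?_
  rintro _ ⟨a, rfl⟩
  exact ⟨g a, RingHom.congr_fun hg a⟩

theorem denseRange_emb : ∀ i, DenseRange (emb N i)
  | none => denseRange_embR N
  | some p => denseRange_embP N p

end Vale.Agent.P092.H387.N
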