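import Vale.Agent.P092.H387.ExN1

/-!
P092 (helper387): strong approximation for `ℤ[1/N]`.
-/

open Set Filter Topology

namespace Vale.Agent.P092.H387.N

section idem

variable {ι : Type*} [Fintype ι] [DecidableEq ι] {K : ι → Type*} [∀ i, CommRing (K i)]
  [∀ i, TopologicalSpace (K i)] [∀ i, IsTopologicalRing (K i)] {A : Type*} [CommRing A]
  (f : ∀ i, A →+* K i)

/-- If the closure of the image of `A` contains the idempotents then `A` is dense. -/
theorem denseRange_of_idem (hf : ∀ i, DenseRange (f i))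
    (h : ∀ i, (Pi.single i (1 : K i) : ∀ i, K i) ∈ (RingHom.pi f).range.topologicalClosure) :
    DenseRange fun a i => f i a := by
  intro x
  set S := (RingHom.pi f).range.topologicalClosure with hS
  have hcl : IsClosed (S : Set (∀ i, K i)) := (RingHom.pi f).range.isClosed_topologicalClosure
  have h1 : ∀ i, ∀ y : K i, (Pi.single i y : ∀ i, K i) ∈ S := by
    intro i y
    have hc : IsClosed {y : K i | (Pi.single i y : ∀ i, K i) ∈ S} :=
      hcl.preimage (continuous_single i)
    refine (hf i).induction_on y hc fun a => ?_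
    have h2 : (Pi.single i (f i a) : ∀ i, K i) = Pi.single i (1 : K i) * RingHom.pi f a := by
      funext l
      by_cases hl : l = i
      · subst hl
        rw [Pi.single_eq_same, Pi.mul_apply, Pi.single_eq_same, one_mul]
        rfl
      · simp [Pi.single_eq_of_ne hl]
    show (Pi.single i (f i a) : ∀ i, K i) ∈ S
    rw [h2]
    exact S.mul_mem (h i) ((RingHom.pi f).range.le_topologicalClosure ⟨a, rfl⟩)
  have h2 : x ∈ S := by
    rw [← Finset.univ_sum_single x]
    exact S.sum_mem fun i _ => h1 i (x i)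
  exact h2

/-- If the closure contains all idempotents but one then it contains all. -/
theorem idem_of_ne (i0 : ι → Prop) (h0 : ∀ i l, i0 i → i0 l → i = l)
    (h : ∀ i, ¬ i0 i → (Pi.single i (1 : K i) : ∀ i, K i) ∈ (RingHom.pi f).range.topologicalClosure)
    (i : ι) : (Pi.single i (1 : K i) : ∀ i, K i) ∈ (RingHom.pi f).range.topologicalClosure := by
  by_cases hi : i0 i
  · have h1 : (Pi.single i (1 : K i) : ∀ i, K i) =
        1 - ∑ l ∈ Finset.univ.erase i, Pi.single l (1 : K l) := by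
      rw [eq_sub_iff_add_eq, Finset.add_sum_erase Finset.univ
        (fun l => (Pi.single l (1 : K l) : ∀ i, K i)) (Finset.mem_univ i)]
      exact Finset.univ_sum_single (1 : ∀ i, K i)
    rw [h1]
    refine Subring.sub_mem _ (Subring.one_mem _) (Subring.sum_mem _ fun l hl => h l fun hl' => ?_)
    exact (Finset.mem_erase.1 hl).1 (h0 l i hl' hi)
  · exact h i hi

end idem

/-- the exponents -/
theorem tendsto_ex {p : ℕ} (hp : p.Prime) :
    Tendsto (fun k : ℕ => Nat.totient (p ^ (k + 1))) atTop atTop := by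
  refine tendsto_atTop_mono (fun k => ?_) tendsto_id
  rw [Nat.totient_prime_pow_succ hp]
  have h1 : k < p ^ k := Nat.lt_pow_self hp.one_lt
  have h2 : 1 ≤ p - 1 := by have := hp.two_le; omega
  exact h1.le.trans (Nat.le_mul_of_pos_right _ h2)

theorem tendsto_unit {p : ℕ} [hp : Fact p.Prime] {u : ℚ_[p]} (hu : ‖u‖ = 1) :
    Tendsto (fun k : ℕ => u ^ Nat.totient (p ^ (k + 1))) atTop (𝓝 1) := by
  obtain ⟨v, hv⟩ : ∃ v : ℤ_[p]ˣ, ((v : ℤ_[p]) : ℚ_[p]) = u :=
    ⟨PadicInt.mkUnits hu, rfl⟩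
  have h1 : ∀ k : ℕ, ‖u ^ Nat.totient (p ^ (k + 1)) - 1‖ ≤ (p : ℝ) ^ (-(k + 1 : ℕ) : ℤ) := by
    intro k
    have h2 : (PadicInt.toZModPow (p := p) (k + 1))
        ((v : ℤ_[p]) ^ Nat.totient (p ^ (k + 1)) - 1) = 0 := by
      rw [map_sub, map_pow, map_one, sub_eq_zero]
      have h3 := ZMod.pow_totient (Units.map (PadicInt.toZModPow (p := p) (k + 1)).toMonoidHom v)
      have h4 := congrArg Units.val h3
      rw [Units.val_pow_eq_pow_val] at h4
      exact h4
    have h5 : ((v : ℤ_[p]) ^ Nat.totient (p ^ (k + 1)) - 1) ∈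
        RingHom.ker (PadicInt.toZModPow (p := p) (k + 1)) := h2
    rw [PadicInt.ker_toZModPow, ← PadicInt.norm_le_pow_iff_mem_span_pow] at h5
    rw [← hv]
    have h6 : ((((v : ℤ_[p]) ^ Nat.totient (p ^ (k + 1)) - 1 : ℤ_[p])) : ℚ_[p]) =
        ((v : ℤ_[p]) : ℚ_[p]) ^ Nat.totient (p ^ (k + 1)) - 1 := by push_cast; ring
    rw [← h6]
    exact h5
  rw [tendsto_iff_norm_sub_tendsto_zero]
  refine squeeze_zero (fun k => norm_nonneg _) h1 ?_
  have hp1 : (1 : ℝ) < p := by exact_mod_cast hp.out.one_lt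
  have h7 : Tendsto (fun k : ℕ => ((p : ℝ)⁻¹) ^ (k + 1)) atTop (𝓝 0) :=
    (tendsto_pow_atTop_nhds_zero_of_lt_one (by positivity) (inv_lt_one_of_one_lt₀ hp1)).comp
      (tendsto_add_atTop_nat 1)
  refine h7.congr fun k => ?_
  rw [inv_pow, zpow_neg, zpow_natCast]

variable (N : ℕ) [hN : Fact (1 < N)]

theorem norm_natCast_lt {p : PF N} {M : ℕ} (h : (p : ℕ) ∣ M) : ‖((M : ℕ) : KK N (some p))‖ < 1 := by
  have : ‖((M : ℕ) : ℚ_[p.1])‖ < 1 := Padic.norm_natCast_lt_one_iff.2 h
  exact this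

theorem norm_natCast_eq {p : PF N} {M : ℕ} (h : (p : ℕ).Coprime M) :
    ‖((M : ℕ) : KK N (some p))‖ = 1 := by
  have : ‖((M : ℕ) : ℚ_[p.1])‖ = 1 := Padic.norm_natCast_eq_one_iff.2 h
  exact this

theorem coprime_PF {p q : PF N} (h : p ≠ q) : (p : ℕ).Coprime (q : ℕ) :=
  (Nat.coprime_primes (instFactPF N p).out (instFactPF N q).out).2 fun h' => h (Subtype.ext h')

theorem exists_sep (j : Option (PF N)) (p : PF N) (hp : some p ≠ j) :
    ∃ a : Zi N, ‖emb N (some p) a‖ = 1 ∧ ∀ i, i ≠ j → i ≠ some p → ‖emb N i a‖ < 1 := by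
  classical
  have key : ∀ T : Finset (PF N), p ∉ T → (p : ℕ).Coprime (∏ l ∈ T, (l : ℕ)) := fun T hT =>
    Nat.Coprime.prod_right fun l hl => coprime_PF N fun h => hT (h ▸ hl)
  match j, hp with
  | none, _ =>
    refine ⟨((∏ l ∈ Finset.univ.erase p, (l : ℕ) : ℕ) : Zi N), ?_, ?_⟩
    · rw [map_natCast]
      exact norm_natCast_eq N (key _ (Finset.notMem_erase _ _))
    · intro i hi hip
      obtain ⟨q, rfl⟩ := Option.ne_none_iff_exists'.1 hi
      rw [map_natCast]
      refine norm_natCast_lt N (Finset.dvd_prod_of_mem _ (Finset.mem_erase.2 ⟨?_, Finset.mem_univ _⟩))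
      rintro rfl
      exact hip rfl
  | some q, hpq =>
    have hqp : p ≠ q := fun h => hpq (by rw [h])
    set M : ℕ := ∏ l ∈ (Finset.univ.erase p).erase q, (l : ℕ) with hM
    obtain ⟨a, ha⟩ := exists_invN N (Nat.dvd_of_mem_primeFactors q.2) M (M : ℤ)
    have hMp : (p : ℕ).Coprime M := key _ fun h => (Finset.mem_erase.1 (Finset.mem_erase.1 h).2).1 rfl
    have hcast : ∀ i, emb N i a * ((q : ℕ) : KK N i) ^ M = ((M : ℕ) : KK N i) := by
      intro i
      have := emb_rep N i ha
      rwa [Int.cast_natCast] at this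
    refine ⟨a, ?_, ?_⟩
    · have h1 := congrArg norm (hcast (some p))
      rw [norm_mul, norm_pow, norm_natCast_eq N (coprime_PF N hqp), one_pow, mul_one,
        norm_natCast_eq N hMp] at h1
      exact h1
    · intro i hi hip
      match i, hi, hip with
      | none, _, _ =>
        obtain ⟨y, hy⟩ : ∃ y : ℝ, y = emb N none a := ⟨_, rfl⟩
        have h1 : y * ((q : ℕ) : ℝ) ^ M = ((M : ℕ) : ℝ) := by rw [hy]; exact hcast none
        have hq2 : 1 < (q : ℕ) := (instFactPF N q).out.one_lt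
        have h2 : (M : ℝ) < ((q : ℕ) : ℝ) ^ M := by exact_mod_cast Nat.lt_pow_self hq2
        have h3 : (0 : ℝ) < ((q : ℕ) : ℝ) ^ M := by
          have : (0 : ℝ) < ((q : ℕ) : ℝ) := by exact_mod_cast (by omega : 0 < (q : ℕ))
          positivity
        have h4 : ‖y‖ * ((q : ℕ) : ℝ) ^ M = (M : ℝ) := by
          have h5 := congrArg norm h1
          rw [norm_mul, Real.norm_of_nonneg h3.le, Real.norm_natCast] at h5
          exact h5
        have h6 : ‖y‖ * ((q : ℕ) : ℝ) ^ M < 1 * ((q : ℕ) : ℝ) ^ M := by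
          rw [h4, one_mul]; exact h2
        have h7 : ‖y‖ < 1 := lt_of_mul_lt_mul_right h6 h3.le
        rw [hy] at h7
        exact h7
      | some l, hl, hlp =>
        have hlq : l ≠ q := fun h => hl (by rw [h])
        have hlp' : l ≠ p := fun h => hlp (by rw [h])
        have h1 := congrArg norm (hcast (some l))
        rw [norm_mul, norm_pow, norm_natCast_eq N (coprime_PF N hlq), one_pow, mul_one] at h1
        rw [h1]
        exact norm_natCast_lt N (Finset.dvd_prod_of_mem _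
          (Finset.mem_erase.2 ⟨hlq, Finset.mem_erase.2 ⟨hlp', Finset.mem_univ _⟩⟩))

/-- **Strong approximation**: `ℤ[1/N]` is dense in the product of all completions but one. -/
theorem denseRange_away (j : Option (PF N)) :
    DenseRange fun (a : Zi N) (i : {i : Option (PF N) // i ≠ j}) => emb N i.1 a := by
  classical
  refine denseRange_of_idem (fun i : {i : Option (PF N) // i ≠ j} => emb N i.1)
    (fun i => denseRange_emb N i.1) fun i => ?_
  refine idem_of_ne (fun i : {i : Option (PF N) // i ≠ j} => emb N i.1) (fun i => i.1 = none)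
    (fun i l hi hl => Subtype.ext (hi.trans hl.symm)) ?_ i
  rintro ⟨i, hi⟩ hi0
  obtain ⟨p, rfl⟩ := Option.ne_none_iff_exists'.1 hi0
  obtain ⟨a, ha1, ha2⟩ := exists_sep N j p hi
  set f := RingHom.pi (fun i : {i : Option (PF N) // i ≠ j} => emb N i.1) with hf
  have hmem : ∀ k : ℕ, f (a ^ Nat.totient ((p : ℕ) ^ (k + 1))) ∈ f.range.topologicalClosure :=
    fun k => f.range.le_topologicalClosure ⟨_, rfl⟩
  refine f.range.isClosed_topologicalClosure.mem_of_tendsto (f := fun k : ℕ =>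
    f (a ^ Nat.totient ((p : ℕ) ^ (k + 1)))) (b := atTop) ?_ (Eventually.of_forall hmem)
  rw [tendsto_pi_nhds]
  rintro ⟨l, hl⟩
  have hfl : ∀ k : ℕ, f (a ^ Nat.totient ((p : ℕ) ^ (k + 1))) ⟨l, hl⟩ =
      (emb N l a) ^ Nat.totient ((p : ℕ) ^ (k + 1)) := fun k => map_pow (emb N l) _ _
  simp only [hfl]
  by_cases hlp : l = some p
  · subst hlp
    rw [Pi.single_eq_same]
    exact tendsto_unit (p := (p : ℕ)) (u := emb N (some p) a) ha1
  · rw [Pi.single_eq_of_ne (fun h => hlp (congrArg Subtype.val h))]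
    exact (tendsto_pow_atTop_nhds_zero_of_norm_lt_one (ha2 l hl hlp)).comp
      (tendsto_ex (instFactPF N p).out)

end Vale.Agent.P092.H387.N
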