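import Vale.Agent.P092.H387.ExN2
import Vale.Agent.P092.H387.Ex5
import Vale.Agent.P092.H387.Ex6

/-!
P092 (helper387): `SL_n(ℤ[1/N])` in the product of the `SL_n` of the completions.
-/

open Set Filter Topology Matrix MeasureTheory

namespace Vale.Agent.P092.H387.N

section dens

variable {I : Type*} [Fintype I] [DecidableEq I] {K : I → Type*} [∀ i, Field (K i)]
  [∀ i, TopologicalSpace (K i)] [∀ i, IsTopologicalRing (K i)] {A : Type*} [CommRing A]
  (f : ∀ i, A →+* K i) {ι : Type*} [Fintype ι] [DecidableEq ι]

/-- **Density**: if `A` is dense in `∏ K_i` then `SL_n(A)` is dense in `∏ SL_n(K_i)`. -/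
theorem denseRange_mapPi (hf : DenseRange fun (a : A) i => f i a) :
    DenseRange fun (g : SpecialLinearGroup ι A) i => SpecialLinearGroup.map (f i) g := by
  set F : SpecialLinearGroup ι A →* ∀ i, SpecialLinearGroup ι (K i) :=
    MonoidHom.pi fun i => SpecialLinearGroup.map (f i) with hF
  set S := F.range.topologicalClosure with hS
  have h1 : ∀ (a b : ι) (hab : a ≠ b) (c : ∀ i, K i),
      (fun i => SpecialLinearGroup.transvection hab (c i)) ∈ S := by
    intro a b hab c
    have hcont : Continuous fun (c : ∀ i, K i) i =>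
        (SpecialLinearGroup.transvection hab (c i) : SpecialLinearGroup ι (K i)) :=
      continuous_pi fun i => (continuous_transvection hab).comp (continuous_apply i)
    have hcl : IsClosed {c : ∀ i, K i | (fun i => SpecialLinearGroup.transvection hab (c i) :
        ∀ i, SpecialLinearGroup ι (K i)) ∈ S} :=
      (F.range.isClosed_topologicalClosure).preimage hcont
    refine hf.induction_on c hcl fun x => ?_
    refine F.range.le_topologicalClosure ⟨SpecialLinearGroup.transvection hab x, ?_⟩
    funext i
    exact map_transvection (f i) hab x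
  have h2 : ∀ (i : I) (g : SpecialLinearGroup ι (K i)), Pi.mulSingle i g ∈ S := by
    intro i g
    have h3 : S.comap (MonoidHom.mulSingle (fun i => SpecialLinearGroup ι (K i)) i) = ⊤ := by
      refine eq_top_of_transvection _ fun a b hab c => ?_
      rw [Subgroup.mem_comap]
      have h4 : (MonoidHom.mulSingle (fun i => SpecialLinearGroup ι (K i)) i)
          (SpecialLinearGroup.transvection hab c) =
          fun l => SpecialLinearGroup.transvection hab ((Pi.single i c : ∀ i, K i) l) := by
        funext l
        rw [MonoidHom.mulSingle_apply]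
        by_cases hl : l = i
        · subst hl
          rw [Pi.mulSingle_eq_same, Pi.single_eq_same]
        · rw [Pi.mulSingle_eq_of_ne hl, Pi.single_eq_of_ne hl]
          apply Subtype.ext
          show (1 : Matrix ι ι (K l)) = Matrix.transvection a b 0
          rw [Matrix.transvection_zero]
      rw [h4]
      exact h1 a b hab _
    have h5 : g ∈ S.comap (MonoidHom.mulSingle (fun i => SpecialLinearGroup ι (K i)) i) := by
      rw [h3]; exact Subgroup.mem_top g
    exact h5
  intro x
  have h6 : x ∈ S := Subgroup.pi_mem_of_mulSingle_mem x fun i => h2 i (x i)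
  exact h6

end dens

variable (n N : ℕ) [hN : Fact (1 < N)]

/-- The group `SL_n` of the completion. -/
abbrev GK (i : Option (PF N)) := SpecialLinearGroup (Fin n) (KK N i)

/-- The diagonal map `SL_n(ℤ[1/N]) → ∏ SL_n(K_i)`. -/
noncomputable def diaN : SpecialLinearGroup (Fin n) (Zi N) →* ∀ i : Option (PF N), GK n N i :=
  MonoidHom.pi fun i => SpecialLinearGroup.map (emb N i)

theorem diaN_injective : Function.Injective (diaN n N) := by
  intro a b h
  exact map_injective n (emb_injective N none) (congrFun h none)

theorem diaN_injective_apply (i : Option (PF N)) : Function.Injective fun g => diaN n N g i :=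
  map_injective n (emb_injective N i)

/-- The projection to the product of all factors but one is dense. -/
theorem denseRange_diaN (j : Option (PF N)) :
    DenseRange fun (g : SpecialLinearGroup (Fin n) (Zi N)) (i : {i : Option (PF N) // i ≠ j}) =>
      diaN n N g i.1 :=
  denseRange_mapPi (fun i : {i : Option (PF N) // i ≠ j} => emb N i.1) (denseRange_away N j)

/-- The group `SL_n(ℤ[1/N])` in the product. -/
noncomputable def GamN : Subgroup (∀ i : Option (PF N), GK n N i) := (diaN n N).range

theorem emb_comp_int (i : Option (PF N)) :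
    (emb N i).comp (Int.castRingHom (Zi N)) = Int.castRingHom (KK N i) :=
  RingHom.ext_int _ _

/-- `SL_n(ℤ[1/N]) ∩ ∏ SL_n(ℤ_p) = SL_n(ℤ)` -/
theorem exists_SLZN {γ : SpecialLinearGroup (Fin n) (Zi N)}
    (h : ∀ p : PF N, (diaN n N γ (some p) : GP n p) ∈ Kp n (p : ℕ)) :
    ∃ δ : SpecialLinearGroup (Fin n) ℤ, SpecialLinearGroup.map (Int.castRingHom (Zi N)) δ = γ := by
  have h' := fun (p : PF N) i j => (mem_Kp n (p : ℕ)).1 (h p) i j
  choose m hm using fun i j => exists_intN N (a := γ i j) (fun p => h' p i j)
  have hM : (Matrix.of m).map (Int.castRingHom (Zi N)) = γ.1 := by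
    ext i j
    exact (hm i j).symm
  have hinj : Function.Injective (Int.castRingHom (Zi N)) := by
    intro a b hab
    have h1 := congrArg (emb N none) hab
    simpa using h1
  have hdet : (Matrix.of m).det = 1 := by
    apply hinj
    have h1 : Int.castRingHom (Zi N) (Matrix.of m).det =
        ((Matrix.of m).map (Int.castRingHom (Zi N))).det := RingHom.map_det _ _
    rw [h1, hM, map_one]
    exact γ.2
  exact ⟨⟨Matrix.of m, hdet⟩, Subtype.ext hM⟩

/-- The open subgroup `SL_n(K_∞) × ∏ SL_n(ℤ_p)`, and the compact open sets. -/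
def KpN : ∀ i : Option (PF N), Set (GK n N i) → Set (GK n N i)
  | none => fun F => F
  | some p => fun _ => (Kp n (p : ℕ) : Set (GP n (p : ℕ)))

instance instDiscGamN : DiscreteTopology (GamN n N) := by
  apply discreteTopology_of_isOpen_singleton_one
  rw [isOpen_induced_iff]
  set W : Set (GR n) := {g | ∀ i j, ‖g i j - (1 : Matrix (Fin n) (Fin n) ℝ) i j‖ < 1} with hW
  have hW1 : W = ⋂ i, ⋂ j, {g : GR n | ‖g i j - (1 : Matrix (Fin n) (Fin n) ℝ) i j‖ < 1} := by
    ext g
    simp only [hW, mem_iInter, mem_ofPred_eq]
  have hA : IsOpen W := by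
    rw [hW1]
    refine isOpen_iInter_of_finite fun i => isOpen_iInter_of_finite fun j => ?_
    refine isOpen_lt ?_ continuous_const
    have h1 : Continuous fun g : GR n => (g : Matrix (Fin n) (Fin n) ℝ) i j :=
      (continuous_apply_apply i j).comp continuous_subtype_val
    exact (h1.sub continuous_const).norm
  have hU : ∀ i, IsOpen (KpN n N i ((show ∀ i, Set (GK n N i) from
      fun | none => W | some _ => univ) i)) := by
    rintro (_ | p)
    · exact hA
    · exact isOpen_Kp n (p : ℕ)
  refine ⟨Set.pi univ fun i => KpN n N i ((show ∀ i, Set (GK n N i) from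
      fun | none => W | some _ => univ) i), isOpen_set_pi finite_univ fun i _ => hU i, ?_⟩
  ext ⟨g, hg⟩
  obtain ⟨γ, rfl⟩ := hg
  simp only [mem_preimage, mem_singleton_iff]
  constructor
  · intro h
    have h2 : ∀ p : PF N, (diaN n N γ (some p) : GP n p) ∈ Kp n (p : ℕ) := fun p =>
      h (some p) (mem_univ _)
    have h1 : (diaN n N γ none : GR n) ∈ W := h none (mem_univ _)
    obtain ⟨δ, rfl⟩ := exists_SLZN n N h2
    have h3 : δ = 1 := by
      apply Subtype.ext
      ext i j
      have h4 := h1 i j
      have h5 : (diaN n N (SpecialLinearGroup.map (Int.castRingHom (Zi N)) δ) none : GR n) i j =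
          ((δ i j : ℤ) : ℝ) := RingHom.congr_fun (emb_comp_int N none) (δ i j)
      rw [h5] at h4
      have h6 : (1 : Matrix (Fin n) (Fin n) ℝ) i j =
          (((1 : Matrix (Fin n) (Fin n) ℤ) i j : ℤ) : ℝ) := by
        rw [Matrix.one_apply, Matrix.one_apply]; split_ifs <;> simp
      rw [h6, ← Int.cast_sub, Real.norm_eq_abs, ← Int.cast_abs] at h4
      have h7 : |δ i j - (1 : Matrix (Fin n) (Fin n) ℤ) i j| < 1 := by exact_mod_cast h4
      have h8 := Int.abs_lt_one_iff.1 h7
      exact sub_eq_zero.1 h8
    rw [h3]
    apply Subtype.ext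
    simp
  · intro h
    have h1 : diaN n N γ = 1 := congrArg Subtype.val h
    rw [h1]
    rintro (_ | p) -
    · intro i j
      have h2 : ‖(1 : Matrix (Fin n) (Fin n) ℝ) i j - (1 : Matrix (Fin n) (Fin n) ℝ) i j‖ < 1 := by
        rw [sub_self, norm_zero]
        exact one_pos
      exact h2
    · exact (Kp n (p : ℕ)).one_mem

end Vale.Agent.P092.H387.N
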