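import Vale.Agent.P092.H387.ExP1

/-!
P092 (helper387), [N-PSL] (6): `PSL_n(A)` is ICC for every infinite domain `A`.
-/

set_option linter.all false

open Set Matrix Module Topology

namespace Vale.Agent.P092.H387.N

/-- Non-central elements of `SL_n(A)` have infinite conjugacy classes, `A` an infinite domain. -/
theorem infinite_conj' {A : Type*} [CommRing A] [IsDomain A] [Infinite A] {n : ℕ}
    (g : SpecialLinearGroup (Fin n) A)
    (hg : g ∉ Subgroup.center (SpecialLinearGroup (Fin n) A)) :
    Set.Infinite {y : SpecialLinearGroup (Fin n) A | ∃ h, y = h * g * h⁻¹} := by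
  intro hfin
  apply hg
  have key : ∀ i j : Fin n, ∀ hij : i ≠ j, (∀ k, k ≠ i → g.1 k i = 0) ∧ g.1 i i = g.1 j j := by
    intro i j hij
    have hmaps : MapsTo (fun t : A => SpecialLinearGroup.transvection hij t * g *
        (SpecialLinearGroup.transvection hij t)⁻¹) univ
        {y : SpecialLinearGroup (Fin n) A | ∃ h, y = h * g * h⁻¹} :=
      fun t _ => ⟨_, rfl⟩
    obtain ⟨s, -, t, -, hst, heq⟩ := Set.infinite_univ.exists_ne_map_eq_of_mapsTo hmaps hfin
    have hc : (s - t) ≠ 0 := sub_ne_zero.2 hst
    have h1 : SpecialLinearGroup.transvection hij (s - t) * g =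
        g * SpecialLinearGroup.transvection hij (s - t) := by
      have e1 : SpecialLinearGroup.transvection hij (s - t) =
          (SpecialLinearGroup.transvection hij t)⁻¹ *
            SpecialLinearGroup.transvection hij s := by
        rw [eq_inv_mul_iff_mul_eq, transvection_add', add_sub_cancel]
      have heq' : SpecialLinearGroup.transvection hij s * g *
        (SpecialLinearGroup.transvection hij s)⁻¹ =
        SpecialLinearGroup.transvection hij t * g *
        (SpecialLinearGroup.transvection hij t)⁻¹ := heq
      have e2 : SpecialLinearGroup.transvection hij s * g =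
          SpecialLinearGroup.transvection hij t * g *
          (SpecialLinearGroup.transvection hij t)⁻¹ *
          SpecialLinearGroup.transvection hij s := by
        rw [← heq']; group
      rw [e1, mul_assoc, e2]; group
    exact entries_of_commute hc (congrArg Subtype.val h1)
  rcases Nat.eq_zero_or_pos n with rfl | hpos
  · rw [Subsingleton.elim g 1]
    exact Subgroup.one_mem _
  set i0 : Fin n := ⟨0, hpos⟩
  have hscal : g.1 = Matrix.diagonal fun _ => g.1 i0 i0 := by
    ext i j
    by_cases hij : i = j
    · subst hij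
      rw [Matrix.diagonal_apply_eq]
      by_cases h0 : i = i0
      · rw [h0]
      · exact (key i i0 h0).2
    · rw [Matrix.diagonal_apply_ne _ hij]
      exact (key j i (Ne.symm hij)).1 i hij
  refine Matrix.SpecialLinearGroup.mem_center_iff.2 ⟨g.1 i0 i0, ?_, ?_⟩
  · have h1 : g.1.det = 1 := g.2
    rw [hscal, Matrix.det_diagonal, Finset.prod_const, Finset.card_univ] at h1
    exact h1
  · rw [Matrix.scalar_apply]
    exact hscal.symm

/-- **`PSL_n(A)` is ICC**, `A` an infinite domain, every `n`. -/
theorem icc_psl' {A : Type*} [CommRing A] [IsDomain A] [Infinite A] {n : ℕ} :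
    ∀ g : SpecialLinearGroup (Fin n) A ⧸ Subgroup.center (SpecialLinearGroup (Fin n) A), g ≠ 1 →
      Set.Infinite {y | ∃ h, y = h * g * h⁻¹} :=
  icc_quo _ finite_center fun g hg => infinite_conj' g hg

/-- `SL_n(A)` is ICC if there are no nontrivial roots of unity of order dividing `n`. -/
theorem icc_sl' {A : Type*} [CommRing A] [IsDomain A] [Infinite A] {n : ℕ}
    (h : ∀ r : A, r ^ n = 1 → r = 1) :
    ∀ g : SpecialLinearGroup (Fin n) A, g ≠ 1 →
      Set.Infinite {y | ∃ h, y = h * g * h⁻¹} := by
  refine fun g hg => infinite_conj' g fun hc => hg ?_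
  obtain ⟨r, hr, hs⟩ := Matrix.SpecialLinearGroup.mem_center_iff.1 hc
  rw [Fintype.card_fin] at hr
  apply Subtype.ext
  rw [← hs, h r hr, map_one]
  rfl

end Vale.Agent.P092.H387.N
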