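import Vale.Agent.P092.H387.Fx1
import Vale.Agent.P092.H387.Pl2
import Vale.Agent.P092.H387.Icx

/-!
P092 (helper387), [N-PSL] (8): `SL_N(F[x])` and `PSL_N(F[x])` are ICC lattices of `SL_N(F((1/x)))` and
`PSL_N(F((1/x)))`, `F` a finite field.
-/

set_option linter.all false

open Topology Filter Set

namespace Vale.Agent.P092.H387.Fx

open Matrix
open Vale.Agent.P092.H678 hiding ord
open Vale.Agent.P092.H515.St Vale.Agent.P092.SR.St

variable {F : Type} [Field F]

/-- roots of unity in `F[x]` -/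
theorem root_poly [Finite F] {n : ℕ} (hn : n ≠ 0) (hc : Nat.Coprime n (Nat.card F - 1))
    (r : Polynomial F) (hr : r ^ n = 1) : r = 1 := by
  apply Polynomial.toLaurent_injective
  rw [map_one]
  exact eq_one_of_pow hn hc (by rw [← map_pow, hr, map_one])

theorem locK_LS [Finite F] : LocK (LS F) := LocK.ultra (k := LS F) inferInstance

/-- **`SL_N(F[x])`, `gcd(N, |F| - 1) = 1`, is an ICC lattice of `SL_N(F((1/x)))`.** -/
theorem sl_Fx [Finite F] {N : ℕ} (hN : 2 ≤ N) (hc : Nat.Coprime N (Nat.card F - 1)) :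
    ICC (SpecialLinearGroup (Fin N) (Polynomial F)) ∧
    Function.Injective (SpecialLinearGroup.map (n := Fin N) (jF : Polynomial F →+* LS F)) ∧
    IsLattice (SpecialLinearGroup.map (n := Fin N) (jF : Polynomial F →+* LS F)).range := by
  refine ⟨H387.N.icc_sl' (root_poly (by omega) hc), fun g h e => ?_, lat_SLFx hN⟩
  refine Matrix.SpecialLinearGroup.ext _ _ fun i j => jF_inj ?_
  exact congrArg (fun g : SLn N F => (g : Matrix (Fin N) (Fin N) (LS F)) i j) e

/-- **`PSL_N(F[x])` is an ICC lattice of `PSL_N(F((1/x)))`**, all `N ≥ 2`, all finite fields `F`. -/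
theorem psl_Fx [Finite F] {N : ℕ} (hN : 2 ≤ N) :
    ICC (SpecialLinearGroup (Fin N) (Polynomial F) ⧸
      Subgroup.center (SpecialLinearGroup (Fin N) (Polynomial F))) ∧
    Function.Injective (H387.N.pmap (jF : Polynomial F →+* LS F) N) ∧
    IsLattice (H387.N.pmap (jF : Polynomial F →+* LS F) N).range :=
  ⟨H387.N.icc_psl', Ad.pmap_inj _ N jF_inj, Ad.pmap_lat _ N (lat_SLFx hN)⟩

end Vale.Agent.P092.H387.Fx
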