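import Vale.Agent.P092.H387.StS
import Vale.Agent.P092.H387.Fx2
import Vale.Agent.P092.SNP.Top

/-!
P092, Team N (helper387): the top of the assembly for one factor `SL_n(k)`, `PSL_n(k)`: it is enough
to know the groups `PSL_n(k)`.
-/

set_option linter.all false

open Matrix Filter Topology

namespace Vale.Agent.P092.SNS

open Vale.Agent.P092.H515.St Vale.Agent.P092.SR.St Vale.Agent.P092.SNS.St
open Vale.Agent.P092.H387 Vale.Agent.P092.H387.Ad

/-- An ICC lattice of `SL_n(k)` or `PSL_n(k)` is a lattice of `PSL_n(k)`. -/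
theorem exists_ps {Γ : Type} [Group Γ] (h : LatticeS Γ) :
    ∃ (k : Type) (_ : NontriviallyNormedField k) (_ : ProperSpace k) (n : ℕ) (i : Γ →* PS n k),
      LocK k ∧ 3 ≤ n ∧ Function.Injective i ∧ IsLattice i.range := by
  obtain ⟨hicc, k, _, n, hp, hk, hn, ⟨i, hi, hl⟩ | ⟨i, hi, hl⟩⟩ := h
  · haveI := hp
    exact ⟨k, inferInstance, hp, n, (QuotientGroup.mk' _).comp i, hk, hn,
      inj_comp_icc hicc hi _ fun e he x =>
        (Subgroup.mem_center_iff.1 ((QuotientGroup.eq_one_iff e).1 he)) x,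
      lat_comp hl _ continuous_quotient_mk' (QuotientGroup.mk'_surjective _)
        fun C hC => H793.proper_mk _ (finite_center_sl n k).isCompact C hC⟩
  · exact ⟨k, inferInstance, hp, n, i, hk, hn, hi, hl⟩

theorem locK_real : LocK ℝ := LocK.real (RingEquiv.refl ℝ) fun _ => rfl

theorem isLattice_sub {Γ E : Type} [Group Γ] [Group E] [TopologicalSpace E]
    [IsTopologicalGroup E] [LocallyCompactSpace E] [SecondCountableTopology E] [T2Space E]
    {i : Γ →* E} (hi : Function.Injective i) (hl : IsLattice i.range) (Δ : Subgroup Γ)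
    (hfi : Δ.FiniteIndex) : IsLattice (i.comp Δ.subtype).range := by
  rw [MonoidHom.range_comp, Subgroup.range_subtype]
  refine SNP.st_lat (SNP.isLattice_fi (SNP.lat_st hl) (by rintro _ ⟨x, -, rfl⟩; exact ⟨x, rfl⟩) ⟨?_⟩)
  change (Δ.map i).relIndex i.range ≠ 0
  rw [MonoidHom.range_eq_map, Subgroup.relIndex_map_map_of_injective _ _ hi,
    Subgroup.relIndex_top_right]
  exact hfi.index_ne_zero

/-- Subgroups of finite index of `PSL_n(ℤ)`. -/
theorem latticeS_Z {n : ℕ} (hn : 3 ≤ n) (Γ : Subgroup (SpecialLinearGroup (Fin n) ℤ ⧸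
    Subgroup.center (SpecialLinearGroup (Fin n) ℤ))) (hΓ : Γ.FiniteIndex) : LatticeS Γ := by
  obtain ⟨h1, h2, h3⟩ := psl_Z n
  exact ⟨SNP.icc_fi h1 Γ hΓ, ℝ, inferInstance, n, inferInstance, locK_real, hn,
    Or.inr ⟨(pz n).comp Γ.subtype, h2.comp Subtype.val_injective, isLattice_sub h2 h3 Γ hΓ⟩⟩

/-- `PSL_n(F[x])`. -/
theorem latticeS_Fx (F : Type) [Field F] [Finite F] {n : ℕ} (hn : 3 ≤ n) :
    LatticeS (SpecialLinearGroup (Fin n) (Polynomial F) ⧸
      Subgroup.center (SpecialLinearGroup (Fin n) (Polynomial F))) := by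
  obtain ⟨h1, h2, h3⟩ := Fx.psl_Fx (F := F) (N := n) (by omega)
  exact ⟨h1, H678.LS F, inferInstance, n, inferInstance, Fx.locK_LS, hn, Or.inr ⟨_, h2, h3⟩⟩

/-- **The final statement from the core statement for the groups `PSL_n(k)`**. -/
theorem final1S_of (h : ∀ (k : Type) [NontriviallyNormedField k] [ProperSpace k], LocK k →
    ∀ n, 3 ≤ n → SN.CoreE (PS n k)) : Final1S := by
  have h1 : ∀ (Γ : Type) [Group Γ], LatticeS Γ → Super Γ := by
    intro Γ _ hΓ
    obtain ⟨k, _, _, n, i, hk, hn, hi, hl⟩ := exists_ps hΓ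
    exact SN.super_of_coreE (h k hk n hn) hΓ.1 i hi hl
  exact ⟨h1, fun n hn Γ hΓ => h1 _ (latticeS_Z hn Γ hΓ),
    fun F _ _ n hn => h1 _ (latticeS_Fx F hn)⟩

theorem nf_of_typeA {E : Type} [Group E] [TopologicalSpace E] (h : SNP.St.TypeA E) : NF E := by
  cases h with
  | sl n k hk hn => exact nf_sl n k hk hn
  | psl n k hk hn => exact nf_psl n k hk hn

/-- The products: the core statement for the products of groups `PSL_n(k)` is enough. -/
theorem final1P_of (h : ∀ (I : Type) [Fintype I] (n : I → ℕ) (k : I → Type)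
    [∀ j, NontriviallyNormedField (k j)] [∀ j, ProperSpace (k j)], (∀ j, LocK (k j)) →
    (∀ j, 3 ≤ n j) → SN.CoreE (∀ j, PS (n j) (k j))) : SNP.St.Final1 := by
  intro Γ _ hΓ
  obtain ⟨hicc, I, _, E, _, _, i, ht, hi, hl⟩ := hΓ
  have hnf : ∀ j, NF (E j) := fun j => nf_of_typeA (ht j)
  obtain ⟨n, k, hk, hP, i', hL, hn, hi', hl'⟩ := lat_normal hnf hicc i hi hl
  exact SN.super_of_coreE (h I n k hL hn) hicc i' hi' hl'

/-! ### One field -/

/-- a proper central extension of `PSL_n(k)` -/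
def NFK (n : ℕ) (k : Type) [NontriviallyNormedField k] (E : Type) [Group E] [TopologicalSpace E] :
    Prop :=
  IsTopologicalGroup E ∧ T2Space E ∧ ∃ p : E →* PS n k, Continuous p ∧ Function.Surjective p ∧
    (∀ C : Set (PS n k), IsCompact C → IsCompact (p ⁻¹' C)) ∧ ∀ e, p e = 1 → ∀ x, x * e = e * x

theorem nfk_of_typeK {n : ℕ} {k : Type} [NontriviallyNormedField k] {E : Type} [Group E]
    [TopologicalSpace E] (h : SNP.St.TypeK n k E) : NFK n k E := by
  cases h with
  | sl => exact ⟨inferInstance, inferInstance, QuotientGroup.mk' _, continuous_quotient_mk',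
      QuotientGroup.mk'_surjective _,
      fun C hC => H793.proper_mk _ (finite_center_sl n k).isCompact C hC,
      fun e he x => (Subgroup.mem_center_iff.1 ((QuotientGroup.eq_one_iff e).1 he)) x⟩
  | psl => exact ⟨inferInstance, t2_ps n k, MonoidHom.id _, continuous_id,
      Function.surjective_id, fun C hC => hC, fun e he x => by
        have he : e = 1 := he
        rw [he, mul_one, one_mul]⟩

/-- Lattices in products over one field are lattices in products of groups `PSL_n(k)`. -/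
theorem lat_normalK {k : Type} [NontriviallyNormedField k] [ProperSpace k] {I : Type} [Fintype I]
    {n : I → ℕ} {E : I → Type} [∀ j, Group (E j)] [∀ j, TopologicalSpace (E j)]
    (hE : ∀ j, NFK (n j) k (E j)) {Γ : Type} [Group Γ] (hicc : ICC Γ)
    (i : Γ →* ∀ j, E j) (hi : Function.Injective i) (hl : IsLattice i.range) :
    ∃ i' : Γ →* ∀ j, PS (n j) k, Function.Injective i' ∧ IsLattice i'.range := by
  haveI := fun j => (hE j).1
  haveI := fun j => (hE j).2.1
  choose p hc hs hp hz using fun j => (hE j).2.2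
  exact ⟨(prP p).comp i, inj_comp_icc hicc hi _ (prP_central hz),
    lat_comp hl _ (prP_cont hc) (prP_surj hs) (prP_proper hc hp)⟩

/-- The products over one field: the core statement for the products of groups `PSL_n(k)` is
enough. -/
theorem final1KP_of (h : ∀ (k : Type) [NontriviallyNormedField k] [ProperSpace k], LocK k →
    ∀ (I : Type) [Fintype I] (n : I → ℕ), (∀ j, 3 ≤ n j) → SN.CoreE (∀ j, PS (n j) k)) :
    SNP.St.Final1K := by
  intro k _ _ hk Γ _ hΓ
  obtain ⟨hicc, I, _, n, E, _, _, i, hn, ht, hi, hl⟩ := hΓ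
  obtain ⟨i', hi', hl'⟩ := lat_normalK (fun j => nfk_of_typeK (ht j)) hicc i hi hl
  exact SN.super_of_coreE (h k hk I n hn) hicc i' hi' hl'

end Vale.Agent.P092.SNS
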