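import Vale.Agent.P092.H678.ExSt
import Vale.Agent.P092.H793.Lat
import Vale.Agent.P092.H303.Form

/-!
P092 (helper387), [N-PSL] (7): `SL_N(F[x])` is a lattice of `SL_N(F((1/x)))`, `F` a finite field.
-/

set_option linter.all false

open Topology Filter Set

namespace Vale.Agent.P092.H387.Fx

open scoped LaurentPolynomial
open Matrix
open Vale.Agent.P092.H678 hiding ord
open Vale.Agent.P092.H515.St

variable {F : Type} [Field F]

theorem coeff_nat (f : Polynomial F) (i : ℕ) :
    (Polynomial.toLaurent f).coeff (i : ℤ) = f.coeff i := by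
  rw [LaurentPolynomial.coeff_toLaurent]
  exact Finsupp.mapDomain_apply Nat.castEmbedding.injective _ _

theorem coeff_neg (f : Polynomial F) {i : ℤ} (hi : i < 0) :
    (Polynomial.toLaurent f).coeff i = 0 := by
  rw [← Finsupp.notMem_support_iff, LaurentPolynomial.support_coeff_toLaurent, Finset.mem_map]
  rintro ⟨n, -, rfl⟩
  exact absurd hi (not_lt.2 (Int.natCast_nonneg n))

/-- Laurent polynomials without negative coefficients are polynomials. -/
theorem exists_poly {p : F[T;T⁻¹]} (h : ∀ i < 0, p.coeff i = 0) :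
    ∃ P : Polynomial F, Polynomial.toLaurent P = p := by
  obtain ⟨n, f, hf⟩ := LaurentPolynomial.exists_T_pow p
  have h1 : ∀ d < n, f.coeff d = 0 := by
    intro d hd
    rw [← coeff_nat, hf, ← cf_φ₁, map_mul, φ₁_T, cf_mul_X, cf_φ₁]
    exact h _ (by omega)
  obtain ⟨P, hP⟩ := Polynomial.X_pow_dvd_iff.2 h1
  refine ⟨P, ?_⟩
  rw [hP, map_mul, Polynomial.toLaurent_X_pow, mul_comm] at hf
  have h2 := congrArg (fun x => x * LaurentPolynomial.T (-(n : ℤ))) hf
  simp only [mul_assoc, ← LaurentPolynomial.T_add, add_neg_cancel, LaurentPolynomial.T_zero,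
    mul_one] at h2
  exact h2

/-- `F[x] → F((X))`, `x ↦ 1/X`: the embedding of `F[x]` in its completion at the infinite place -/
noncomputable def jF : Polynomial F →+* LS F := (φ₂ : F[T;T⁻¹] →+* LS F).comp Polynomial.toLaurent

theorem jF_inj : Function.Injective (jF : Polynomial F →+* LS F) :=
  φ₂_inj.comp Polynomial.toLaurent_injective

variable {N : ℕ}

/-- the slice of `SL_N(F[t,1/t])` is `SL_N(F[x])`, `x = 1/t` -/
theorem slice_eq : ((K₀ N F).comap (SpecialLinearGroup.map (φ₂ : F[T;T⁻¹] →+* LS F))).map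
    (SpecialLinearGroup.map (φ₁ : F[T;T⁻¹] →+* LS F)) =
      (SpecialLinearGroup.map (n := Fin N) (jF : Polynomial F →+* LS F)).range := by
  ext x
  constructor
  · rintro ⟨γ, hγ, rfl⟩
    have h1 : ∀ i j, ∃ P : Polynomial F,
        Polynomial.toLaurent P = LaurentPolynomial.invert (γ.1 i j) := by
      intro i j
      refine exists_poly fun s hs => ?_
      have h2 := norm_le_one_iff.1 (mem_K₀.1 hγ i j) s hs
      have h3 : cf (φ₂ (γ.1 i j)) s = 0 := h2
      rwa [φ₂_apply, cf_φ₁] at h3
    choose P hP using h1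
    have hdet : (Matrix.of P).det = 1 := by
      apply Polynomial.toLaurent_injective
      rw [RingHom.map_det, map_one]
      have e : (Polynomial.toLaurent : Polynomial F →+* F[T;T⁻¹]).mapMatrix (Matrix.of P) =
          (LaurentPolynomial.invert : F[T;T⁻¹] ≃ₐ[F] F[T;T⁻¹]).toRingEquiv.toRingHom.mapMatrix
            γ.1 := by
        ext1 i j
        exact hP i j
      rw [e, ← RingHom.map_det, γ.2, map_one]
    refine ⟨⟨Matrix.of P, hdet⟩, ?_⟩
    refine Matrix.SpecialLinearGroup.ext _ _ fun i j => ?_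
    change φ₁ (LaurentPolynomial.invert (Polynomial.toLaurent (P i j))) = φ₁ (γ.1 i j)
    rw [hP, ← LaurentPolynomial.involutive_invert (γ.1 i j)]
    rw [LaurentPolynomial.involutive_invert (LaurentPolynomial.invert (γ.1 i j))]
  · rintro ⟨g, rfl⟩
    refine ⟨SpecialLinearGroup.map
      ((LaurentPolynomial.invert : F[T;T⁻¹] ≃ₐ[F] F[T;T⁻¹]).toRingEquiv.toRingHom.comp
        Polynomial.toLaurent) g, ?_, ?_⟩
    · refine mem_K₀.2 fun i j => norm_le_one_iff.2 fun s hs => ?_
      change cf (φ₂ (LaurentPolynomial.invert (Polynomial.toLaurent (g.1 i j)))) s = 0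
      rw [cf_φ₂, LaurentPolynomial.invert_apply, neg_neg]
      exact coeff_neg _ hs
    · rfl

/-- **`SL_N(F[x])` is a lattice of `SL_N(F((1/x)))`**, `F` a finite field, `N ≥ 2`. -/
theorem lat_SLFx [Finite F] (hN : 2 ≤ N) :
    IsLattice (SpecialLinearGroup.map (n := Fin N) (jF : Polynomial F →+* LS F)).range := by
  haveI : LocallyCompactSpace (SLn N F) := H303.locallyCompact_SL
  haveI : SecondCountableTopology (SLn N F) := H303.secondCountable_SL
  rw [← slice_eq]
  exact H793.lattice_slice (SpecialLinearGroup.map (φ₁ : F[T;T⁻¹] →+* LS F))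
    (SpecialLinearGroup.map (φ₂ : F[T;T⁻¹] →+* LS F)) (isLattice_Gam N F hN) (K₀ N F)
    isCompact_K₀ isOpen_K₀

end Vale.Agent.P092.H387.Fx
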