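import Vale.Agent.P092.H714.StF
import Vale.Agent.P092.H387.ExP1
import Vale.Agent.P092.Q.Ex

/-!
P092 (helper387), [QC-QUOT] (9): `PSL_n(ℤ[1/N])`, all `n ≥ 2`, and the lattices in products of groups
`SL_n(k)` are in the class of the final statement (`H714/StF`).
-/

set_option linter.all false

open Matrix Filter Topology
open Vale.Agent.P092.H515.St Vale.Agent.P092.SR.St Vale.Agent.P092.PC.St

namespace Vale.Agent.P092.H387.N

/-- `PSL_n(ℤ[1/N])` in the product of the groups `PSL_n(K_i)`. -/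
theorem denseLattice_pq (m N : ℕ) [Fact (1 < N)] :
    DenseLattice (MonoidHom.pi (pq (m + 1) N)) where
  inj := by
    rw [injective_iff_map_eq_one]
    intro g hg
    exact pq_inj (m + 1) N g fun i => congrFun hg i
  lat := pq_lattice N m
  dense := fun i => pq_dense (m + 1) N i

theorem clsF_PGK {n : ℕ} (h2 : 2 ≤ n) (N : ℕ) (i : Option (PF N)) : PC.StF.Cls (PGK n N i) :=
  PC.StF.Cls.quo _ (PC.StF.ClsH.sl (KK N i) (Q.locK_KK N i) n h2) _ le_rfl

/-- **`PSL_n(ℤ[1/N])`, `n ≥ 2`, `N ≥ 2`, is in the class of the final statement.** -/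
theorem classF_PSLN {n N : ℕ} (h2 : 2 ≤ n) (hN : 2 ≤ N) :
    PC.StF.ClassLattice (SpecialLinearGroup (Fin n) (Localization.Away (N : ℤ)) ⧸
      Subgroup.center (SpecialLinearGroup (Fin n) (Localization.Away (N : ℤ)))) := by
  haveI : Fact (1 < N) := ⟨hN⟩
  obtain ⟨m, rfl⟩ : ∃ m, n = m + 1 := ⟨n - 1, by omega⟩
  exact ⟨icc_PSLN (m + 1) N, Option (PF N), inferInstance, PGK (m + 1) N, inferInstance,
    inferInstance, MonoidHom.pi (pq (m + 1) N), clsF_PGK h2 N, denseLattice_pq m N⟩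

/-- The class of `Q.St` is contained in the class of the final statement. -/
theorem classF_of_product {Γ : Type} [Group Γ] (h : Q.St.ProductLattice Γ) :
    PC.StF.ClassLattice Γ := by
  obtain ⟨hicc, I, _, k, hk, n, i, hp, hl, hn, hi, hlat, hd⟩ := h
  exact ⟨hicc, I, inferInstance, fun j => SpecialLinearGroup (Fin (n j)) (k j), inferInstance,
    inferInstance, i, fun j => PC.StF.Cls.of _ (PC.StF.ClsH.sl (k j) (hl j) (n j) (hn j)),
    ⟨hi, hlat, hd⟩⟩

theorem classF_SLN {n N : ℕ} (hn : Odd n) (h3 : 3 ≤ n) (hN : 2 ≤ N) :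
    PC.StF.ClassLattice (SpecialLinearGroup (Fin n) (Localization.Away (N : ℤ))) :=
  classF_of_product (Q.productLattice_SL n N hn h3 hN)

end Vale.Agent.P092.H387.N
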