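import Vale.Agent.P092.H387.Fx2
import Vale.Agent.P092.H387.PsF

/-!
P092 (helper387), [QC-QUOT] (10): `PSL_N(F[t,1/t])`, all `N ≥ 2`, all finite fields `F`, is in the class
of the final statement (`H714/StF`).
-/

set_option linter.all false

open Topology Filter Set

namespace Vale.Agent.P092.H387.Fx

open scoped LaurentPolynomial
open Matrix
open Vale.Agent.P092.H678 hiding ord
open Vale.Agent.P092.H515.St Vale.Agent.P092.SR.St

/-- products of two equal groups as functions on `Bool` -/
def eB (A : Type) [Group A] : A × A ≃* (Bool → A) where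
  toFun x b := if b then x.1 else x.2
  invFun f := (f true, f false)
  left_inv x := rfl
  right_inv f := by
    funext b
    cases b <;> rfl
  map_mul' x y := by
    funext b
    cases b <;> rfl

theorem eB_cont (A : Type) [Group A] [TopologicalSpace A] : Continuous (eB A) := by
  refine continuous_pi fun b => ?_
  cases b
  · exact continuous_snd
  · exact continuous_fst

theorem eB_symm_cont (A : Type) [Group A] [TopologicalSpace A] : Continuous (eB A).symm :=
  (continuous_apply true).prodMk (continuous_apply false)

section two

variable {A : Type} [CommRing A] {k : Type} [NontriviallyNormedField k] [ProperSpace k]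
  (f g : A →+* k) (n : ℕ)

/-- the two maps -/
noncomputable def two : SpecialLinearGroup (Fin n) A ⧸ Subgroup.center (SpecialLinearGroup (Fin n) A) →*
    (Bool → Ad.PS n k) :=
  MonoidHom.pi fun b => if b then N.pmap f n else N.pmap g n

theorem two_mk (x : SpecialLinearGroup (Fin n) A) (b : Bool) :
    two f g n (QuotientGroup.mk' _ x) b = QuotientGroup.mk' _
      (eB (SpecialLinearGroup (Fin n) k) (SpecialLinearGroup.map f x, SpecialLinearGroup.map g x) b) := by
  cases b <;> rfl

theorem dense_two (hf : Function.Injective f)
    (hi : IrrLattice ((SpecialLinearGroup.map (n := Fin n) f).prod (SpecialLinearGroup.map g))) :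
    DenseLattice (two f g n) where
  inj := by
    rw [injective_iff_map_eq_one]
    intro x hx
    refine (injective_iff_map_eq_one (N.pmap f n)).1 (Ad.pmap_inj f n hf) x ?_
    exact congrFun hx true
  lat := by
    haveI : LocallyCompactSpace (SpecialLinearGroup (Fin n) k) := H303.locallyCompact_SL
    have h1 := H971.isLattice_equiv (eB (SpecialLinearGroup (Fin n) k)) (eB_cont _)
      (eB_symm_cont _) hi.lat
    rw [MonoidHom.map_range] at h1
    have h2 := Ad.lat_comp h1 (Ad.prP fun _ : Bool => QuotientGroup.mk'
      (Subgroup.center (SpecialLinearGroup (Fin n) k))) (Ad.prP_cont fun _ => continuous_quotient_mk')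
      (Ad.prP_surj fun _ => QuotientGroup.mk'_surjective _)
      (Ad.prP_proper (fun _ => continuous_quotient_mk')
        fun _ C hC => H793.proper_mk _ (Ad.finite_center_sl n k).isCompact C hC)
    have e : (two f g n).range = ((Ad.prP fun _ : Bool => QuotientGroup.mk'
        (Subgroup.center (SpecialLinearGroup (Fin n) k))).comp
          (((eB (SpecialLinearGroup (Fin n) k)) : _ →* _).comp
            ((SpecialLinearGroup.map (n := Fin n) f).prod (SpecialLinearGroup.map g)))).range := by
      ext x
      constructor
      · rintro ⟨y, rfl⟩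
        obtain ⟨y, rfl⟩ := QuotientGroup.mk'_surjective _ y
        exact ⟨y, funext fun b => (two_mk f g n y b).symm⟩
      · rintro ⟨y, rfl⟩
        exact ⟨QuotientGroup.mk' _ y, funext fun b => two_mk f g n y b⟩
    rw [e]
    exact h2
  dense b := by
    have key : ∀ {h : A →+* k}, DenseRange (SpecialLinearGroup.map (n := Fin n) h) →
        DenseRange (N.pmap h n) := by
      intro h hd
      have h1 : DenseRange fun x => (QuotientGroup.mk' (Subgroup.center
          (SpecialLinearGroup (Fin n) k))) (SpecialLinearGroup.map h x) :=
        (QuotientGroup.mk'_surjective _).denseRange.comp hd QuotientGroup.continuous_mk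
      refine h1.mono ?_
      rintro _ ⟨x, rfl⟩
      exact ⟨QuotientGroup.mk' _ x, rfl⟩
    cases b
    · exact key hi.dense₂
    · exact key hi.dense₁

end two

/-- **`PSL_N(F[t,1/t])`, `N ≥ 2`, `F` any finite field, is in the class of the final statement.** -/
theorem classF_PSLF (F : Type) [Field F] [Finite F] {N : ℕ} (hN : 2 ≤ N) :
    PC.StF.ClassLattice (SpecialLinearGroup (Fin N) (LaurentPolynomial F) ⧸
      Subgroup.center (SpecialLinearGroup (Fin N) (LaurentPolynomial F))) := by
  haveI : IsDomain F[T;T⁻¹] := Function.Injective.isDomain (φ₁ : F[T;T⁻¹] →+* LS F) φ₁_inj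
  haveI : Infinite F[T;T⁻¹] := by
    refine Infinite.of_injective (fun n : ℕ => (LaurentPolynomial.T (n : ℤ) : F[T;T⁻¹])) ?_
    intro a b hab
    have h1 := congrArg (fun p => H678.ord (φ₁ p)) hab
    simp only [φ₁_T, ord_X] at h1
    exact_mod_cast h1
  exact ⟨H387.N.icc_psl', Bool, inferInstance, fun _ => Ad.PS N (LS F), inferInstance,
    inferInstance, two φ₁ φ₂ N, fun _ => PC.StF.Cls.quo _ (PC.StF.ClsH.sl (LS F) locK_LS N hN) _ le_rfl,
    dense_two φ₁ φ₂ N φ₁_inj (irrLattice_emb N F hN)⟩

end Vale.Agent.P092.H387.Fx
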