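import Vale.Agent.P092.H387.StZ
import Vale.Agent.P092.H387.Qt4
import Vale.Agent.P092.H387.Qt5
import Vale.Agent.P092.H714.ClsQ
import Vale.Agent.P092.QC.FinC

/-!
P092 (helper387), [QC-QUOT] (7): the class with central quotients.
-/

set_option linter.all false

open Matrix Filter Topology

namespace Vale.Agent.P092.H387.Qt

open Vale.Agent.P092.H303 (FormGroup hyp Idx)
open Vale.Agent.P092.PC.St Vale.Agent.P092.QC.St
open Vale.Agent.P092.QC (QF)
open Vale.Agent.P092.SR Vale.Agent.P092.SR.St
open Vale.Agent.P092.H160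
open Vale.Agent.P092.H714.Cl

/-- The central quotients of the groups of the class have chains of the same length. -/
theorem chn_cls {G : Type} [hGg : Group G] [hT : TopologicalSpace G] (h : Cls G) :
    ∃ r, QF G r ∧ ∀ (Z : Subgroup G) [Z.Normal], Z ≤ Subgroup.center G → H264.Chn (G ⧸ Z) r := by
  cases h with
  | sl k hk n hn =>
    obtain ⟨m, rfl⟩ := Nat.exists_eq_add_of_le' (show 1 ≤ n by omega)
    exact ⟨m, QC.qf_sl (H515.locK hk) (by omega), fun Z _ hZ => chn_sl_quo k m Z hZ⟩
  | isom k hk σ hσ hn ε hε hσε ι J₀ hH hJ hu q hq G hG =>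
    obtain rfl : G = FormGroup σ (hyp q ε J₀) := by
      ext g
      rw [hG]
      rfl
    obtain ⟨q, rfl⟩ : ∃ p, q = p + 2 := ⟨q - 2, by omega⟩
    have key : ∀ (hF : Frm σ ε (hyp (q + 2) ε J₀))
        (hGT : FormGroup σ (hyp (q + 2) ε J₀) = GT σ ε (hyp (q + 2) ε J₀))
        (hfin : Finite (Subgroup.center (FormGroup σ (hyp (q + 2) ε J₀))))
        (Z : Subgroup (FormGroup σ (hyp (q + 2) ε J₀))) [Z.Normal],
        Z ≤ Subgroup.center (FormGroup σ (hyp (q + 2) ε J₀)) →
        H264.Chn (FormGroup σ (hyp (q + 2) ε J₀) ⧸ Z) (q + 2) := by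
      intro hF hGT hfin Z _ hZ
      have hfZ : (Z : Set (FormGroup σ (hyp (q + 2) ε J₀))).Finite :=
        (Set.toFinite (Subgroup.center (FormGroup σ (hyp (q + 2) ε J₀)) : Set _)).subset hZ
      refine chn_form_quo q hσ hn hε hσε Z hfZ fun z hz => ?_
      obtain ⟨a, -, ha⟩ := center_smul hF hGT.ge le_rfl (hZ hz)
      exact ⟨a, ha⟩
    by_cases hne : ∃ c, σ c ≠ c
    · -- unitary
      have h0 := frm0_of_aniso hσ hε hne hH hσε hJ
      have hcc := cc_of_ne hσ hε hσε hne
      have hF : Frm σ ε (hyp (q + 2) ε J₀) := frm_hyp hσ hε hσε h0 hcc (by omega)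
      obtain ⟨r, hr, hr1⟩ := exists_fix hF hn
      have hr0 : r ≠ 0 := by
        rintro rfl
        rw [norm_zero] at hr1
        linarith
      have hr1' : r ≠ 1 := by
        rintro rfl
        rw [norm_one] at hr1
        linarith
      have hGT := formGroup_eq_GT hF hne hr hr0 hr1'
      have hm := hmg_form hn hF hGT
      have hq := qf_of_fct (fct_form (H515.locK hk) hn hσ hε hσε h0 hcc (by omega) hJ hGT
        hm.howeMoore) hm (erg_form (H515.locK hk) hn hF hGT)
      exact ⟨q + 2, hq, key hF hGT hq.fin⟩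
    · -- symplectic
      obtain ⟨rfl, hι⟩ := hu.resolve_left hne
      push Not at hne
      obtain rfl : σ = RingHom.id k := RingHom.ext hne
      have hcc : ∃ c : k, c ≠ 0 ∧ c + -1 * (RingHom.id k) c = 0 :=
        ⟨1, one_ne_zero, by simp⟩
      have h0 : Frm0 (RingHom.id k) (-1) J₀ := frm0_empty
      have hF : Frm (RingHom.id k) (-1) (hyp (q + 2) (-1) J₀) :=
        frm_hyp hσ hε hσε h0 hcc (by omega)
      have hGT : FormGroup (RingHom.id k) (hyp (q + 2) (-1) J₀) =
          GT (RingHom.id k) (-1) (hyp (q + 2) (-1) J₀) := by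
        refine H15.formGroup_eq_GT ⟨?_, ?_, ?_⟩
        · intro i
          rcases i with (i | i) | i
          · simp [hyp]
          · simp [hyp]
          · exact (hι.false i).elim
        · intro i j
          rcases i with (i | i) | i <;> rcases j with (j | j) | j <;>
            first
              | exact (hι.false i).elim
              | exact (hι.false j).elim
              | simp [hyp, Matrix.one_apply, eq_comm]
        · intro h
          obtain ⟨v, hv0, hv⟩ := Matrix.exists_vecMul_eq_zero_iff.2 h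
          obtain ⟨y, hy⟩ := hF.nondeg v hv0
          apply hy
          unfold hf
          rw [dotProduct_mulVec, hv, zero_dotProduct]
      have hm := hmg_form hn hF hGT
      have hq := qf_of_fct (fct_form (H515.locK hk) hn hσ hε hσε h0 hcc (by omega) hJ hGT
        hm.howeMoore) hm (erg_form (H515.locK hk) hn hF hGT)
      exact ⟨q + 2, hq, key hF hGT hq.fin⟩

/-- **Every group of the class with central quotients is in the class `QF`**. -/
theorem clsZ_qf {G : Type} [Group G] [TopologicalSpace G] (h : ClsZ G) : ∃ r, QF G r := by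
  cases h with
  | of _ h =>
    obtain ⟨r, hr, -⟩ := chn_cls h
    exact ⟨r, hr⟩
  | quo G h Z hZ =>
    obtain ⟨r, hr, hc⟩ := chn_cls h
    exact ⟨r, qf_quo hr Z hZ (hc Z hZ)⟩

/-- The final theorem for the class with central quotients. -/
theorem superZ (B : Q.Blk) (Γ : Type) [Group Γ] (h : ClassLatticeZ Γ) : Super Γ := by
  obtain ⟨hicc, I, _, G, _, _, i, hG, hi⟩ := h
  choose r hr using fun j => clsZ_qf (hG j)
  exact QC.super_emb B hr i hi hicc

end Vale.Agent.P092.H387.Qt
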