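import Vale.Agent.P092.H387.Qt6
import Vale.Agent.P092.H387.ExP1
import Vale.Agent.P092.H465.QAll

/-!
P092 (helper387), [QC-QUOT] (8): `PSL_n(ℤ[1/N])` is W*-superrigid, `n ≥ 2`, `N ≥ 2`.
-/

set_option linter.all false

open Matrix Filter Topology
open Vale.Agent.P092.H515.St Vale.Agent.P092.SR.St Vale.Agent.P092.PC.St Vale.Agent.P092.QC.St

namespace Vale.Agent.P092.H387.N

theorem locK_KK (N : ℕ) : ∀ i : Option (PF N), LocK (KK N i)
  | none => LocK.real (k := ℝ) (RingEquiv.refl ℝ) fun x => rfl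
  | some p => LocK.ultra (k := ℚ_[p.1]) inferInstance

/-- `PSL_n(ℤ[1/N])` in the product of the groups `PSL_n(K_i)`. -/
theorem denseLattice_PSLN (m N : ℕ) [Fact (1 < N)] :
    DenseLattice (MonoidHom.pi (pq (m + 1) N)) where
  inj := by
    rw [injective_iff_map_eq_one]
    intro g hg
    exact pq_inj (m + 1) N g fun i => congrFun hg i
  lat := pq_lattice N m
  dense := fun i => pq_dense (m + 1) N i

theorem clsZ_PGK {n : ℕ} (h2 : 2 ≤ n) (N : ℕ) (i : Option (PF N)) : ClsZ (PGK n N i) :=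
  ClsZ.quo _ (Cls.sl (KK N i) (locK_KK N i) n h2) _ le_rfl

/-- `PSL_n(ℤ[1/N])`, `n ≥ 2`, `N ≥ 2`, is in the class. -/
theorem classLattice_PSLN {n N : ℕ} (h2 : 2 ≤ n) (hN : 2 ≤ N) :
    ClassLatticeZ (SpecialLinearGroup (Fin n) (Localization.Away (N : ℤ)) ⧸
      Subgroup.center (SpecialLinearGroup (Fin n) (Localization.Away (N : ℤ)))) := by
  haveI : Fact (1 < N) := ⟨hN⟩
  obtain ⟨m, rfl⟩ : ∃ m, n = m + 1 := ⟨n - 1, by omega⟩
  exact ⟨icc_PSLN (m + 1) N, Option (PF N), inferInstance, PGK (m + 1) N, inferInstance,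
    inferInstance, MonoidHom.pi (pq (m + 1) N), clsZ_PGK h2 N, denseLattice_PSLN m N⟩

/-- **`PSL_n(ℤ[1/N])`, `n ≥ 2`, `N ≥ 2`, is W*-superrigid** (`t = 1`). -/
theorem super_PSLN {n N : ℕ} (h2 : 2 ≤ n) (hN : 2 ≤ N) :
    Super (SpecialLinearGroup (Fin n) (Localization.Away (N : ℤ)) ⧸
      Subgroup.center (SpecialLinearGroup (Fin n) (Localization.Away (N : ℤ)))) :=
  Qt.superZ H465.blk _ (classLattice_PSLN h2 hN)

end Vale.Agent.P092.H387.N
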