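import Vale.Agent.P092.PA.Defs

/-!
P092, Team A (helper387), r factors: smooth fields at composite places.
-/

set_option linter.all false

open MeasureTheory Filter Topology ContinuousLinearMap
open scoped InnerProductSpace ENNReal

namespace Vale.Agent.P092.H387.R

open Vale.Agent.P092.PA Vale.Agent.P092.H156
open Vale.Agent.P092.H160 (RegRep Cmm)

section

variable {Γ Λ K : Type} [Group Γ] [Group Λ] [NormedAddCommGroup K] [InnerProductSpace ℂ K]
  [CompleteSpace K] (D : Pic Γ Λ K)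
variable {G G' H H' : Type} [Group G] [TopologicalSpace G] [MeasurableSpace G]
  [Group H] [TopologicalSpace H] [Group G'] [TopologicalSpace G'] [MeasurableSpace G']
  [Group H'] [TopologicalSpace H']

/-- Pull back a smooth element along continuous homomorphisms. -/
theorem smo_comap {p' : Γ →* G'} {q' : Λ →* H'} (e : G' →* G) (he : Continuous e) (f : H' →* H)
    (hf : Continuous f) {μ : Measure G} {μ' : Measure G'} (hμ : MeasurePreserving e μ' μ)
    {b : G → K →L[ℂ] K} (hb : Smo D (e.comp p') (f.comp q') μ b) :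
    Smo D p' q' μ' (fun x => b (e x)) where
  equiv := fun γ x => by
    rw [map_mul]
    exact hb.equiv γ (e x)
  bdd := by
    obtain ⟨C, hC⟩ := hb.bdd
    exact ⟨C, fun x => hC _⟩
  rcont := fun ε hε => by
    obtain ⟨U, hU, h1⟩ := hb.rcont ε hε
    refine ⟨e ⁻¹' U, he.continuousAt.preimage_mem_nhds (by rw [map_one]; exact hU),
      fun y hy x => ?_⟩
    rw [map_mul]
    exact h1 _ hy _
  acont := fun ε hε => by
    obtain ⟨U, hU, h1⟩ := hb.acont ε hε
    exact ⟨f ⁻¹' U, hf.continuousAt.preimage_mem_nhds (by rw [map_one]; exact hU),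
      fun v hv x => h1 v hv _⟩
  l2 := hb.l2.comp_measurePreserving hμ

theorem nes_comap {p' : Γ →* G'} {q' : Λ →* H'} (e : G' →* G) (he : Continuous e)
    (hes : Function.Surjective e) (f : H' →* H)
    (hf : Continuous f) {μ : Measure G} {μ' : Measure G'} (hμ : MeasurePreserving e μ' μ)
    (h : NeS D (e.comp p') (f.comp q') μ) : NeS D p' q' μ' := by
  obtain ⟨b, hb, hb0⟩ := h
  refine ⟨_, smo_comap D e he f hf hμ hb, fun h0 => hb0 ?_⟩
  funext x
  obtain ⟨y, rfl⟩ := hes x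
  exact congrFun h0 y

/-- Change the topology on the source side only. -/
theorem smo_of_finer {p : Γ →* G} {q' : Λ →* H'} (f : H' →* H) (hf : Continuous f)
    {μ : Measure G} {b : G → K →L[ℂ] K} (hb : Smo D p (f.comp q') μ b) : Smo D p q' μ b where
  equiv := hb.equiv
  bdd := hb.bdd
  rcont := hb.rcont
  acont := fun ε hε => by
    obtain ⟨U, hU, h1⟩ := hb.acont ε hε
    exact ⟨f ⁻¹' U, hf.continuousAt.preimage_mem_nhds (by rw [map_one]; exact hU),
      fun v hv x => h1 v hv _⟩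
  l2 := hb.l2

theorem nes_of_finer {p : Γ →* G} {q' : Λ →* H'} (f : H' →* H) (hf : Continuous f)
    {μ : Measure G} (h : NeS D p (f.comp q') μ) : NeS D p q' μ := by
  obtain ⟨b, hb, hb0⟩ := h
  exact ⟨b, smo_of_finer D f hf hb, hb0⟩

theorem nes_smul {p : Γ →* G} {q : Λ →* H} {μ : Measure G} {c : ℝ≥0∞} (hc : c ≠ ⊤)
    (h : NeS D p q μ) : NeS D p q (c • μ) := by
  obtain ⟨b, hb, hb0⟩ := h
  exact ⟨b, ⟨⟨hb.equiv, hb.bdd, hb.rcont⟩, hb.acont, hb.l2.smul_measure hc⟩, hb0⟩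

end

section prod

variable {Γ Λ K : Type} [Group Γ] [Group Λ] [NormedAddCommGroup K] [InnerProductSpace ℂ K]
  [CompleteSpace K] (D : Pic Γ Λ K)
variable {G G' H H' : Type} [Group G] [TopologicalSpace G] [IsTopologicalGroup G]
  [MeasurableSpace G] [BorelSpace G] [SecondCountableTopology G]
  [Group H] [TopologicalSpace H] [Group G'] [TopologicalSpace G'] [IsTopologicalGroup G']
  [MeasurableSpace G'] [BorelSpace G'] [SecondCountableTopology G']
  [Group H'] [TopologicalSpace H']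
  {μ : Measure G} {μ' : Measure G'} [SFinite μ] [SFinite μ'] {p : Γ →* G} {p' : Γ →* G'}
  {q : Λ →* H} {q' : Λ →* H'}

/-- The product of two smooth fields. -/
theorem smo_prod {a : G → K →L[ℂ] K} {b : G' → K →L[ℂ] K} (f1 : F1 D p q μ) (ha : Smo D p q μ a)
    (hb : Smo D p' q' μ' b) :
    Smo D (p.prod p') (q.prod q') (μ.prod μ') (fun z => a z.1 * b z.2) where
  equiv := fun γ x => by
    show a (p γ * x.1) * b (p' γ * x.2) = _
    rw [ha.equiv, hb.equiv]
    have h1 : D.ρ γ⁻¹ * D.ρ γ = 1 := by rw [← map_mul, inv_mul_cancel, map_one]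
    calc D.ρ γ * a x.1 * D.ρ γ⁻¹ * (D.ρ γ * b x.2 * D.ρ γ⁻¹)
        = D.ρ γ * a x.1 * (D.ρ γ⁻¹ * D.ρ γ) * b x.2 * D.ρ γ⁻¹ := by simp only [mul_assoc]
      _ = _ := by rw [h1, mul_one]; simp only [mul_assoc]
  bdd := by
    obtain ⟨C, hC⟩ := ha.bdd
    obtain ⟨C', hC'⟩ := hb.bdd
    refine ⟨C * C', fun x => (norm_mul_le _ _).trans (mul_le_mul (hC _) (hC' _) (norm_nonneg _) ?_)⟩
    exact (norm_nonneg _).trans (hC x.1)
  rcont := fun ε hε => by
    obtain ⟨C, hC0, hC⟩ := Sm.Fd.exists_bdd ha.toFd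
    obtain ⟨C', hC0', hC'⟩ := Sm.Fd.exists_bdd hb.toFd
    obtain ⟨U, hU, h1⟩ := ha.rcont (ε / 2 / C') (by positivity)
    obtain ⟨U', hU', h1'⟩ := hb.rcont (ε / 2 / C) (by positivity)
    refine ⟨U ×ˢ U', prod_mem_nhds hU hU', fun y hy x => ?_⟩
    have e : a (x * y).1 * b (x * y).2 - a x.1 * b x.2 =
        (a (x.1 * y.1) - a x.1) * b (x.2 * y.2) + a x.1 * (b (x.2 * y.2) - b x.2) := by
      show a (x.1 * y.1) * b (x.2 * y.2) - a x.1 * b x.2 = _
      rw [sub_mul, mul_sub]; abel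
    rw [e]
    refine (norm_add_le _ _).trans ?_
    have h2 : ‖(a (x.1 * y.1) - a x.1) * b (x.2 * y.2)‖ ≤ ε / 2 := by
      refine (norm_mul_le _ _).trans ?_
      calc _ ≤ (ε / 2 / C') * C' := mul_le_mul (h1 _ hy.1 _) (hC' _) (norm_nonneg _) (by positivity)
        _ = _ := div_mul_cancel₀ _ hC0'.ne'
    have h3 : ‖a x.1 * (b (x.2 * y.2) - b x.2)‖ ≤ ε / 2 := by
      refine (norm_mul_le _ _).trans ?_
      calc _ ≤ C * (ε / 2 / C) := mul_le_mul (hC _) (h1' _ hy.2 _) (norm_nonneg _) hC0.le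
        _ = _ := mul_div_cancel₀ _ hC0.ne'
    linarith
  acont := fun ε hε => by
    obtain ⟨C, hC0, hC⟩ := Sm.Fd.exists_bdd ha.toFd
    obtain ⟨C', hC0', hC'⟩ := Sm.Fd.exists_bdd hb.toFd
    obtain ⟨U, hU, h1⟩ := ha.acont (ε / 2 / C') (by positivity)
    obtain ⟨U', hU', h1'⟩ := hb.acont (ε / 2 / C) (by positivity)
    refine ⟨U ×ˢ U', prod_mem_nhds hU hU', fun v hv x => ?_⟩
    have hfr := D.frm
    have h0 : D.V v⁻¹ * D.V v = 1 := hfr.inv_mul v
    have e : D.V v * (a x.1 * b x.2) * D.V v⁻¹ - a x.1 * b x.2 =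
        (D.V v * a x.1 * D.V v⁻¹ - a x.1) * (D.V v * b x.2 * D.V v⁻¹) +
          a x.1 * (D.V v * b x.2 * D.V v⁻¹ - b x.2) := by
      have e1 : D.V v * (a x.1 * b x.2) * D.V v⁻¹ =
          (D.V v * a x.1 * D.V v⁻¹) * (D.V v * b x.2 * D.V v⁻¹) := by
        calc D.V v * (a x.1 * b x.2) * D.V v⁻¹
            = D.V v * a x.1 * 1 * b x.2 * D.V v⁻¹ := by simp only [mul_assoc, one_mul]
          _ = _ := by rw [← h0]; simp only [mul_assoc]
      rw [e1, sub_mul, mul_sub]; abel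
    rw [e]
    refine (norm_add_le _ _).trans ?_
    have hnb : ‖D.V v * b x.2 * D.V v⁻¹‖ ≤ C' := by
      calc ‖D.V v * b x.2 * D.V v⁻¹‖ ≤ ‖D.V v‖ * ‖b x.2‖ * ‖D.V v⁻¹‖ :=
            (norm_mul_le _ _).trans (mul_le_mul_of_nonneg_right (norm_mul_le _ _) (norm_nonneg _))
        _ ≤ 1 * C' * 1 := mul_le_mul (mul_le_mul (hfr.norm_le v) (hC' _) (norm_nonneg _)
            zero_le_one) (hfr.norm_le _) (norm_nonneg _) (by positivity)
        _ = C' := by ring
    have h2 : ‖(D.V v * a x.1 * D.V v⁻¹ - a x.1) * (D.V v * b x.2 * D.V v⁻¹)‖ ≤ ε / 2 := by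
      refine (norm_mul_le _ _).trans ?_
      calc _ ≤ (ε / 2 / C') * C' := mul_le_mul (h1 _ hv.1 _) hnb (norm_nonneg _) (by positivity)
        _ = _ := div_mul_cancel₀ _ hC0'.ne'
    have h3 : ‖a x.1 * (D.V v * b x.2 * D.V v⁻¹ - b x.2)‖ ≤ ε / 2 := by
      refine (norm_mul_le _ _).trans ?_
      calc _ ≤ C * (ε / 2 / C) := mul_le_mul (hC _) (h1' _ hv.2 _) (norm_nonneg _) hC0.le
        _ = _ := mul_div_cancel₀ _ hC0.ne'
    linarith
  l2 := by
    have hca : Continuous a := Sm.Fd.continuous ha.toFd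
    have hcb : Continuous b := Sm.Fd.continuous hb.toFd
    have hcont : Continuous fun z : G × G' => (a z.1 * b z.2) D.Ω :=
      ((hca.comp continuous_fst).mul (hcb.comp continuous_snd)).clm_apply continuous_const
    have hmeas : AEStronglyMeasurable (fun z : G × G' => (a z.1 * b z.2) D.Ω) (μ.prod μ') :=
      hcont.aestronglyMeasurable
    refine ⟨hmeas, ?_⟩
    rw [eLpNorm_lt_top_iff_lintegral_rpow_enorm_lt_top two_ne_zero ENNReal.ofNat_ne_top]
    simp only [ENNReal.toReal_ofNat]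
    have hmeas2 : AEMeasurable (fun z : G × G' => ‖(a z.1 * b z.2) D.Ω‖ₑ ^ (2 : ℝ)) (μ.prod μ') :=
      hmeas.enorm.pow_const _
    rw [lintegral_prod_symm _ hmeas2]
    have key : ∀ ζ : K, ∫⁻ x, ‖a x ζ‖ₑ ^ (2 : ℝ) ∂μ =
        ENNReal.ofReal ((Sm.ip D.Ω μ a a).re) * ‖ζ‖ₑ ^ (2 : ℝ) := by
      intro ζ
      obtain ⟨hm, hi⟩ := f1 a a ha ha ζ ζ
      have h1 : ∫ x, ‖a x ζ‖ ^ 2 ∂μ = (Sm.ip D.Ω μ a a).re * ‖ζ‖ ^ 2 := by
        have h2 := congrArg Complex.re hi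
        have h3 : ∀ x, ⟪a x ζ, a x ζ⟫_ℂ = ((‖a x ζ‖ ^ 2 : ℝ) : ℂ) := fun x => by
          rw [inner_self_eq_norm_sq_to_K]; push_cast; rfl
        have h4 : ⟪ζ, ζ⟫_ℂ = ((‖ζ‖ ^ 2 : ℝ) : ℂ) := by
          rw [inner_self_eq_norm_sq_to_K]; push_cast; rfl
        simp only [h3, h4] at h2
        have h5 : ∫ x, ((‖a x ζ‖ ^ 2 : ℝ) : ℂ) ∂μ = ((∫ x, ‖a x ζ‖ ^ 2 ∂μ : ℝ) : ℂ) :=
          integral_ofReal
        rw [h5, Complex.ofReal_re, Complex.re_mul_ofReal] at h2
        exact h2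
      have h5 : ∀ x, ‖a x ζ‖ₑ ^ (2 : ℝ) = ENNReal.ofReal (‖a x ζ‖ ^ 2) := fun x => by
        rw [ENNReal.ofReal_pow (norm_nonneg _), ofReal_norm_eq_enorm, ENNReal.rpow_ofNat]
      simp only [h5]
      have h6 : Integrable (fun x => ‖a x ζ‖ ^ 2) μ := hm.integrable_norm_pow two_ne_zero
      rw [← ofReal_integral_eq_lintegral_ofReal h6 (Eventually.of_forall fun x => by positivity),
        h1, ENNReal.ofReal_mul' (by positivity), ENNReal.ofReal_pow (norm_nonneg _),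
        ofReal_norm_eq_enorm, ENNReal.rpow_ofNat]
    have e1 : ∀ y, ∫⁻ x, ‖(a x * b y) D.Ω‖ₑ ^ (2 : ℝ) ∂μ =
        ENNReal.ofReal ((Sm.ip D.Ω μ a a).re) * ‖b y D.Ω‖ₑ ^ (2 : ℝ) := fun y => key (b y D.Ω)
    simp only [e1]
    have hmb : Measurable fun y => ‖b y D.Ω‖ₑ ^ (2 : ℝ) :=
      ((hcb.clm_apply continuous_const).enorm.measurable).pow_const _
    rw [lintegral_const_mul _ hmb]
    refine ENNReal.mul_lt_top ENNReal.ofReal_lt_top ?_
    have h7 := hb.l2.2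
    rw [eLpNorm_lt_top_iff_lintegral_rpow_enorm_lt_top two_ne_zero ENNReal.ofNat_ne_top] at h7
    simpa only [ENNReal.toReal_ofNat] using h7

/-- **Composite place**: nonzero smooth fields at two places give one at the product. -/
theorem nes_prod [μ.IsOpenPosMeasure] (f1 : F1 D p q μ) (n : NeS D p q μ)
    (n' : NeS D p' q' μ') : NeS D (p.prod p') (q.prod q') (μ.prod μ') := by
  obtain ⟨a, ha, ha0⟩ := n
  obtain ⟨b, hb, hb0⟩ := n'
  refine ⟨_, smo_prod D f1 ha hb, fun h0 => hb0 ?_⟩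
  have hca : Continuous a := Sm.Fd.continuous ha.toFd
  have hip : Sm.ip D.Ω μ a a ≠ 0 := by
    intro hz
    apply ha0
    have h1 : ∀ ζ : K, ∀ x, a x ζ = 0 := by
      intro ζ
      obtain ⟨hm, hi⟩ := f1 a a ha ha ζ ζ
      rw [hz, zero_mul] at hi
      have h3 : ∀ x, ⟪a x ζ, a x ζ⟫_ℂ = ((‖a x ζ‖ ^ 2 : ℝ) : ℂ) := fun x => by
        rw [inner_self_eq_norm_sq_to_K]; push_cast; rfl
      simp only [h3] at hi
      have h5 : ∫ x, ((‖a x ζ‖ ^ 2 : ℝ) : ℂ) ∂μ = ((∫ x, ‖a x ζ‖ ^ 2 ∂μ : ℝ) : ℂ) :=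
        integral_ofReal
      rw [h5] at hi
      have h6 : ∫ x, ‖a x ζ‖ ^ 2 ∂μ = 0 := by exact_mod_cast hi
      have h7 : Integrable (fun x => ‖a x ζ‖ ^ 2) μ := hm.integrable_norm_pow two_ne_zero
      rw [integral_eq_zero_iff_of_nonneg (fun x => by positivity) h7] at h6
      have h8 : Continuous fun x => ‖a x ζ‖ ^ 2 :=
        ((hca.clm_apply continuous_const).norm).pow 2
      have h9 := Continuous.ae_eq_iff_eq μ h8 (continuous_zero : Continuous (0 : G → ℝ)) |>.1 h6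
      intro x
      have h10 := congrFun h9 x
      have h11 : ‖a x ζ‖ ^ 2 = 0 := h10
      exact norm_eq_zero.1 (pow_eq_zero_iff two_ne_zero |>.1 h11)
    funext x
    ext ζ
    exact h1 ζ x
  funext y
  ext ζ
  obtain ⟨hm, hi⟩ := f1 a a ha ha (b y ζ) (b y ζ)
  have h1 : ∀ x, a x (b y ζ) = 0 := fun x => by
    have := congrFun h0 (x, y)
    exact congrArg (fun T : K →L[ℂ] K => T ζ) this
  simp only [h1, inner_zero_left, integral_zero] at hi
  rcases mul_eq_zero.1 hi.symm with h2 | h2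
  · exact absurd h2 hip
  · exact inner_self_eq_zero.1 h2

end prod

end Vale.Agent.P092.H387.R
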