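import Vale.Agent.P092.H387.R1

/-!
P092, Team A (helper387), r factors: smooth fields at the product of finitely many places.
-/

set_option linter.all false

open MeasureTheory Filter Topology ContinuousLinearMap
open scoped InnerProductSpace ENNReal

namespace Vale.Agent.P092.H387.R

open Vale.Agent.P092.PA Vale.Agent.P092.H156
open Vale.Agent.P092.H160 (RegRep Cmm)

variable {Γ Λ K : Type} [Group Γ] [Group Λ] [NormedAddCommGroup K] [InnerProductSpace ℂ K]
  [CompleteSpace K] (D : Pic Γ Λ K)

/-- Nonzero smooth fields at the product of finitely many places. -/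
theorem nes_piFin : ∀ (n : ℕ) (G : Fin n → Type) [∀ i, Group (G i)] [∀ i, TopologicalSpace (G i)]
    [∀ i, IsTopologicalGroup (G i)] [∀ i, MeasurableSpace (G i)] [∀ i, BorelSpace (G i)]
    [∀ i, SecondCountableTopology (G i)] (H : Fin n → Type) [∀ i, Group (H i)]
    [∀ i, TopologicalSpace (H i)] (p : ∀ i, Γ →* G i) (q : ∀ i, Λ →* H i)
    (μ : ∀ i, Measure (G i)) [∀ i, SigmaFinite (μ i)] [∀ i, (μ i).IsOpenPosMeasure],
    (∀ i, F1 D (p i) (q i) (μ i)) → (∀ i, NeS D (p i) (q i) (μ i)) →
    NeS D (MonoidHom.pi p) (MonoidHom.pi q) (Measure.pi μ) := by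
  intro n
  induction n with
  | zero =>
    intro G _ _ _ _ _ _ H _ _ p q μ _ _ _ _
    refine ⟨fun _ => 1, ⟨⟨fun γ x => ?_, ⟨1, fun x => ?_⟩, fun ε hε => ⟨Set.univ, univ_mem,
      fun y _ x => by simp [hε.le]⟩⟩, fun ε hε => ⟨Set.univ, univ_mem, fun v _ x => ?_⟩, ?_⟩, ?_⟩
    · rw [mul_one, ← map_mul, mul_inv_cancel, map_one]
    · exact ContinuousLinearMap.norm_id_le
    · rw [mul_one, ← map_mul, mul_inv_cancel, map_one, sub_self, norm_zero]
      exact hε.le
    · haveI : IsFiniteMeasure (Measure.pi μ) := by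
        refine ⟨?_⟩
        have h1 : (Set.univ : Set (∀ i, G i)) = Set.pi Set.univ fun i => Set.univ := by simp
        rw [h1, Measure.pi_pi]
        simp
      exact memLp_const _
    · intro h0
      have h1 := congrArg (fun T : K →L[ℂ] K => T D.Ω) (congrFun h0 1)
      have h2 : D.Ω = 0 := h1
      have h3 := D.frm.norm_omega
      rw [h2, norm_zero] at h3
      exact zero_ne_one h3
  | succ n ih =>
    intro G _ _ _ _ _ _ H _ _ p q μ _ _ f1 hn
    have h1 := ih (fun j => G (Fin.succAbove 0 j)) (fun j => H (Fin.succAbove 0 j))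
      (fun j => p (Fin.succAbove 0 j)) (fun j => q (Fin.succAbove 0 j))
      (fun j => μ (Fin.succAbove 0 j)) (fun j => f1 _) (fun j => hn _)
    have h2 := nes_prod D (f1 0) (hn 0) h1
    refine nes_comap D (p' := MonoidHom.pi p) (q' := MonoidHom.pi q)
      ((Pi.evalMonoidHom G 0).prod (MonoidHom.pi fun j => Pi.evalMonoidHom G (Fin.succAbove 0 j)))
      ?_ ?_ ((Pi.evalMonoidHom H 0).prod
        (MonoidHom.pi fun j => Pi.evalMonoidHom H (Fin.succAbove 0 j))) ?_ ?_ h2
    · exact (continuous_apply 0).prodMk (continuous_pi fun j => continuous_apply _)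
    · exact (MeasurableEquiv.piFinSuccAbove G 0).surjective
    · exact (continuous_apply 0).prodMk (continuous_pi fun j => continuous_apply _)
    · exact measurePreserving_piFinSuccAbove μ 0

/-- Nonzero smooth fields at the product of finitely many places. -/
theorem nes_pi {J : Type} [Fintype J] (G H : J → Type) [∀ i, Group (G i)]
    [∀ i, TopologicalSpace (G i)]
    [∀ i, IsTopologicalGroup (G i)] [∀ i, MeasurableSpace (G i)] [∀ i, BorelSpace (G i)]
    [∀ i, SecondCountableTopology (G i)] [∀ i, Group (H i)]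
    [∀ i, TopologicalSpace (H i)] (p : ∀ i, Γ →* G i) (q : ∀ i, Λ →* H i)
    (μ : ∀ i, Measure (G i)) [∀ i, SigmaFinite (μ i)] [∀ i, (μ i).IsOpenPosMeasure]
    (f1 : ∀ i, F1 D (p i) (q i) (μ i)) (hn : ∀ i, NeS D (p i) (q i) (μ i)) :
    NeS D (MonoidHom.pi p) (MonoidHom.pi q) (Measure.pi μ) := by
  have e := (Fintype.equivFin J).symm
  have h1 := nes_piFin D (Fintype.card J) (fun i => G (e i)) (fun i => H (e i))
    (fun i => p (e i)) (fun i => q (e i)) (fun i => μ (e i)) (fun i => f1 _) (fun i => hn _)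
  refine nes_comap D (p' := MonoidHom.pi p) (q' := MonoidHom.pi q)
    (MonoidHom.pi fun i => Pi.evalMonoidHom G (e i)) ?_ ?_
    (MonoidHom.pi fun i => Pi.evalMonoidHom H (e i)) ?_ ?_ h1
  · exact continuous_pi fun j => continuous_apply _
  · exact (MeasurableEquiv.piCongrLeft G e).symm.surjective
  · exact continuous_pi fun j => continuous_apply _
  · exact (measurePreserving_piCongrLeft μ e).symm _

end Vale.Agent.P092.H387.R
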