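import Vale.Agent.P092.H259.SLF
import Vale.Agent.P092.H387.R2

/-!
P092, Team A (helper387), r factors: the product of finitely many factors and its quotient by the
centre.
-/

set_option linter.all false

open MeasureTheory Filter Topology Set
open scoped ENNReal

namespace Vale.Agent.P092.H387.R

open Vale.Agent.P092.H259

section cf

variable {I : Type} [Finite I] (E : I → Type) [∀ i, Group (E i)]

theorem mem_center_pi {g : ∀ i, E i} :
    g ∈ Subgroup.center (∀ i, E i) ↔ ∀ i, g i ∈ Subgroup.center (E i) := by
  classical
  constructor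
  · intro h i
    rw [Subgroup.mem_center_iff] at h ⊢
    intro x
    have h1 := congrFun (h (Pi.mulSingle i x)) i
    simpa using h1
  · intro h
    rw [Subgroup.mem_center_iff]
    intro x
    funext i
    exact Subgroup.mem_center_iff.1 (h i) (x i)

variable [∀ i, TopologicalSpace (E i)]

theorem cf_pi (h : ∀ i, Cf (E i)) : Cf (∀ i, E i) where
  fin := by
    haveI := fun i => (h i).fin
    refine Finite.of_injective (β := ∀ i, Subgroup.center (E i))
      (fun z i => ⟨z.1 i, (mem_center_pi E).1 z.2 i⟩) ?_
    intro z w hzw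
    apply Subtype.ext
    funext i
    exact congrArg Subtype.val (congrFun hzw i)
  cen := by
    classical
    intro g hg
    rw [mem_center_pi]
    intro i
    refine (h i).cen _ ?_
    have hc : Continuous fun x : E i => (Pi.mulSingle i x : ∀ i, E i) := continuous_mulSingle i
    have h1 := hg.preimage hc
    convert h1 using 1
    ext x
    simp only [mem_preimage, SetLike.mem_coe, Subgroup.mem_centralizer_singleton_iff]
    constructor
    · intro hx
      funext j
      by_cases hj : j = i
      · subst hj
        simpa using hx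
      · simp [Pi.mulSingle_eq_of_ne hj]
    · intro hx
      simpa using congrFun hx i

variable [∀ i, IsTopologicalGroup (E i)]

/-- The map `(∏ E_i)/Z → ∏ (E_i/Z)`. -/
def qpi : PQ (∀ i, E i) →* ∀ i, PQ (E i) :=
  QuotientGroup.lift (Subgroup.center (∀ i, E i))
    (MonoidHom.pi fun i => (pq (E i)).comp (Pi.evalMonoidHom E i)) (by
      intro g hg
      rw [MonoidHom.mem_ker]
      funext i
      exact (QuotientGroup.eq_one_iff _).2 ((mem_center_pi E).1 hg i))

theorem qpi_mk (g : ∀ i, E i) (i : I) : qpi E (pq _ g) i = pq (E i) (g i) := rfl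

theorem qpi_injective : Function.Injective (qpi E) := by
  rw [injective_iff_map_eq_one]
  intro x hx
  obtain ⟨g, rfl⟩ := pq_surj x
  refine (QuotientGroup.eq_one_iff _).2 ((mem_center_pi E).2 fun i => ?_)
  exact (QuotientGroup.eq_one_iff _).1 (congrFun hx i)

theorem qpi_surjective : Function.Surjective (qpi E) := by
  intro y
  choose g hg using fun i => pq_surj (y i)
  exact ⟨pq _ g, funext hg⟩

theorem continuous_qpi : Continuous (qpi E) := by
  refine continuous_quot_lift _ ?_
  exact continuous_pi fun i => continuous_pq.comp (continuous_apply i)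

theorem isOpenMap_qpi : IsOpenMap (qpi E) := by
  intro U hU
  have h1 : IsOpenMap (fun (g : ∀ i, E i) i => pq (E i) (g i)) :=
    IsOpenMap.piMap (fun i => QuotientGroup.isOpenMap_coe) (Eventually.of_forall fun i => pq_surj)
  have h2 : qpi E '' U = (fun (g : ∀ i, E i) i => pq (E i) (g i)) '' ((pq (∀ i, E i)) ⁻¹' U) := by
    ext y
    constructor
    · rintro ⟨x, hx, rfl⟩
      obtain ⟨g, rfl⟩ := pq_surj x
      exact ⟨g, hx, rfl⟩
    · rintro ⟨g, hg, rfl⟩
      exact ⟨_, hg, rfl⟩
  rw [h2]
  exact h1 _ (hU.preimage continuous_pq)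

/-- `(∏ E_i)/Z ≃ ∏ (E_i/Z)`. -/
noncomputable def qpie : PQ (∀ i, E i) ≃ₜ* ∀ i, PQ (E i) :=
  { MulEquiv.ofBijective (qpi E) ⟨qpi_injective E, qpi_surjective E⟩ with
    continuous_toFun := continuous_qpi E
    continuous_invFun := by
      have h : Continuous (Equiv.ofBijective (qpi E) ⟨qpi_injective E, qpi_surjective E⟩).symm := by
        rw [continuous_def]
        intro U hU
        rw [← Equiv.image_eq_preimage_symm]
        exact isOpenMap_qpi E U hU
      exact h }

theorem qpie_apply (x : PQ (∀ i, E i)) : qpie E x = qpi E x := rfl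

end cf

end Vale.Agent.P092.H387.R
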