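import Vale.Agent.P092.H387.R3
import Vale.Agent.P092.H259.Tran

/-!
P092, Team A (helper387), r factors: the places of an irreducible lattice in a product of finitely
many factors.
-/

set_option linter.all false

open MeasureTheory Filter Topology Set
open scoped ENNReal

namespace Vale.Agent.P092.H387.R

open Vale.Agent.P092.H259
open Vale.Agent.P092.H515.St (IsLattice)

section pl

variable {Γ Γ' G : Type} [Group Γ] [Group Γ'] [Group G] [TopologicalSpace G]

theorem pl_comp (e : Γ' ≃* Γ) {p : Γ →* G} (h : PA.Pl p) : PA.Pl (p.comp e.toMonoidHom) where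
  inj := h.inj.comp e.injective
  dense := by
    refine h.dense.mono ?_
    rintro _ ⟨g, rfl⟩
    exact ⟨e.symm g, by simp⟩
  noc := fun g hg U hU => h.noc (e g) (fun he => hg (e.injective (by rw [he, map_one]))) U hU

end pl

section dec

variable {I : Type} [Fintype I] [DecidableEq I] (E : I → Type) [∀ i, Group (E i)]
  [∀ i, TopologicalSpace (E i)] [∀ i, IsTopologicalGroup (E i)]

/-- The product of the factors with index `≠ j`. -/
abbrev Aw (j : I) : Type := ∀ i : {i // i ≠ j}, E i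

/-- `∏ E_i → E_j × ∏_{i ≠ j} E_i` -/
def dec (j : I) : (∀ i, E i) →* E j × Aw E j :=
  (Pi.evalMonoidHom E j).prod (MonoidHom.pi fun i : {i // i ≠ j} => Pi.evalMonoidHom E i.1)

theorem dec_eq (j : I) : (dec E j : (∀ i, E i) → E j × Aw E j) = Homeomorph.piSplitAt j E := rfl

theorem dec_proper (j : I) : IsProperMap (dec E j) := by
  rw [dec_eq]
  exact (Homeomorph.piSplitAt j E).isProperMap

theorem dec_surjective (j : I) : Function.Surjective (dec E j) := by
  rw [dec_eq]
  exact (Homeomorph.piSplitAt j E).surjective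

theorem dec_injective (j : I) : Function.Injective (dec E j) := by
  rw [dec_eq]
  exact (Homeomorph.piSplitAt j E).injective

variable (Γ : Subgroup (∀ i, E i))

/-- The place with index `j`. -/
def plc (j : I) : Γ →* PQ (E j) := (pq (E j)).comp ((Pi.evalMonoidHom E j).comp Γ.subtype)

/-- The complementary place. -/
def cpl (j : I) : Γ →* PQ (Aw E j) :=
  (pq (Aw E j)).comp
    ((MonoidHom.pi fun i : {i // i ≠ j} => Pi.evalMonoidHom E i.1).comp Γ.subtype)

/-- The lattice in the decomposed group. -/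
abbrev decG (j : I) : Subgroup (E j × Aw E j) := Γ.map (dec E j)

/-- The identification. -/
noncomputable def decE (j : I) : Γ ≃* decG E Γ j :=
  Subgroup.equivMapOfInjective Γ (dec E j) (dec_injective E j)

theorem plc_eq (j : I) : plc E Γ j = (p₁ (decG E Γ j)).comp (decE E Γ j).toMonoidHom := rfl

theorem cpl_eq (j : I) : cpl E Γ j = (p₂ (decG E Γ j)).comp (decE E Γ j).toMonoidHom := rfl

/-- The output of the block GRP for the decomposition with index `j`. -/
structure GO (j : I) [MeasurableSpace (PQ (E j) × PQ (Aw E j))] : Prop where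
  cnt : Countable Γ
  pl : PA.Pl (plc E Γ j)
  cp : PA.Pl (cpl E Γ j)
  fin : ∀ C : Set (PQ (E j) × PQ (Aw E j)), IsCompact C → {γ : Γ | (plc E Γ j γ, cpl E Γ j γ) ∈ C}.Finite
  lat : ∃ m : Measure (PQ (E j) × PQ (Aw E j)), PA.Lat ((plc E Γ j).prod (cpl E Γ j)) m

theorem isLattice_dec {Γ : Subgroup (∀ i, E i)} [∀ i, T2Space (E i)] [∀ i, LocallyCompactSpace (E i)]
    (hΓ : IsLattice Γ) (j : I) : IsLattice (decG E Γ j) :=
  isLattice_map (dec_proper E j) (dec_surjective E j) hΓ

theorem icc_dec {Γ : Subgroup (∀ i, E i)} (h : Icc Γ) (j : I) : Icc (decG E Γ j) :=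
  icc_tr (decE E Γ j).symm h

theorem dense_dec_snd {Γ : Subgroup (∀ i, E i)} (j : I)
    (h : DenseRange fun (γ : Γ) (i : {i // i ≠ j}) => (γ : ∀ i, E i) i.1) :
    DenseRange fun γ : decG E Γ j => (γ : E j × Aw E j).2 := by
  refine h.mono ?_
  rintro _ ⟨γ, rfl⟩
  exact ⟨decE E Γ j γ, rfl⟩

/-- A single projection is dense. -/
theorem dense_single {Γ : Subgroup (∀ i, E i)} {j j' : I} (hj : j ≠ j')
    (h : DenseRange fun (γ : Γ) (i : {i // i ≠ j'}) => (γ : ∀ i, E i) i.1) :
    DenseRange fun γ : Γ => (γ : ∀ i, E i) j := by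
  have h1 : Function.Surjective fun x : Aw E j' => x ⟨j, hj⟩ := by
    intro y
    classical
    exact ⟨Function.update (fun _ => 1) ⟨j, hj⟩ y, by simp⟩
  exact h1.denseRange.comp h (continuous_apply _)

theorem dense_dec_fst {Γ : Subgroup (∀ i, E i)} {j j' : I} (hj : j ≠ j')
    (h : DenseRange fun (γ : Γ) (i : {i // i ≠ j'}) => (γ : ∀ i, E i) i.1) :
    DenseRange fun γ : decG E Γ j => (γ : E j × Aw E j).1 := by
  refine (dense_single E hj h).mono ?_
  rintro _ ⟨γ, rfl⟩
  exact ⟨decE E Γ j γ, rfl⟩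

/-- **GRP** for the decomposition with index `j`. -/
theorem go [∀ i, T2Space (E i)] [∀ i, LocallyCompactSpace (E i)]
    [∀ i, SecondCountableTopology (E i)] (hE : ∀ i, Cf (E i)) {Γ : Subgroup (∀ i, E i)}
    (hΓ : IsLattice Γ) (hicc : Icc Γ) {j j' : I} (hj : j ≠ j')
    (hd : ∀ j, DenseRange fun (γ : Γ) (i : {i // i ≠ j}) => (γ : ∀ i, E i) i.1)
    [MeasurableSpace (PQ (E j) × PQ (Aw E j))] [BorelSpace (PQ (E j) × PQ (Aw E j))] :
    GO E Γ j := by
  have h1 := isLattice_dec E hΓ j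
  have h2 := icc_dec E hicc j
  have d1 := dense_dec_fst E hj (hd j')
  have d2 := dense_dec_snd E j (hd j)
  have c1 := hE j
  have c2 : Cf (Aw E j) := cf_pi _ fun i => hE i.1
  haveI := hΓ.disc
  haveI := h1.disc
  have a1 := pl₁ c1 c2 (decG E Γ j) h1.disc h2 d1 d2
  have a2 := pl₂ c1 c2 (decG E Γ j) h1.disc h2 d1 d2
  have b1 : PA.Pl (plc E Γ j) := by
    rw [plc_eq]; exact pl_comp _ a1
  have b2 : PA.Pl (cpl E Γ j) := by
    rw [cpl_eq]; exact pl_comp _ a2
  refine ⟨countable_of_disc Γ, b1, b2, fun C hC => ?_, ?_⟩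
  · have h3 := finite_pp c1 c2 (decG E Γ j) hC
    refine (h3.preimage (f := decE E Γ j) (decE E Γ j).injective.injOn).subset ?_
    intro γ hγ
    exact hγ
  · obtain ⟨m, hm⟩ := exists_lat_places c1 c2 h1 a1.inj
    refine ⟨m, lat_equiv hm ?_ ?_⟩
    · intro a b hab
      exact b1.inj (congrArg Prod.fst hab)
    · ext x
      constructor
      · rintro ⟨γ, rfl⟩
        exact ⟨decE E Γ j γ, rfl⟩
      · rintro ⟨γ, rfl⟩
        obtain ⟨γ, rfl⟩ := (decE E Γ j).surjective γ
        exact ⟨γ, rfl⟩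

end dec

end Vale.Agent.P092.H387.R
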