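import Vale.Agent.P092.SR.St

/-!
P092, Team N (helper387): literal forms of the final statement for one factor `SL_n(k)` or
`PSL_n(k)`.  Only definitions.
-/

open Vale.Agent.P092.H515.St Vale.Agent.P092.SR.St

namespace Vale.Agent.P092.SNS.St

/-- `Γ` is an ICC lattice of `SL_n(k)` or of `PSL_n(k) = SL_n(k)/centre` for some `n ≥ 3` and some
local field `k`. -/
def LatticeS (Γ : Type) [Group Γ] : Prop :=
  ICC Γ ∧ ∃ (k : Type) (_ : NontriviallyNormedField k) (n : ℕ), ProperSpace k ∧ LocK k ∧ 3 ≤ n ∧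
    ((∃ i : Γ →* Matrix.SpecialLinearGroup (Fin n) k, Function.Injective i ∧ IsLattice i.range) ∨
      ∃ i : Γ →* Matrix.SpecialLinearGroup (Fin n) k ⧸
        Subgroup.center (Matrix.SpecialLinearGroup (Fin n) k),
        Function.Injective i ∧ IsLattice i.range)

/-- The final statement, `t = 1`, with named groups: all subgroups of finite index of `PSL_n(ℤ)`,
`n ≥ 3` (these include all subgroups of finite index of `SL_n(ℤ)` which do not contain `-1`), and
`PSL_n(F[x])`, `F` a finite field. -/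
def Final1S : Prop :=
  (∀ (Γ : Type) [Group Γ], LatticeS Γ → Super Γ) ∧
  (∀ n : ℕ, 3 ≤ n → ∀ Γ : Subgroup (Matrix.SpecialLinearGroup (Fin n) ℤ ⧸
    Subgroup.center (Matrix.SpecialLinearGroup (Fin n) ℤ)), Γ.FiniteIndex → Super Γ) ∧
  ∀ (F : Type) [Field F] [Finite F] (n : ℕ), 3 ≤ n →
    Super (Matrix.SpecialLinearGroup (Fin n) (Polynomial F) ⧸
      Subgroup.center (Matrix.SpecialLinearGroup (Fin n) (Polynomial F)))

/-- The same for all `t`. -/
def FinalAllS : Prop :=
  (∀ (Γ : Type) [Group Γ], LatticeS Γ → SuperAll Γ) ∧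
  (∀ n : ℕ, 3 ≤ n → ∀ Γ : Subgroup (Matrix.SpecialLinearGroup (Fin n) ℤ ⧸
    Subgroup.center (Matrix.SpecialLinearGroup (Fin n) ℤ)), Γ.FiniteIndex → SuperAll Γ) ∧
  ∀ (F : Type) [Field F] [Finite F] (n : ℕ), 3 ≤ n →
    SuperAll (Matrix.SpecialLinearGroup (Fin n) (Polynomial F) ⧸
      Subgroup.center (Matrix.SpecialLinearGroup (Fin n) (Polynomial F)))

end Vale.Agent.P092.SNS.St
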