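import Vale.Agent.P092.QC.St

/-!
P092 (helper387), [QC-QUOT]: the class of groups of the final statement, with central quotients.  Only
definitions.
-/

open Vale.Agent.P092.SR.St Vale.Agent.P092.PC.St

namespace Vale.Agent.P092.QC.St

/-- The groups of the class `Cls` and their quotients by central subgroups (for example `PSL_n(k)`,
`PSp_{2n}(k)`, `PSU(J)`). -/
inductive ClsZ : (G : Type) → [Group G] → [TopologicalSpace G] → Prop
  | of (G : Type) [Group G] [TopologicalSpace G] (h : Cls G) : ClsZ G
  | quo (G : Type) [Group G] [TopologicalSpace G] (h : Cls G) (Z : Subgroup G) [Z.Normal]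
      (hZ : Z ≤ Subgroup.center G) : ClsZ (G ⧸ Z)

/-- `Γ` is an ICC lattice in a product of finitely many groups of the class `ClsZ`, whose projection to
every factor is dense. -/
def ClassLatticeZ (Γ : Type) [Group Γ] : Prop :=
  ICC Γ ∧ ∃ (I : Type) (_ : Fintype I) (G : I → Type) (_ : ∀ j, Group (G j))
    (_ : ∀ j, TopologicalSpace (G j)) (i : Γ →* ∀ j, G j), (∀ j, ClsZ (G j)) ∧ DenseLattice i

end Vale.Agent.P092.QC.St
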